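import Mathlib

namespace Vale.Agent.P262

open Finset

/-- A unit vector supported on `A`, orthogonal to the rows in `H`, with small weighted energy. -/
theorem good_dir {α β : Type} [Fintype α] [DecidableEq α] [Fintype β] [DecidableEq β]
    (A : Finset α) (r : β → α → ℝ) (c : β → ℝ) (hc : ∀ j, 0 ≤ c j) (H : Finset β)
    (hH : H.card < A.card) :
    ∃ u : α → ℝ, (∀ i ∉ A, u i = 0) ∧ ∑ i, u i ^ 2 = 1 ∧ (∀ j ∈ H, ∑ i, r j i * u i = 0) ∧
      ((A.card : ℝ) - H.card) * ∑ j, c j * (∑ i, r j i * u i) ^ 2 ≤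
        ∑ j ∈ univ \ H, c j * ∑ i ∈ A, r j i ^ 2 := by
  classical
  let rv : β → EuclideanSpace ℝ α := fun j => WithLp.toLp 2 (r j)
  let rA : β → EuclideanSpace ℝ α := fun j => WithLp.toLp 2 (fun i => if i ∈ A then r j i else 0)
  let S : Finset (EuclideanSpace ℝ α) := (univ \ A).image (fun i => EuclideanSpace.single i (1 : ℝ)) ∪ H.image rv
  let W : Submodule ℝ (EuclideanSpace ℝ α) := Submodule.span ℝ (S : Set (EuclideanSpace ℝ α))
  have hWdim : Module.finrank ℝ W ≤ (Fintype.card α - A.card) + H.card := by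
    refine (finrank_span_finset_le_card S).trans ?_
    refine (card_union_le _ _).trans ?_
    refine Nat.add_le_add (card_image_le.trans ?_) card_image_le
    rw [card_sdiff_of_subset (subset_univ A), card_univ]
  have hAα : A.card ≤ Fintype.card α := card_le_univ A
  have hdim : Module.finrank ℝ W + Module.finrank ℝ Wᗮ = Fintype.card α := by
    have := Submodule.finrank_add_finrank_orthogonal W
    rw [this]
    simp
  set D := Module.finrank ℝ Wᗮ with hD
  have hDge : A.card ≤ D + H.card := by omega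
  have hDpos : 0 < D := by omega
  let b := stdOrthonormalBasis ℝ Wᗮ
  let bb : Fin D → EuclideanSpace ℝ α := fun t => (b t : EuclideanSpace ℝ α)
  have hbb : Orthonormal ℝ bb := by
    have := b.orthonormal.comp_linearIsometry (Wᗮ).subtypeₗᵢ
    exact this
  have hperp : ∀ t, ∀ x ∈ S, inner ℝ x (bb t) = 0 := by
    intro t x hx
    exact (b t).2 x (Submodule.subset_span hx)
  have hsupp : ∀ t, ∀ i ∉ A, bb t i = 0 := by
    intro t i hi
    have := hperp t (EuclideanSpace.single i (1 : ℝ))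
      (mem_union_left _ (mem_image_of_mem _ (by simp [hi])))
    rw [EuclideanSpace.inner_single_left] at this
    simpa using this
  have hrow : ∀ t j, inner ℝ (rv j) (bb t) = ∑ i, r j i * bb t i := by
    intro t j
    simp [PiLp.inner_apply, rv, mul_comm]
  have hrowA : ∀ t j, inner ℝ (bb t) (rA j) = ∑ i, r j i * bb t i := by
    intro t j
    simp only [PiLp.inner_apply, rA]
    refine sum_congr rfl fun i _ => ?_
    by_cases hi : i ∈ A
    · simp [hi]
    · simp [hi, hsupp t i hi]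
  have hH0 : ∀ t, ∀ j ∈ H, ∑ i, r j i * bb t i = 0 := by
    intro t j hj
    rw [← hrow]
    exact hperp t _ (mem_union_right _ (mem_image_of_mem _ hj))
  have hbes : ∀ j, ∑ t, (∑ i, r j i * bb t i) ^ 2 ≤ ∑ i ∈ A, r j i ^ 2 := by
    intro j
    have h1 := hbb.sum_inner_products_le (x := rA j) (s := univ)
    have h2 : ‖rA j‖ ^ 2 = ∑ i ∈ A, r j i ^ 2 := by
      rw [EuclideanSpace.norm_sq_eq]
      simp only [rA, Real.norm_eq_abs, sq_abs]
      simp [ite_pow]
    rw [h2] at h1
    refine le_trans (le_of_eq ?_) h1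
    refine sum_congr rfl fun t _ => ?_
    rw [hrowA, Real.norm_eq_abs, sq_abs]
  have htot : ∑ t : Fin D, ∑ j, c j * (∑ i, r j i * bb t i) ^ 2 ≤
      ∑ j ∈ univ \ H, c j * ∑ i ∈ A, r j i ^ 2 := by
    rw [sum_comm]
    rw [← sum_sdiff (subset_univ H)]
    have h0 : ∑ j ∈ H, ∑ t : Fin D, c j * (∑ i, r j i * bb t i) ^ 2 = 0 := by
      refine sum_eq_zero fun j hj => sum_eq_zero fun t _ => ?_
      rw [hH0 t j hj]; simp
    rw [h0, add_zero]
    refine sum_le_sum fun j _ => ?_
    rw [← mul_sum]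
    exact mul_le_mul_of_nonneg_left (hbes j) (hc j)
  have : Nonempty (Fin D) := ⟨⟨0, hDpos⟩⟩
  obtain ⟨t, -, ht⟩ := exists_min_image (univ : Finset (Fin D))
    (fun t => ∑ j, c j * (∑ i, r j i * bb t i) ^ 2) univ_nonempty
  refine ⟨fun i => bb t i, hsupp t, ?_, hH0 t, ?_⟩
  · have := hbb.1 t
    have h2 := EuclideanSpace.norm_sq_eq (bb t)
    rw [this] at h2
    simp only [Real.norm_eq_abs, sq_abs] at h2
    linarith
  · refine le_trans ?_ htot
    have h3 : (D : ℝ) * ∑ j, c j * (∑ i, r j i * bb t i) ^ 2 ≤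
        ∑ t : Fin D, ∑ j, c j * (∑ i, r j i * bb t i) ^ 2 := by
      have := card_nsmul_le_sum (univ : Finset (Fin D))
        (fun t => ∑ j, c j * (∑ i, r j i * bb t i) ^ 2) _ (fun s hs => ht s hs)
      simpa using this
    refine le_trans ?_ h3
    refine mul_le_mul_of_nonneg_right ?_ (sum_nonneg fun j _ => mul_nonneg (hc j) (sq_nonneg _))
    have : (A.card : ℝ) ≤ D + H.card := by exact_mod_cast hDge
    linarith

theorem exists_small {α : Type} (B : Finset α) (y : α → ℝ) (hB : ∀ i ∈ B, |y i| < 1)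
    (t0 : ℝ) (ht0 : 0 < t0) : ∃ t : ℝ, 0 < t ∧ t ≤ t0 ∧ ∀ i ∈ B, |y i| + t ≤ 1 := by
  classical
  induction B using Finset.induction_on with
  | empty => exact ⟨t0, ht0, le_refl _, by simp⟩
  | insert a s ha ih =>
    obtain ⟨t, h1, h2, h3⟩ := ih (fun i hi => hB i (mem_insert_of_mem hi))
    have ha1 := hB a (mem_insert_self _ _)
    refine ⟨min t (1 - |y a|), lt_min h1 (by linarith), (min_le_left _ _).trans h2, ?_⟩
    intro i hi
    rcases mem_insert.1 hi with h | h
    · subst h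
      have := min_le_right t (1 - |y i|)
      linarith
    · have := h3 i h
      have := min_le_left t (1 - |y a|)
      linarith

theorem abs_le_one_of_sq {α : Type} [Fintype α] (u : α → ℝ) (hu : ∑ i, u i ^ 2 = 1) (i : α) :
    |u i| ≤ 1 := by
  have h : u i ^ 2 ≤ 1 := by
    rw [← hu]
    exact single_le_sum (f := fun i => u i ^ 2) (fun j _ => sq_nonneg _) (mem_univ i)
  exact abs_le_one_iff_mul_self_le_one.2 (by nlinarith)

/-- the compact face of the cube -/
def face {α : Type} (A : Finset α) (x : α → ℝ) : Set (α → ℝ) :=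
  {y | (∀ i, |y i| ≤ 1) ∧ ∀ i ∉ A, y i = x i}

theorem isCompact_face {α : Type} [Fintype α] (A : Finset α) (x : α → ℝ) :
    IsCompact (face A x) := by
  have h1 : IsCompact (Set.pi Set.univ (fun _ : α => Set.Icc (-1 : ℝ) 1)) :=
    isCompact_univ_pi fun _ => isCompact_Icc
  refine h1.of_isClosed_subset ?_ ?_
  · have : face A x = (⋂ i, {y : α → ℝ | |y i| ≤ 1}) ∩ ⋂ i, ⋂ (_ : i ∉ A), {y | y i = x i} := by
      ext y; simp [face]
    rw [this]
    refine IsClosed.inter ?_ ?_
    · exact isClosed_iInter fun i => isClosed_le (by fun_prop) continuous_const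
    · exact isClosed_iInter fun i => isClosed_iInter fun _ =>
        isClosed_eq (by fun_prop) continuous_const
  · intro y hy i _
    exact abs_le.1 (hy.1 i)

theorem face_move {α : Type} [Fintype α] (A : Finset α) (x y u : α → ℝ) (hy : y ∈ face A x)
    (B : Finset α) (hBA : B ⊆ A) (hu : ∀ i ∉ B, u i = 0) (hu1 : ∀ i, |u i| ≤ 1) (t : ℝ)
    (ht : 0 < t) (hB : ∀ i ∈ B, |y i| + t ≤ 1) (s : ℝ) (hs : |s| ≤ t) :
    (fun i => y i + s * u i) ∈ face A x := by
  refine ⟨fun i => ?_, fun i hi => ?_⟩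
  · by_cases hi : i ∈ B
    · have h1 := hB i hi
      have h2 : |y i + s * u i| ≤ |y i| + |s * u i| := abs_add_le _ _
      rw [abs_mul] at h2
      have h3 : |s| * |u i| ≤ t * 1 := mul_le_mul hs (hu1 i) (abs_nonneg _) ht.le
      linarith
    · simp only [hu i hi, mul_zero, add_zero]
      exact hy.1 i
  · have : i ∉ B := fun h => hi (hBA h)
    simp only [hu i this, mul_zero, add_zero]
    exact hy.2 i hi

/-- Vertex lemma. -/
theorem vertex {α β : Type} [Fintype α] [DecidableEq α] [Fintype β] [DecidableEq β]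
    (r : β → α → ℝ) (x : α → ℝ) (hx : ∀ i, |x i| ≤ 1) :
    ∃ y : α → ℝ, (∀ i, |y i| ≤ 1) ∧ (∀ j, ∑ i, r j i * y i = ∑ i, r j i * x i) ∧
      (∀ i, |x i| = 1 → y i = x i) ∧
      (univ.filter (fun i => |y i| < 1)).card ≤ Fintype.card β := by
  classical
  set A : Finset α := univ.filter (fun i => |x i| < 1) with hA
  let K : Set (α → ℝ) := face A x ∩ {y | ∀ j, ∑ i, r j i * y i = ∑ i, r j i * x i}
  have hK : IsCompact K := by
    refine (isCompact_face A x).inter_right ?_
    have : {y : α → ℝ | ∀ j, ∑ i, r j i * y i = ∑ i, r j i * x i} =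
        ⋂ j, {y | ∑ i, r j i * y i = ∑ i, r j i * x i} := by ext; simp
    rw [this]
    exact isClosed_iInter fun j => isClosed_eq (by fun_prop) continuous_const
  have hne : K.Nonempty := ⟨x, ⟨hx, fun _ _ => rfl⟩, fun _ => rfl⟩
  obtain ⟨y, hyK, hy⟩ := hK.exists_isMaxOn hne
    (f := fun y => ∑ i, y i ^ 2) (by fun_prop)
  have hA' : ∀ i, |x i| = 1 → i ∉ A := by
    intro i hi h
    have := (mem_filter.1 h).2
    linarith
  refine ⟨y, hyK.1.1, hyK.2, fun i hi => hyK.1.2 i (hA' i hi), ?_⟩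
  by_contra hcon
  push Not at hcon
  set B : Finset α := univ.filter (fun i => |y i| < 1) with hB
  have hBA : B ⊆ A := by
    intro i hi
    by_contra h
    have h1 := hyK.1.2 i h
    have h2 := (mem_filter.1 hi).2
    have h3 : ¬ |x i| < 1 := fun h' => h (mem_filter.2 ⟨mem_univ _, h'⟩)
    rw [h1] at h2
    exact h3 h2
  obtain ⟨u, hu0, hu1, hu2, -⟩ := good_dir B r (fun _ => 0) (fun _ => le_refl _) univ
    (by rw [card_univ]; exact hcon)
  obtain ⟨t, ht, -, ht2⟩ := exists_small B y (fun i hi => (mem_filter.1 hi).2) 1 one_pos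
  have hmem : ∀ s : ℝ, |s| ≤ t → (fun i => y i + s * u i) ∈ K := by
    intro s hs
    refine ⟨face_move A x y u hyK.1 B hBA hu0 (abs_le_one_of_sq u hu1) t ht ht2 s hs, ?_⟩
    intro j
    have : ∑ i, r j i * (y i + s * u i) = ∑ i, r j i * y i + s * ∑ i, r j i * u i := by
      rw [mul_sum, ← sum_add_distrib]
      exact sum_congr rfl fun i _ => by ring
    rw [this, hu2 j (mem_univ _), mul_zero, add_zero]
    exact hyK.2 j
  have h1 := hy (hmem t (by rw [abs_of_pos ht]))
  have h2 := hy (hmem (-t) (by rw [abs_neg, abs_of_pos ht]))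
  simp only [Set.mem_ofPred_eq] at h1 h2
  have h3 : ∑ i, (y i + t * u i) ^ 2 + ∑ i, (y i + -t * u i) ^ 2 =
      2 * ∑ i, y i ^ 2 + 2 * t ^ 2 * ∑ i, u i ^ 2 := by
    rw [mul_sum, mul_sum, ← sum_add_distrib, ← sum_add_distrib]
    exact sum_congr rfl fun i _ => by ring
  rw [hu1] at h3
  nlinarith

/-- the potential -/
noncomputable def Pot {α β : Type} [Fintype α] [Fintype β] (r : β → α → ℝ) (x0 y : α → ℝ) : ℝ :=
  ∑ j, Real.cosh (∑ i, r j i * (y i - x0 i))

theorem pot_pos {α β : Type} [Fintype α] [Fintype β] [Nonempty β] (r : β → α → ℝ)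
    (x0 y : α → ℝ) : 0 < Pot r x0 y :=
  sum_pos (fun j _ => Real.cosh_pos _) univ_nonempty

theorem pot_cont {α β : Type} [Fintype α] [Fintype β] (r : β → α → ℝ)
    (x0 : α → ℝ) : Continuous (fun y => Pot r x0 y) := by
  unfold Pot
  refine continuous_finsetSum _ fun j _ => ?_
  exact Real.continuous_cosh.comp (by fun_prop)

theorem cosh_le_one_add {s : ℝ} (hs : |s| ≤ 1) : Real.cosh s ≤ 1 + s ^ 2 := by
  have h1 := Real.cosh_le_exp_half_sq s
  have h2 : s ^ 2 / 2 ≤ 1 := by
    have := abs_le.1 hs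
    nlinarith
  have h3 : Real.exp (s ^ 2 / 2) ≤ 1 + s ^ 2 / 2 + (s ^ 2 / 2) ^ 2 := by
    have := Real.abs_exp_sub_one_sub_id_le (x := s ^ 2 / 2)
      (by rw [abs_of_nonneg (by positivity)]; exact h2)
    have := (abs_le.1 this).2
    linarith
  have h4 : (s ^ 2 / 2) ^ 2 ≤ s ^ 2 / 2 := by nlinarith [sq_nonneg s]
  linarith

theorem pot_step {α β : Type} [Fintype α] [DecidableEq α] [Fintype β] [DecidableEq β] [Nonempty β]
    (r : β → α → ℝ) (J : Finset β) (hJ1 : ∀ i, ∑ j ∈ J, r j i ^ 2 ≤ 3)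
    (hJ2 : ∀ j ∉ J, ∑ i, r j i ^ 2 ≤ 1) (x0 x : α → ℝ) (hx : ∀ i, |x i| ≤ 1)
    (n : ℕ) (hn : (univ.filter (fun i => |x i| < 1)).card = n) (hn0 : 0 < n) :
    ∃ y : α → ℝ, (∀ i, |y i| ≤ 1) ∧ (∀ i, |x i| = 1 → y i = x i) ∧
      (univ.filter (fun i => |y i| < 1)).card < n ∧
      Pot r x0 y ≤ Pot r x0 x * Real.exp (16 / n * (∑ i, y i ^ 2 - ∑ i, x i ^ 2)) := by
  classical
  set A : Finset α := univ.filter (fun i => |x i| < 1) with hA
  set K : ℝ := 16 / n with hK
  have hnR : (0 : ℝ) < n := by exact_mod_cast hn0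
  have hKpos : 0 < K := by positivity
  obtain ⟨y, hyK, hy⟩ := (isCompact_face A x).exists_isMinOn ⟨x, hx, fun _ _ => rfl⟩
    (f := fun y => Pot r x0 y * Real.exp (-K * ∑ i, y i ^ 2))
    (((pot_cont r x0).mul (Real.continuous_exp.comp (by fun_prop))).continuousOn)
  have hA' : ∀ i, |x i| = 1 → i ∉ A := by
    intro i hi h
    have := (mem_filter.1 h).2
    linarith
  have hxy : Pot r x0 y * Real.exp (-K * ∑ i, y i ^ 2) ≤
      Pot r x0 x * Real.exp (-K * ∑ i, x i ^ 2) := hy ⟨hx, fun _ _ => rfl⟩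
  refine ⟨y, hyK.1, fun i hi => hyK.2 i (hA' i hi), ?_, ?_⟩
  swap
  · have h1 : Real.exp (-K * ∑ i, y i ^ 2) * Real.exp (K * ∑ i, y i ^ 2) = 1 := by
      rw [← Real.exp_add]; simp
    calc Pot r x0 y = (Pot r x0 y * Real.exp (-K * ∑ i, y i ^ 2)) *
          Real.exp (K * ∑ i, y i ^ 2) := by rw [mul_assoc, h1, mul_one]
      _ ≤ (Pot r x0 x * Real.exp (-K * ∑ i, x i ^ 2)) * Real.exp (K * ∑ i, y i ^ 2) :=
          mul_le_mul_of_nonneg_right hxy (Real.exp_pos _).le
      _ = _ := by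
          rw [mul_assoc, ← Real.exp_add]
          congr 2
          ring
  by_contra hcon
  push Not at hcon
  set B : Finset α := univ.filter (fun i => |y i| < 1) with hB
  have hBA : B ⊆ A := by
    intro i hi
    by_contra h
    have h1 := hyK.2 i h
    have h2 := (mem_filter.1 hi).2
    have h3 : ¬ |x i| < 1 := fun h' => h (mem_filter.2 ⟨mem_univ _, h'⟩)
    rw [h1] at h2
    exact h3 h2
  have hBcard : B.card = n := le_antisymm (hn ▸ card_le_card hBA) hcon
  set H : Finset β := J.filter (fun j => 12 < ∑ i ∈ B, r j i ^ 2) with hH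
  have hHcard : (H.card : ℝ) ≤ n / 4 := by
    have h1 : (H.card : ℝ) * 12 ≤ ∑ j ∈ H, ∑ i ∈ B, r j i ^ 2 := by
      rw [← nsmul_eq_mul]
      exact card_nsmul_le_sum _ _ _ fun j hj => (mem_filter.1 hj).2.le
    have h2 : ∑ j ∈ H, ∑ i ∈ B, r j i ^ 2 ≤ ∑ j ∈ J, ∑ i ∈ B, r j i ^ 2 :=
      sum_le_sum_of_subset_of_nonneg (filter_subset _ _)
        fun j _ _ => sum_nonneg fun i _ => sq_nonneg _
    have h3 : ∑ j ∈ J, ∑ i ∈ B, r j i ^ 2 ≤ n * 3 := by
      rw [sum_comm, ← hBcard, ← nsmul_eq_mul]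
      exact sum_le_card_nsmul _ _ _ fun i _ => hJ1 i
    linarith
  have hHB : H.card < B.card := by
    rw [hBcard]
    have : (H.card : ℝ) < n := by linarith
    exact_mod_cast this
  set c : β → ℝ := fun j => Real.cosh (∑ i, r j i * (y i - x0 i)) with hc
  obtain ⟨u, hu0, hu1, hu2, hu3⟩ := good_dir B r c (fun j => (Real.cosh_pos _).le) H hHB
  have hPot : Pot r x0 y = ∑ j, c j := rfl
  have hPpos := pot_pos r x0 y
  set a : β → ℝ := fun j => ∑ i, r j i * u i with ha
  have hlight : ∑ j ∈ univ \ H, c j * ∑ i ∈ B, r j i ^ 2 ≤ 12 * Pot r x0 y := by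
    rw [hPot, mul_sum]
    refine (sum_le_sum (g := fun j => 12 * c j) fun j hj => ?_).trans
      (sum_le_sum_of_subset_of_nonneg (sdiff_subset) fun j _ _ => by
        have := (Real.cosh_pos (∑ i, r j i * (y i - x0 i))).le
        simp only [hc]; linarith)
    have h1 : ∑ i ∈ B, r j i ^ 2 ≤ 12 := by
      by_cases hj2 : j ∈ J
      · by_contra h
        push Not at h
        exact (mem_sdiff.1 hj).2 (mem_filter.2 ⟨hj2, h⟩)
      · have h2 := hJ2 j hj2
        have h3 : ∑ i ∈ B, r j i ^ 2 ≤ ∑ i, r j i ^ 2 :=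
          sum_le_sum_of_subset_of_nonneg (subset_univ _) fun i _ _ => sq_nonneg _
        linarith
    have h2 : 0 < c j := Real.cosh_pos _
    nlinarith
  have hkap : ∑ j, c j * a j ^ 2 ≤ K * Pot r x0 y := by
    have h1 : (3 / 4 * n : ℝ) * ∑ j, c j * a j ^ 2 ≤ 12 * Pot r x0 y := by
      refine le_trans ?_ (hu3.trans hlight)
      refine mul_le_mul_of_nonneg_right ?_
        (sum_nonneg fun j _ => mul_nonneg (Real.cosh_pos _).le (sq_nonneg _))
      rw [hBcard]; linarith
    have h2 : ∑ j, c j * a j ^ 2 = (1 / (3 / 4 * n)) * ((3 / 4 * n : ℝ) * ∑ j, c j * a j ^ 2) := by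
      field_simp
    rw [h2]
    refine (mul_le_mul_of_nonneg_left h1 (by positivity)).trans (le_of_eq ?_)
    rw [hK]; field_simp; ring
  -- choose t
  obtain ⟨M, hM⟩ : ∃ M : ℝ, ∀ j, |a j| ≤ M :=
    ⟨∑ j, |a j|, fun j => single_le_sum (f := fun j => |a j|) (fun _ _ => abs_nonneg _)
      (mem_univ j)⟩
  have hM0 : 0 ≤ M := (abs_nonneg _).trans (hM (Classical.arbitrary β))
  obtain ⟨t, ht, ht1, ht2⟩ := exists_small B y (fun i hi => (mem_filter.1 hi).2)
    (1 / (M + 1)) (by positivity)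
  have hta : ∀ j, |t * a j| ≤ 1 := by
    intro j
    rw [abs_mul, abs_of_pos ht]
    calc t * |a j| ≤ 1 / (M + 1) * (M + 1) :=
          mul_le_mul ht1 ((hM j).trans (by linarith)) (abs_nonneg _) (by positivity)
      _ = 1 := by field_simp
  have hmem : ∀ s : ℝ, |s| ≤ t → (fun i => y i + s * u i) ∈ face A x := fun s hs =>
    face_move A x y u hyK B hBA hu0 (abs_le_one_of_sq u hu1) t ht ht2 s hs
  have h1 := hy (hmem t (by rw [abs_of_pos ht]))
  have h2 := hy (hmem (-t) (by rw [abs_neg, abs_of_pos ht]))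
  simp only [Set.mem_ofPred_eq] at h1 h2
  set Fy := Pot r x0 y * Real.exp (-K * ∑ i, y i ^ 2) with hFy
  have hFpos : 0 < Fy := mul_pos hPpos (Real.exp_pos _)
  have hprod : Fy * Fy ≤ (Pot r x0 (fun i => y i + t * u i) *
      Real.exp (-K * ∑ i, (y i + t * u i) ^ 2)) * (Pot r x0 (fun i => y i + -t * u i) *
      Real.exp (-K * ∑ i, (y i + -t * u i) ^ 2)) :=
    mul_le_mul h1 h2 hFpos.le (hFpos.le.trans h1)
  have h3 : ∑ i, (y i + t * u i) ^ 2 + ∑ i, (y i + -t * u i) ^ 2 =
      2 * ∑ i, y i ^ 2 + 2 * t ^ 2 := by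
    have : 2 * t ^ 2 = 2 * t ^ 2 * ∑ i, u i ^ 2 := by rw [hu1, mul_one]
    rw [this, mul_sum, mul_sum, ← sum_add_distrib, ← sum_add_distrib]
    exact sum_congr rfl fun i _ => by ring
  have hsplit : ∀ s : ℝ, ∀ j, ∑ i, r j i * (y i + s * u i - x0 i) =
      ∑ i, r j i * (y i - x0 i) + s * a j := by
    intro s j
    rw [ha]; simp only
    rw [mul_sum, ← sum_add_distrib]
    exact sum_congr rfl fun i _ => by ring
  set Pp := Pot r x0 (fun i => y i + t * u i) with hPp
  set Pm := Pot r x0 (fun i => y i + -t * u i) with hPm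
  have hPp0 : 0 < Pp := pot_pos _ _ _
  have hPm0 : 0 < Pm := pot_pos _ _ _
  have hsum : Pp + Pm ≤ 2 * (Pot r x0 y * (1 + t ^ 2 * K)) := by
    have e1 : Pp + Pm = ∑ j, 2 * (c j * Real.cosh (t * a j)) := by
      rw [hPp, hPm]
      unfold Pot
      rw [← sum_add_distrib]
      refine sum_congr rfl fun j _ => ?_
      rw [hsplit, hsplit, Real.cosh_add, neg_mul, ← sub_eq_add_neg, Real.cosh_sub]
      simp only [hc]
      ring
    rw [e1, ← mul_sum]
    refine mul_le_mul_of_nonneg_left ?_ (by norm_num)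
    calc ∑ j, c j * Real.cosh (t * a j) ≤ ∑ j, (c j + t ^ 2 * (c j * a j ^ 2)) := by
          refine sum_le_sum fun j _ => ?_
          have := cosh_le_one_add (hta j)
          have h0 : 0 < c j := Real.cosh_pos _
          nlinarith
      _ = Pot r x0 y + t ^ 2 * ∑ j, c j * a j ^ 2 := by
          rw [sum_add_distrib, ← mul_sum, hPot]
      _ ≤ Pot r x0 y + t ^ 2 * (K * Pot r x0 y) := by
          have := mul_le_mul_of_nonneg_left hkap (sq_nonneg t)
          linarith
      _ = _ := by ring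
  have hPP : Pp * Pm ≤ (Pot r x0 y * (1 + t ^ 2 * K)) ^ 2 := by
    nlinarith [sq_nonneg (Pp - Pm), hPp0, hPm0, hPpos, mul_pos hPp0 hPm0,
      mul_pos (mul_pos ht ht) hKpos]
  have hexp : 1 + t ^ 2 * K < Real.exp (t ^ 2 * K) := by
    have := Real.add_one_lt_exp (x := t ^ 2 * K) (by positivity)
    linarith
  have hfin : (Pp * Real.exp (-K * ∑ i, (y i + t * u i) ^ 2)) *
      (Pm * Real.exp (-K * ∑ i, (y i + -t * u i) ^ 2)) < Fy * Fy := by
    have e2 : Real.exp (-K * ∑ i, (y i + t * u i) ^ 2) *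
        Real.exp (-K * ∑ i, (y i + -t * u i) ^ 2) =
        Real.exp (-K * ∑ i, y i ^ 2) ^ 2 * (Real.exp (-(t ^ 2 * K))) ^ 2 := by
      rw [← Real.exp_add, ← mul_add, h3, ← Real.exp_nat_mul, ← Real.exp_nat_mul, ← Real.exp_add]
      congr 1
      push_cast
      ring
    calc _ = (Pp * Pm) * (Real.exp (-K * ∑ i, (y i + t * u i) ^ 2) *
          Real.exp (-K * ∑ i, (y i + -t * u i) ^ 2)) := by ring
      _ = (Pp * Pm) * (Real.exp (-K * ∑ i, y i ^ 2) ^ 2 * (Real.exp (-(t ^ 2 * K))) ^ 2) := by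
          rw [e2]
      _ ≤ (Pot r x0 y * (1 + t ^ 2 * K)) ^ 2 *
          (Real.exp (-K * ∑ i, y i ^ 2) ^ 2 * (Real.exp (-(t ^ 2 * K))) ^ 2) :=
          mul_le_mul_of_nonneg_right hPP (by positivity)
      _ = (Fy * ((1 + t ^ 2 * K) * Real.exp (-(t ^ 2 * K)))) ^ 2 := by
          rw [hFy]; ring
      _ < (Fy * 1) ^ 2 := by
          have : (1 + t ^ 2 * K) * Real.exp (-(t ^ 2 * K)) < 1 := by
            rw [Real.exp_neg, ← div_eq_mul_inv, div_lt_one (Real.exp_pos _)]
            exact hexp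
          have h0 : 0 < (1 + t ^ 2 * K) * Real.exp (-(t ^ 2 * K)) := by positivity
          exact pow_lt_pow_left₀ (mul_lt_mul_of_pos_left this hFpos) (by positivity) (by norm_num)
      _ = Fy * Fy := by ring
  linarith

/-- Komlos-type rounding, potential form. -/
theorem pot_round {α β : Type} [Fintype α] [DecidableEq α] [Fintype β] [DecidableEq β]
    [Nonempty β]
    (r : β → α → ℝ) (J : Finset β) (hJ1 : ∀ i, ∑ j ∈ J, r j i ^ 2 ≤ 3)
    (hJ2 : ∀ j ∉ J, ∑ i, r j i ^ 2 ≤ 1) (x0 : α → ℝ) (n : ℕ) :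
    ∀ x : α → ℝ, (∀ i, |x i| ≤ 1) → (univ.filter (fun i => |x i| < 1)).card = n →
    ∃ y : α → ℝ, (∀ i, |y i| = 1) ∧ (∀ i, |x i| = 1 → y i = x i) ∧
      Pot r x0 y ≤ Pot r x0 x * Real.exp (16 / n * (∑ i, (1 - x i ^ 2)) + 16 * Real.log n) := by
  classical
  induction n using Nat.strong_induction_on with
  | _ n ih =>
    intro x hx hn
    rcases Nat.eq_zero_or_pos n with h0 | h0
    · subst h0
      refine ⟨x, fun i => ?_, fun _ _ => rfl, ?_⟩
      · by_contra h
        have h2 : i ∈ univ.filter (fun i => |x i| < 1) :=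
          mem_filter.2 ⟨mem_univ _, lt_of_le_of_ne (hx i) h⟩
        rw [card_eq_zero.1 hn] at h2
        simp at h2
      · simp
    · obtain ⟨y, hy1, hy2, hy3, hy4⟩ := pot_step r J hJ1 hJ2 x0 x hx n hn h0
      obtain ⟨z, hz1, hz2, hz3⟩ := ih _ hy3 y hy1 rfl
      refine ⟨z, hz1, fun i hi => ?_, ?_⟩
      · rw [hz2 i (by rw [hy2 i hi]; exact hi), hy2 i hi]
      · set m := (univ.filter (fun i => |y i| < 1)).card with hm
        refine (hz3.trans (mul_le_mul_of_nonneg_right hy4 (Real.exp_pos _).le)).trans ?_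
        rw [mul_assoc, ← Real.exp_add]
        refine mul_le_mul_of_nonneg_left ?_ (pot_pos _ _ _).le
        refine Real.exp_le_exp.2 ?_
        have hnR : (0 : ℝ) < n := by exact_mod_cast h0
        have hDx : ∑ i, (1 - x i ^ 2) = (Fintype.card α : ℝ) - ∑ i, x i ^ 2 := by simp
        have hDy : ∑ i, (1 - y i ^ 2) = (Fintype.card α : ℝ) - ∑ i, y i ^ 2 := by simp
        have hDy0 : ∑ i, (1 - y i ^ 2) ≤ (m : ℝ) := by
          have e : ∑ i, (1 - y i ^ 2) ≤ ∑ i, (if |y i| < 1 then (1 : ℝ) else 0) := by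
            refine sum_le_sum fun i _ => ?_
            by_cases h : |y i| < 1
            · simp only [h, if_true]; nlinarith [sq_nonneg (y i)]
            · simp only [h, if_false]
              have : |y i| = 1 := le_antisymm (hy1 i) (not_lt.1 h)
              rw [← sq_abs, this]; norm_num
          refine e.trans (le_of_eq ?_)
          rw [hm, sum_boole]
        rcases Nat.eq_zero_or_pos m with hm0 | hm0
        · rw [hm0]
          have hlog : 0 ≤ Real.log n := Real.log_natCast_nonneg n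
          have : ∑ i, (1 - y i ^ 2) ≤ 0 := by rw [hm0] at hDy0; simpa using hDy0
          have hy0 : ∑ i, (1 - y i ^ 2) = 0 := le_antisymm this (sum_nonneg fun i _ => by
            have := hy1 i
            have h3 := abs_le.1 this
            nlinarith)
          have e2 : ∑ i, y i ^ 2 - ∑ i, x i ^ 2 = ∑ i, (1 - x i ^ 2) := by
            rw [hDx]; rw [hDy] at hy0; linarith
          rw [e2]
          simp only [Nat.cast_zero, div_zero, zero_mul, Real.log_zero, mul_zero, add_zero]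
          linarith
        · have hmR : (0 : ℝ) < m := by exact_mod_cast hm0
          have hmn : (m : ℝ) ≤ n := by exact_mod_cast hy3.le
          have hlog : 1 - (m : ℝ) / n ≤ Real.log n - Real.log m := by
            rw [← Real.log_div hnR.ne' hmR.ne']
            have := Real.one_sub_inv_le_log_of_pos (x := (n : ℝ) / m) (by positivity)
            rw [inv_div] at this
            exact this
          have e2 : ∑ i, y i ^ 2 - ∑ i, x i ^ 2 = ∑ i, (1 - x i ^ 2) - ∑ i, (1 - y i ^ 2) := by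
            rw [hDx, hDy]; ring
          rw [e2]
          set Dx := ∑ i, (1 - x i ^ 2)
          set Dy := ∑ i, (1 - y i ^ 2)
          have h5 : Dy * (1 / m - 1 / n) ≤ 1 - (m : ℝ) / n := by
            have h6 : (0 : ℝ) ≤ 1 / m - 1 / n := by
              rw [sub_nonneg]
              exact one_div_le_one_div_of_le hmR hmn
            calc Dy * (1 / m - 1 / n) ≤ m * (1 / m - 1 / n) :=
                  mul_le_mul_of_nonneg_right hDy0 h6
              _ = 1 - (m : ℝ) / n := by field_simp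
          have h7 : 16 / (n : ℝ) * (Dx - Dy) + (16 / m * Dy + 16 * Real.log m) =
              16 / n * Dx + 16 * (Dy * (1 / m - 1 / n)) + 16 * Real.log m := by
            field_simp; ring
          rw [h7]
          linarith

/-- Komlos-type rounding. -/
theorem komlos {α β : Type} [Fintype α] [DecidableEq α] [Fintype β] [DecidableEq β]
    [Nonempty β]
    (r : β → α → ℝ) (J : Finset β) (hJ1 : ∀ i, ∑ j ∈ J, r j i ^ 2 ≤ 3)
    (hJ2 : ∀ j ∉ J, ∑ i, r j i ^ 2 ≤ 1) (x : α → ℝ) (hx : ∀ i, |x i| ≤ 1) (n : ℕ) (hn1 : 1 ≤ n)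
    (hn : (univ.filter (fun i => |x i| < 1)).card ≤ n) :
    ∃ y : α → ℝ, (∀ i, |y i| = 1) ∧ (∀ i, |x i| = 1 → y i = x i) ∧
      ∀ j, |∑ i, r j i * (y i - x i)| ≤
        Real.log (2 * Fintype.card β) + 16 + 16 * Real.log n := by
  classical
  obtain ⟨y, hy1, hy2, hy3⟩ := pot_round r J hJ1 hJ2 x _ x hx rfl
  refine ⟨y, hy1, hy2, fun j => ?_⟩
  set m := (univ.filter (fun i => |x i| < 1)).card with hm
  have hP0 : Pot r x x = Fintype.card β := by simp [Pot]
  have hD : ∑ i, (1 - x i ^ 2) ≤ (m : ℝ) := by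
    have e : ∑ i, (1 - x i ^ 2) ≤ ∑ i, (if |x i| < 1 then (1 : ℝ) else 0) := by
      refine sum_le_sum fun i _ => ?_
      by_cases h : |x i| < 1
      · simp only [h, if_true]; nlinarith [sq_nonneg (x i)]
      · simp only [h, if_false]
        have : |x i| = 1 := le_antisymm (hx i) (not_lt.1 h)
        rw [← sq_abs, this]; norm_num
    refine e.trans (le_of_eq ?_)
    rw [hm, sum_boole]
  have hD0 : 0 ≤ ∑ i, (1 - x i ^ 2) := sum_nonneg fun i _ => by
    have h3 := abs_le.1 (hx i)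
    nlinarith
  have h1 : 16 / (m : ℝ) * ∑ i, (1 - x i ^ 2) + 16 * Real.log m ≤ 16 + 16 * Real.log n := by
    rcases Nat.eq_zero_or_pos m with hm0 | hm0
    · rw [hm0]
      have : 0 ≤ Real.log n := Real.log_natCast_nonneg n
      simp; linarith
    · have hmR : (0 : ℝ) < m := by exact_mod_cast hm0
      have h2 : 16 / (m : ℝ) * ∑ i, (1 - x i ^ 2) ≤ 16 := by
        calc 16 / (m : ℝ) * ∑ i, (1 - x i ^ 2) ≤ 16 / (m : ℝ) * m :=
              mul_le_mul_of_nonneg_left hD (by positivity)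
          _ = 16 := by field_simp
      have h3 : Real.log m ≤ Real.log n := Real.log_le_log hmR (by exact_mod_cast hn)
      linarith
  have h2 : Real.cosh (∑ i, r j i * (y i - x i)) ≤ Pot r x y :=
    single_le_sum (f := fun j => Real.cosh (∑ i, r j i * (y i - x i)))
      (fun j _ => (Real.cosh_pos _).le) (mem_univ j)
  have h3 : Real.exp |∑ i, r j i * (y i - x i)| ≤ 2 * Real.cosh (∑ i, r j i * (y i - x i)) := by
    rw [← Real.cosh_abs, Real.cosh_eq]
    have := Real.exp_pos (-|∑ i, r j i * (y i - x i)|)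
    linarith
  have hβ : (0 : ℝ) < Fintype.card β := by exact_mod_cast Fintype.card_pos
  have h4 : Real.exp |∑ i, r j i * (y i - x i)| ≤
      2 * Fintype.card β * Real.exp (16 + 16 * Real.log n) := by
    calc Real.exp |∑ i, r j i * (y i - x i)| ≤ 2 * Pot r x y := by linarith
      _ ≤ 2 * (Fintype.card β * Real.exp (16 + 16 * Real.log n)) := by
          refine mul_le_mul_of_nonneg_left (hy3.trans ?_) (by norm_num)
          rw [hP0]
          exact mul_le_mul_of_nonneg_left (Real.exp_le_exp.2 h1) hβ.le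
      _ = _ := by ring
  have h5 : Real.exp |∑ i, r j i * (y i - x i)| ≤
      Real.exp (Real.log (2 * Fintype.card β) + 16 + 16 * Real.log n) := by
    rw [add_assoc, Real.exp_add, Real.exp_log (by positivity)]
    exact h4
  exact Real.exp_le_exp.1 h5

end Vale.Agent.P262
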