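import Mathlib
import Vale.Agent.P262.Komlos

namespace Vale.Agent.P262

open Finset

theorem rounding {α β γ : Type} [Fintype α] [DecidableEq α] [Fintype β] [DecidableEq β]
    [Fintype γ] [DecidableEq γ] [Nonempty γ]
    (p : β → α → ℝ) (r : γ → α → ℝ) (J : Finset γ) (hJ1 : ∀ i, ∑ j ∈ J, r j i ^ 2 ≤ 3)
    (hJ2 : ∀ j ∉ J, ∑ i, r j i ^ 2 ≤ 1)
    (lam : α → ℝ) (h0 : ∀ i, 0 ≤ lam i) (h1 : ∀ i, lam i ≤ 1) (n : ℕ) (hn1 : 1 ≤ n)
    (hn : Fintype.card β + Fintype.card γ ≤ n) :
    ∃ S : Finset α, (∀ i ∈ S, lam i ≠ 0) ∧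
      (∀ j, |∑ i ∈ S, r j i - ∑ i, lam i * r j i| ≤
        (Real.log (2 * Fintype.card γ) + 16 + 16 * Real.log n) / 2) ∧
      (∀ b (M : ℝ), 0 ≤ M → (∀ i, lam i ≠ 0 → |p b i| ≤ M) →
        |∑ i ∈ S, p b i - ∑ i, lam i * p b i| ≤ n * M) := by
  classical
  set x : α → ℝ := fun i => 2 * lam i - 1 with hx
  have hx1 : ∀ i, |x i| ≤ 1 := fun i => by
    have := h0 i
    have := h1 i
    rw [abs_le]; simp only [hx]; constructor <;> linarith
  obtain ⟨y, hy1, hy2, hy3, hy4⟩ := vertex (Sum.elim p r) x hx1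
  obtain ⟨z, hz1, hz2, hz3⟩ := komlos r J hJ1 hJ2 y hy1 n hn1
    (hy4.trans (by rw [Fintype.card_sum]; exact hn))
  set S : Finset α := univ.filter (fun i => z i = 1) with hS
  have hz : ∀ i, z i = 1 ∨ z i = -1 := fun i => by
    have := hz1 i
    rcases abs_cases (z i) with h | h
    · left; linarith
    · right; linarith
  have hsum : ∀ f : α → ℝ, ∑ i ∈ S, f i - ∑ i, lam i * f i =
      (∑ i, f i * (z i - x i)) / 2 := by
    intro f
    have e1 : ∑ i ∈ S, f i = ∑ i, (z i + 1) / 2 * f i := by
      rw [hS, sum_filter]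
      refine sum_congr rfl fun i _ => ?_
      rcases hz i with h | h
      · simp [h]
      · rw [h]; norm_num
    rw [e1, ← sum_sub_distrib, sum_div]
    refine sum_congr rfl fun i _ => ?_
    simp only [hx]; ring
  have hp : ∀ b, ∑ i, p b i * (z i - x i) = ∑ i, p b i * (z i - y i) := by
    intro b
    have := hy2 (Sum.inl b)
    simp only [Sum.elim_inl] at this
    simp only [mul_sub, sum_sub_distrib]
    rw [this]
  have hr : ∀ b, ∑ i, r b i * (z i - x i) = ∑ i, r b i * (z i - y i) := by
    intro b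
    have := hy2 (Sum.inr b)
    simp only [Sum.elim_inr] at this
    simp only [mul_sub, sum_sub_distrib]
    rw [this]
  refine ⟨S, ?_, ?_, ?_⟩
  · intro i hi h
    have hxi : x i = -1 := by simp only [hx, h]; norm_num
    have h2 : y i = x i := hy3 i (by rw [hxi]; norm_num)
    have h3 : z i = y i := hz2 i (by rw [h2, hxi]; norm_num)
    have h4 : z i = 1 := (mem_filter.1 hi).2
    rw [h3, h2, hxi] at h4
    norm_num at h4
  · intro j
    rw [hsum, hr, abs_div, abs_two]
    exact div_le_div_of_nonneg_right (hz3 j) (by norm_num)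
  · intro b M hM hb
    rw [hsum, hp]
    set F : Finset α := univ.filter (fun i => |y i| < 1) with hF
    have e : ∑ i, p b i * (z i - y i) = ∑ i ∈ F, p b i * (z i - y i) := by
      symm
      refine sum_subset (subset_univ _) fun i _ hi => ?_
      have h2 : ¬ |y i| < 1 := fun h => hi (mem_filter.2 ⟨mem_univ _, h⟩)
      rw [hz2 i (le_antisymm (hy1 i) (not_lt.1 h2))]
      ring
    rw [e, abs_div, abs_two]
    have h2 : |∑ i ∈ F, p b i * (z i - y i)| ≤ ∑ i ∈ F, M * 2 := by
      refine (abs_sum_le_sum_abs _ _).trans (sum_le_sum fun i hi => ?_)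
      rw [abs_mul]
      have h3 : lam i ≠ 0 := by
        intro h
        have hxi : x i = -1 := by simp only [hx, h]; norm_num
        have h2 : y i = x i := hy3 i (by rw [hxi]; norm_num)
        have h4 := (mem_filter.1 hi).2
        rw [h2, hxi] at h4
        norm_num at h4
      refine mul_le_mul (hb i h3) ?_ (abs_nonneg _) hM
      have h4 := abs_le.1 (hz1 i).le
      have h5 := abs_le.1 (hy1 i)
      rw [abs_le]; constructor <;> linarith
    have h3 : (F.card : ℝ) ≤ n := by
      have h7 : F.card ≤ n := by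
        rw [Fintype.card_sum] at hy4
        exact hy4.trans hn
      exact_mod_cast h7
    rw [sum_const, nsmul_eq_mul] at h2
    have h4 : (F.card : ℝ) * (M * 2) ≤ n * (M * 2) :=
      mul_le_mul_of_nonneg_right h3 (by positivity)
    linarith

/-- coordinate sums -/
noncomputable def sm {ι : Type} {d : ℕ} (v : ι → Fin d → ℝ) (C : Finset ι) (k : Fin d) : ℝ :=
  ∑ i ∈ C, v i k

/-- second moments -/
noncomputable def qq {ι : Type} {d : ℕ} (v : ι → Fin d → ℝ) (C : Finset ι) (k l : Fin d) : ℝ :=
  ∑ i ∈ C, v i k * v i l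

theorem qq_self {ι : Type} {d : ℕ} (v : ι → Fin d → ℝ) (C : Finset ι) (k : Fin d) :
    qq v C k k = ∑ i ∈ C, v i k ^ 2 := by
  unfold qq; exact sum_congr rfl fun i _ => by ring

theorem qq_nonneg {ι : Type} {d : ℕ} (v : ι → Fin d → ℝ) (C : Finset ι) (k : Fin d) :
    0 ≤ qq v C k k := by
  rw [qq_self]; exact sum_nonneg fun i _ => sq_nonneg _

theorem abs_cs {ι : Type} {d : ℕ} (v : ι → Fin d → ℝ) (C : Finset ι) (k l : Fin d) :
    ∑ i ∈ C, |v i k| * |v i l| ≤ Real.sqrt (qq v C k k) * Real.sqrt (qq v C l l) := by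
  rw [← Real.sqrt_mul (qq_nonneg v C k)]
  refine Real.le_sqrt_of_sq_le ?_
  have := sum_mul_sq_le_sq_mul_sq C (fun i => |v i k|) (fun i => |v i l|)
  simp only [sq_abs] at this
  rw [qq_self, qq_self]
  exact this

theorem abs_v_le {ι : Type} {d : ℕ} (v : ι → Fin d → ℝ) (hv : ∀ i, ∑ k, v i k ^ 2 ≤ 1)
    (i : ι) (k : Fin d) : |v i k| ≤ 1 := by
  have h : v i k ^ 2 ≤ 1 := le_trans
    (single_le_sum (f := fun k => v i k ^ 2) (fun j _ => sq_nonneg _) (mem_univ k)) (hv i)
  exact abs_le_one_iff_mul_self_le_one.2 (by nlinarith)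

theorem split {ι : Type} [Fintype ι] [DecidableEq ι] {d : ℕ} (v : ι → Fin d → ℝ)
    (hv : ∀ i, ∑ k, v i k ^ 2 ≤ 1) (D T : Finset ι) (hT : T ⊆ D) (y : Fin d → ℝ)
    (n : ℕ) (hn : (d + 2) ^ 2 ≤ n)
    (L : ℝ) (hL : (Real.log (2 * (d + 2 : ℕ)) + 16 + 16 * Real.log n) / 2 ≤ L)
    (T0 R E : ℝ) (hT0 : 64 ≤ T0) (hR : 0 ≤ R) (hE : 1 ≤ E) (hTER : 2 * d * E * R ≤ T0)
    (hy : ∀ k, |y k| ≤ R)
    (hQ : ∀ k l, k ≠ l → T0 ^ 2 < qq v D l l →
      |qq v D k l| ≤ 2 * E * Real.sqrt (qq v D l l)) :
    ∃ D1 ⊆ D,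
      (∀ k, |sm v D1 k - (sm v D k / 2 - if T0 ^ 2 < qq v D k k then y k else 0)| ≤
        (L + 1) * min 1 (Real.sqrt (qq v D k k))) ∧
      |(D1.card : ℝ) - D.card / 2| ≤ D.card / 64 + L ∧
      |((T ∩ D1).card : ℝ) - T.card / 2| ≤ T.card / 64 + L ∧
      (∀ k l, k ≠ l → |qq v D1 k l - qq v D k l / 2| ≤ Real.sqrt (qq v D k k) / 2 + n) ∧
      (∀ k μ, (∀ i ∈ D, v i k ^ 2 ≤ μ) → 0 ≤ μ →
        |qq v D1 k k - qq v D k k / 2| ≤ qq v D k k / 64 + n * μ) := by
  classical
  have hT0p : 0 < T0 := by linarith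
  set q : Fin d → ℝ := fun k => qq v D k k with hq
  have hq0 : ∀ k, 0 ≤ q k := fun k => qq_nonneg v D k
  set w : Fin d → ℝ := fun k => if T0 ^ 2 < q k then -(y k / q k) else 0 with hw
  have hdR : 2 * (d : ℝ) * R ≤ T0 := by
    have : 2 * (d : ℝ) * R * 1 ≤ 2 * d * R * E := mul_le_mul_of_nonneg_left hE (by positivity)
    linarith
  have hw1 : ∀ k, |w k| ≤ R / T0 ^ 2 := by
    intro k
    simp only [hw]
    split_ifs with h
    · rw [abs_neg, abs_div, abs_of_pos (lt_trans (by positivity) h)]
      exact div_le_div₀ hR (hy k) (by positivity) h.le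
    · rw [abs_zero]; positivity
  have hw2 : ∀ k, |w k| * Real.sqrt (q k) ≤ R / T0 := by
    intro k
    simp only [hw]
    split_ifs with h
    · have hqp : 0 < q k := lt_trans (by positivity) h
      have hs : T0 ≤ Real.sqrt (q k) := Real.le_sqrt_of_sq_le h.le
      have hsp : 0 < Real.sqrt (q k) := by linarith
      rw [abs_neg, abs_div, abs_of_pos hqp]
      have : |y k| / q k * Real.sqrt (q k) = |y k| / Real.sqrt (q k) := by
        rw [div_mul_eq_mul_div, div_eq_div_iff hqp.ne' hsp.ne', mul_assoc, Real.mul_self_sqrt hqp.le]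
      rw [this]
      exact div_le_div₀ hR (hy k) hT0p hs
    · simp; positivity
  have hwsum : ∑ k, |w k| ≤ 1 / 128 := by
    calc ∑ k, |w k| ≤ ∑ _k : Fin d, R / T0 ^ 2 := sum_le_sum fun k _ => hw1 k
      _ = (2 * d * R) / (2 * T0 ^ 2) := by
          rw [sum_const, card_univ, Fintype.card_fin, nsmul_eq_mul]; field_simp
      _ ≤ T0 / (2 * T0 ^ 2) := div_le_div_of_nonneg_right hdR (by positivity)
      _ = 1 / (2 * T0) := by field_simp
      _ ≤ 1 / 128 := one_div_le_one_div_of_le (by norm_num) (by linarith)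
  set b : ι → ℝ := fun i => ∑ k, v i k * w k with hb
  have hb1 : ∀ i, |b i| ≤ 1 / 128 := by
    intro i
    refine le_trans ?_ hwsum
    refine (abs_sum_le_sum_abs _ _).trans (sum_le_sum fun k _ => ?_)
    rw [abs_mul]
    exact mul_le_of_le_one_left (abs_nonneg _) (abs_v_le v hv i k)
  set lam : ι → ℝ := fun i => if i ∈ D then 1 / 2 + b i else 0 with hlam
  have hlam0 : ∀ i, 0 ≤ lam i := by
    intro i
    simp only [hlam]
    split_ifs
    · have := abs_le.1 (hb1 i); linarith
    · exact le_refl _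
  have hlam1 : ∀ i, lam i ≤ 1 := by
    intro i
    simp only [hlam]
    split_ifs
    · have := abs_le.1 (hb1 i); linarith
    · norm_num
  have hlamsum : ∀ f : ι → ℝ, ∑ i, lam i * f i = (∑ i ∈ D, f i) / 2 + ∑ i ∈ D, b i * f i := by
    intro f
    rw [sum_div, ← sum_add_distrib]
    rw [← sum_subset (subset_univ D)]
    · refine sum_congr rfl fun i hi => ?_
      simp only [hlam, hi, if_true]; ring
    · intro i _ hi
      simp only [hlam, hi, if_false]; ring
  have hlamD : ∀ i, lam i ≠ 0 → i ∈ D := by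
    intro i hi
    by_contra h
    exact hi (by simp only [hlam, h, if_false])
  let p : Fin d × Fin d → ι → ℝ := fun kl i => v i kl.1 * v i kl.2
  let r : Fin d ⊕ Bool → ι → ℝ := fun j i =>
    Sum.elim (fun k => if i ∈ D then (if 1 ≤ q k then v i k else v i k / Real.sqrt (q k)) else 0)
      (fun t : Bool => if t then (if i ∈ D then (1 : ℝ) else 0) else (if i ∈ T then 1 else 0)) j
  let J : Finset (Fin d ⊕ Bool) :=
    univ.filter (fun j => Sum.elim (fun k => 1 ≤ q k) (fun _ => True) j)
  have hJ1 : ∀ i, ∑ j ∈ J, r j i ^ 2 ≤ 3 := by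
    intro i
    simp only [J]
    rw [sum_filter, Fintype.sum_sum_type]
    have e1 : ∑ k : Fin d, (if Sum.elim (fun k => 1 ≤ q k) (fun _ : Bool => True) (Sum.inl k) then
        r (Sum.inl k) i ^ 2 else 0) ≤ ∑ k, v i k ^ 2 := by
      refine sum_le_sum fun k _ => ?_
      simp only [Sum.elim_inl, r]
      by_cases h1 : 1 ≤ q k
      · by_cases h2 : i ∈ D
        · simp [h1, h2]
        · simp [h1, h2]; positivity
      · simp [h1]; positivity
    have e2 : ∑ t : Bool, (if Sum.elim (fun k => 1 ≤ q k) (fun _ : Bool => True) (Sum.inr t) then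
        r (Sum.inr t) i ^ 2 else 0) ≤ ∑ t : Bool, (1 : ℝ) := by
      refine sum_le_sum fun t _ => ?_
      simp only [Sum.elim_inr, r, if_true]
      cases t
      · by_cases h : i ∈ T <;> simp [h]
      · by_cases h : i ∈ D <;> simp [h]
    have := hv i
    have e3 : ∑ t : Bool, (1 : ℝ) = 2 := by simp
    rw [e3] at e2
    linarith
  have hJ2 : ∀ j ∉ J, ∑ i, r j i ^ 2 ≤ 1 := by
    intro j hj
    rcases j with k | t
    · have hk : ¬ 1 ≤ q k := by
        intro h
        exact hj (mem_filter.2 ⟨mem_univ _, h⟩)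
      simp only [Sum.elim_inl, r, hk, if_false]
      rw [← sum_subset (subset_univ D)]
      · rw [sum_congr rfl (g := fun i => v i k ^ 2 / q k)]
        · rw [← sum_div, ← qq_self]
          exact div_self_le_one _
        · intro i hi
          simp only [hi, if_true]
          rw [div_pow, Real.sq_sqrt (hq0 k)]
      · intro i _ hi
        simp [hi]
    · exact absurd (mem_filter.2 ⟨mem_univ _, trivial⟩) hj
  have hn1 : 1 ≤ n := le_trans (Nat.one_le_pow _ _ (by omega)) hn
  obtain ⟨S, hS0, hS1, hS2⟩ := rounding p r J hJ1 hJ2 lam hlam0 hlam1 n hn1 (by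
    simp only [Fintype.card_prod, Fintype.card_fin, Fintype.card_sum, Fintype.card_bool]
    nlinarith)
  have hcard : (Fintype.card (Fin d ⊕ Bool)) = d + 2 := by simp
  rw [hcard] at hS1
  have hSD : S ⊆ D := fun i hi => hlamD i (hS0 i hi)
  have hS1' : ∀ j, |∑ i ∈ S, r j i - ∑ i, lam i * r j i| ≤ L := fun j => (hS1 j).trans hL
  have hL0 : 0 ≤ L := (abs_nonneg _).trans (hS1' (Sum.inr true))
  refine ⟨S, hSD, ?_, ?_, ?_, ?_, ?_⟩
  · intro k
    change |sm v S k - (sm v D k / 2 - if T0 ^ 2 < q k then y k else 0)| ≤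
        (L + 1) * min 1 (Real.sqrt (q k))
    have hm0 : 0 ≤ min 1 (Real.sqrt (q k)) := le_min zero_le_one (Real.sqrt_nonneg _)
    -- rounding error
    have h1 : |∑ i ∈ S, v i k - ∑ i, lam i * v i k| ≤ L * min 1 (Real.sqrt (q k)) := by
      by_cases hk : 1 ≤ q k
      · have h2 := hS1' (Sum.inl k)
        have e1 : ∑ i ∈ S, r (Sum.inl k) i = ∑ i ∈ S, v i k :=
          sum_congr rfl fun i hi => by simp [r, hk, hSD hi]
        have e2 : ∑ i, lam i * r (Sum.inl k) i = ∑ i, lam i * v i k := by
          refine sum_congr rfl fun i _ => ?_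
          by_cases hi : i ∈ D
          · simp [r, hk, hi]
          · simp [hlam, hi]
        rw [e1, e2] at h2
        rw [min_eq_left (Real.one_le_sqrt.2 hk), mul_one]
        exact h2
      · have hv' : ∀ i ∈ D, v i k = Real.sqrt (q k) * r (Sum.inl k) i := by
          intro i hi
          simp only [r, Sum.elim_inl, hi, if_true, hk, if_false]
          by_cases h0 : q k = 0
          · have : v i k ^ 2 ≤ q k := by
              simp only [hq]; rw [qq_self]
              exact single_le_sum (f := fun i => v i k ^ 2) (fun j _ => sq_nonneg _) hi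
            rw [h0] at this
            have h3 : v i k = 0 := by
              have := le_antisymm this (sq_nonneg _)
              exact pow_eq_zero_iff (two_ne_zero) |>.1 this
            rw [h0, h3]; simp
          · have : Real.sqrt (q k) ≠ 0 := by
              rw [Real.sqrt_ne_zero']
              exact lt_of_le_of_ne (hq0 k) (Ne.symm h0)
            field_simp
        have e1 : ∑ i ∈ S, v i k = Real.sqrt (q k) * ∑ i ∈ S, r (Sum.inl k) i := by
          rw [mul_sum]; exact sum_congr rfl fun i hi => hv' i (hSD hi)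
        have e2 : ∑ i, lam i * v i k = Real.sqrt (q k) * ∑ i, lam i * r (Sum.inl k) i := by
          rw [mul_sum]
          refine sum_congr rfl fun i _ => ?_
          by_cases hi : i ∈ D
          · rw [hv' i hi]; ring
          · simp [hlam, hi]
        rw [e1, e2, ← mul_sub, abs_mul, abs_of_nonneg (Real.sqrt_nonneg _)]
        rw [min_eq_right (by rw [Real.sqrt_le_one]; exact (not_le.1 hk).le), mul_comm]
        exact mul_le_mul_of_nonneg_right (hS1' _) (Real.sqrt_nonneg _)
    -- reset error
    have h2 : |∑ i ∈ D, b i * v i k + (if T0 ^ 2 < q k then y k else 0)| ≤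
        min 1 (Real.sqrt (q k)) := by
      have e1 : ∑ i ∈ D, b i * v i k = ∑ l, qq v D k l * w l := by
        simp only [hb, qq, sum_mul]
        rw [sum_comm]
        refine sum_congr rfl fun l _ => sum_congr rfl fun i _ => by ring
      have e2 : qq v D k k * w k = -(if T0 ^ 2 < q k then y k else 0) := by
        simp only [hw]
        split_ifs with h
        · have : q k ≠ 0 := (lt_trans (by positivity) h).ne'
          change q k * _ = _
          field_simp
        · simp
      rw [e1, ← add_sum_erase univ _ (mem_univ k), e2, neg_add_cancel_comm]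
      refine (abs_sum_le_sum_abs _ _).trans ?_
      have hterm : ∀ l ∈ univ.erase k, |qq v D k l * w l| ≤
          2 * E * R / T0 * min 1 (Real.sqrt (q k)) := by
        intro l hl
        have hkl : k ≠ l := (ne_of_mem_erase hl).symm
        by_cases hrich : T0 ^ 2 < q l
        · have g1 : |qq v D k l| ≤ 2 * E * Real.sqrt (q l) := hQ k l hkl hrich
          have g2 : |qq v D k l| ≤ Real.sqrt (q k) * Real.sqrt (q l) := by
            refine le_trans ?_ (abs_cs v D k l)
            unfold qq
            refine (abs_sum_le_sum_abs _ _).trans (le_of_eq ?_)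
            exact sum_congr rfl fun i _ => abs_mul _ _
          have hs : 0 ≤ Real.sqrt (q l) := Real.sqrt_nonneg _
          have g3 : |qq v D k l| ≤ (2 * E * min 1 (Real.sqrt (q k))) * Real.sqrt (q l) := by
            rcases le_total 1 (Real.sqrt (q k)) with h | h
            · rw [min_eq_left h, mul_one]; exact g1
            · rw [min_eq_right h]
              refine g2.trans (mul_le_mul_of_nonneg_right ?_ hs)
              have := Real.sqrt_nonneg (q k)
              nlinarith
          rw [abs_mul]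
          calc |qq v D k l| * |w l| ≤ ((2 * E * min 1 (Real.sqrt (q k))) * Real.sqrt (q l)) * |w l| :=
                mul_le_mul_of_nonneg_right g3 (abs_nonneg _)
            _ = (2 * E * min 1 (Real.sqrt (q k))) * (|w l| * Real.sqrt (q l)) := by ring
            _ ≤ (2 * E * min 1 (Real.sqrt (q k))) * (R / T0) :=
                mul_le_mul_of_nonneg_left (hw2 l) (by positivity)
            _ = _ := by ring
        · have : w l = 0 := by simp only [hw, hrich, if_false]
          rw [this, mul_zero, abs_zero]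
          positivity
      refine (sum_le_card_nsmul _ _ _ hterm).trans ?_
      rw [nsmul_eq_mul]
      have hc : ((univ.erase k).card : ℝ) ≤ d := by
        have := card_le_univ (univ.erase k)
        rw [Fintype.card_fin] at this
        exact_mod_cast this
      calc ((univ.erase k).card : ℝ) * (2 * E * R / T0 * min 1 (Real.sqrt (q k))) ≤
            d * (2 * E * R / T0 * min 1 (Real.sqrt (q k))) :=
            mul_le_mul_of_nonneg_right hc (by positivity)
        _ = (2 * d * E * R) / T0 * min 1 (Real.sqrt (q k)) := by ring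
        _ ≤ 1 * min 1 (Real.sqrt (q k)) :=
            mul_le_mul_of_nonneg_right ((div_le_one hT0p).2 hTER) hm0
        _ = _ := one_mul _
    have h3 := hlamsum (fun i => v i k)
    have h4 : sm v S k - (sm v D k / 2 - if T0 ^ 2 < q k then y k else 0) =
        (∑ i ∈ S, v i k - ∑ i, lam i * v i k) +
        (∑ i ∈ D, b i * v i k + (if T0 ^ 2 < q k then y k else 0)) := by
      rw [h3]; unfold sm; ring
    rw [h4]
    refine (abs_add_le _ _).trans ?_
    linarith
  · have h1 := hS1' (Sum.inr true)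
    have e1 : ∑ i ∈ S, r (Sum.inr true) i = S.card := by
      rw [sum_congr rfl (g := fun _ => (1 : ℝ)) (fun i hi => by simp [r, hSD hi])]
      simp
    have e2 : ∑ i, lam i * r (Sum.inr true) i = D.card / 2 + ∑ i ∈ D, b i := by
      rw [hlamsum]
      congr 1
      · rw [sum_congr rfl (g := fun _ => (1 : ℝ)) (fun i hi => by simp [r, hi])]
        simp
      · exact sum_congr rfl fun i hi => by simp [r, hi]
    rw [e1, e2] at h1
    have h2 : |∑ i ∈ D, b i| ≤ D.card * (1 / 128) := by
      refine (abs_sum_le_sum_abs _ _).trans ?_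
      rw [← nsmul_eq_mul]
      exact sum_le_card_nsmul _ _ _ fun i _ => hb1 i
    have h3 : (S.card : ℝ) - D.card / 2 = ((S.card : ℝ) - (D.card / 2 + ∑ i ∈ D, b i)) +
      ∑ i ∈ D, b i := by ring
    rw [h3]
    refine (abs_add_le _ _).trans ?_
    have : (0 : ℝ) ≤ D.card := Nat.cast_nonneg _
    linarith
  · have h1 := hS1' (Sum.inr false)
    have e1 : ∑ i ∈ S, r (Sum.inr false) i = (T ∩ S).card := by
      simp only [r, Sum.elim_inr]
      rw [card_eq_sum_ones, inter_comm, ← filter_mem_eq_inter]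
      push_cast
      rw [sum_filter]
    have e2 : ∑ i, lam i * r (Sum.inr false) i = T.card / 2 + ∑ i ∈ T, b i := by
      rw [hlamsum]
      have g1 : ∀ f : ι → ℝ, ∑ i ∈ D, f i * r (Sum.inr false) i = ∑ i ∈ T, f i := by
        intro f
        rw [← sum_subset hT]
        · exact sum_congr rfl fun i hi => by simp [r, hi]
        · intro i _ hi; simp [r, hi]
      congr 1
      · have := g1 (fun _ => 1)
        simp only [one_mul] at this
        rw [this]; simp
      · exact g1 b
    rw [e1, e2] at h1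
    have h2 : |∑ i ∈ T, b i| ≤ T.card * (1 / 128) := by
      refine (abs_sum_le_sum_abs _ _).trans ?_
      rw [← nsmul_eq_mul]
      exact sum_le_card_nsmul _ _ _ fun i _ => hb1 i
    have h3 : ((T ∩ S).card : ℝ) - T.card / 2 =
      (((T ∩ S).card : ℝ) - (T.card / 2 + ∑ i ∈ T, b i)) + ∑ i ∈ T, b i := by ring
    rw [h3]
    refine (abs_add_le _ _).trans ?_
    have : (0 : ℝ) ≤ T.card := Nat.cast_nonneg _
    linarith
  · intro k l hkl
    have h1 := hS2 (k, l) 1 zero_le_one (fun i _ => by
      simp only [p, abs_mul]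
      exact mul_le_one₀ (abs_v_le v hv i k) (abs_nonneg _) (abs_v_le v hv i l))
    simp only [p] at h1
    rw [hlamsum] at h1
    have h2 : |∑ i ∈ D, b i * (v i k * v i l)| ≤ Real.sqrt (q k) / 2 := by
      have g1 : |∑ i ∈ D, b i * (v i k * v i l)| ≤
          ∑ i ∈ D, ∑ m, |w m| * (|v i m| * |v i k|) := by
        refine (abs_sum_le_sum_abs _ _).trans (sum_le_sum fun i _ => ?_)
        rw [abs_mul, abs_mul]
        calc |b i| * (|v i k| * |v i l|) ≤ (∑ m, |v i m| * |w m|) * (|v i k| * 1) := by
              refine mul_le_mul ?_ ?_ (by positivity) (by positivity)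
              · refine (abs_sum_le_sum_abs _ _).trans (le_of_eq ?_)
                exact sum_congr rfl fun m _ => abs_mul _ _
              · exact mul_le_mul_of_nonneg_left (abs_v_le v hv i l) (abs_nonneg _)
          _ = _ := by
              rw [sum_mul]
              exact sum_congr rfl fun m _ => by ring
      refine g1.trans ?_
      rw [sum_comm]
      calc ∑ m, ∑ i ∈ D, |w m| * (|v i m| * |v i k|) ≤ ∑ _m : Fin d, R / T0 * Real.sqrt (q k) := by
            refine sum_le_sum fun m _ => ?_
            rw [← mul_sum]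
            calc |w m| * ∑ i ∈ D, |v i m| * |v i k| ≤
                  |w m| * (Real.sqrt (q m) * Real.sqrt (q k)) :=
                  mul_le_mul_of_nonneg_left (abs_cs v D m k) (abs_nonneg _)
              _ = (|w m| * Real.sqrt (q m)) * Real.sqrt (q k) := by ring
              _ ≤ _ := mul_le_mul_of_nonneg_right (hw2 m) (Real.sqrt_nonneg _)
        _ = (2 * d * R) / T0 * (Real.sqrt (q k) / 2) := by
            rw [sum_const, card_univ, Fintype.card_fin, nsmul_eq_mul]; ring
        _ ≤ 1 * (Real.sqrt (q k) / 2) :=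
            mul_le_mul_of_nonneg_right ((div_le_one hT0p).2 hdR) (by positivity)
        _ = _ := one_mul _
    have h3 : qq v S k l - qq v D k l / 2 =
        (∑ i ∈ S, v i k * v i l - ((∑ i ∈ D, v i k * v i l) / 2 +
          ∑ i ∈ D, b i * (v i k * v i l))) + ∑ i ∈ D, b i * (v i k * v i l) := by
      unfold qq; ring
    rw [h3]
    refine (abs_add_le _ _).trans ?_
    linarith
  · intro k μ hμ hμ0
    have h1 := hS2 (k, k) μ hμ0 (fun i hi => by
      have := hμ i (hlamD i hi)
      simp only [p]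
      rw [abs_of_nonneg (mul_self_nonneg _)]
      linarith [sq (v i k)])
    simp only [p] at h1
    rw [hlamsum] at h1
    have h2 : |∑ i ∈ D, b i * (v i k * v i k)| ≤ q k / 64 := by
      have g1 : |∑ i ∈ D, b i * (v i k * v i k)| ≤ ∑ i ∈ D, (1 / 128) * (v i k * v i k) := by
        refine (abs_sum_le_sum_abs _ _).trans (sum_le_sum fun i _ => ?_)
        rw [abs_mul, abs_of_nonneg (mul_self_nonneg (v i k))]
        exact mul_le_mul_of_nonneg_right (hb1 i) (mul_self_nonneg _)
      rw [← mul_sum] at g1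
      have : q k = ∑ i ∈ D, v i k * v i k := rfl
      rw [← this] at g1
      have := hq0 k
      linarith
    have h3 : qq v S k k - qq v D k k / 2 =
        (∑ i ∈ S, v i k * v i k - ((∑ i ∈ D, v i k * v i k) / 2 +
          ∑ i ∈ D, b i * (v i k * v i k))) + ∑ i ∈ D, b i * (v i k * v i k) := by
      unfold qq; ring
    rw [h3]
    refine (abs_add_le _ _).trans ?_
    linarith

end Vale.Agent.P262
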