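import Mathlib
import Vale.Agent.P262.Split

namespace Vale.Agent.P262

open Finset

/-- there is an ordering of `C` all of whose partial sums, started at `Z`, are bounded by `R` -/
def Good {ι : Type} [DecidableEq ι] {d : ℕ} (v : ι → Fin d → ℝ) (R : ℝ) (C : Finset ι)
    (Z : Fin d → ℝ) : Prop :=
  ∃ l : List ι, l.Nodup ∧ l.toFinset = C ∧
    ∀ j k, |Z k + ((l.take j).map (fun i => v i k)).sum| ≤ R

theorem good_append {ι : Type} [DecidableEq ι] {d : ℕ} (v : ι → Fin d → ℝ) (R : ℝ)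
    (C1 C2 : Finset ι) (Z : Fin d → ℝ) (h1 : Good v R C1 Z)
    (h2 : Good v R C2 (fun k => Z k + sm v C1 k)) (hd : Disjoint C1 C2) :
    Good v R (C1 ∪ C2) Z := by
  obtain ⟨l1, n1, e1, b1⟩ := h1
  obtain ⟨l2, n2, e2, b2⟩ := h2
  refine ⟨l1 ++ l2, ?_, ?_, ?_⟩
  · refine List.Nodup.append n1 n2 ?_
    intro a ha hb
    have ha' : a ∈ C1 := by rw [← e1]; exact List.mem_toFinset.2 ha
    have hb' : a ∈ C2 := by rw [← e2]; exact List.mem_toFinset.2 hb
    exact (Finset.disjoint_left.1 hd) ha' hb'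
  · rw [List.toFinset_append, e1, e2]
  · intro j k
    rw [List.take_append]
    rw [List.map_append, List.sum_append]
    rcases le_total j l1.length with h | h
    · rw [Nat.sub_eq_zero_of_le h]
      simpa using b1 j k
    · rw [List.take_of_length_le h]
      have : (l1.map (fun i => v i k)).sum = sm v C1 k := by
        rw [← List.sum_toFinset _ n1, e1]; rfl
      rw [this, ← add_assoc]
      exact b2 _ k

theorem good_terminal {ι : Type} [DecidableEq ι] {d : ℕ} (v : ι → Fin d → ℝ) (R : ℝ)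
    (C : Finset ι) (Z : Fin d → ℝ) (h : ∀ k, |Z k| + ∑ i ∈ C, |v i k| ≤ R) :
    Good v R C Z := by
  refine ⟨C.toList, C.nodup_toList, C.toList_toFinset, ?_⟩
  intro j k
  refine le_trans ?_ (h k)
  refine (abs_add_le _ _).trans (add_le_add_right ?_ _)
  have hn : (C.toList.take j).Nodup := C.nodup_toList.sublist (List.take_sublist _ _)
  rw [← List.sum_toFinset _ hn]
  refine (abs_sum_le_sum_abs _ _).trans ?_
  refine sum_le_sum_of_subset_of_nonneg ?_ fun i _ _ => abs_nonneg _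
  intro i hi
  have := List.mem_of_mem_take (List.mem_toFinset.1 hi)
  exact Finset.mem_toList.1 this

/-- parameters -/
structure Par (d n : ℕ) where
  L : ℝ
  T0 : ℝ
  R : ℝ
  E : ℝ
  E2 : ℝ
  eta : ℝ
  G : ℝ
  mm : ℕ
  hn : (d + 2) ^ 2 ≤ n
  hL1 : 1 ≤ L
  hL : (Real.log (2 * (d + 2 : ℕ)) + 16 + 16 * Real.log n) / 2 ≤ L
  hT0 : 64 ≤ T0
  hE2 : E2 = 2 * (n + 6 * L)
  hE : E = 8 * (1 + n + 6 * L)
  hTE : E2 + 6 * L ≤ T0
  heta0 : 0 < eta
  heta : n * eta ≤ 1 / 32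
  hetaT : 1 < eta * T0 ^ 2
  hmm : d / eta ≤ 6 * L * (4 / 3) ^ mm
  hG : G = 1 + 10 * L + (mm + 1) * (L + 1)
  hR : R = 8 * G * Real.log (1 + T0) + (mm + 1) * (L + 1) + (1 + 10 * L)
  hTER : 2 * d * E * R ≤ T0

/-- potential -/
noncomputable def psi {d n : ℕ} (P : Par d n) (t : ℝ) (m : ℕ) : ℝ :=
  8 * P.G * Real.log (1 + t) + (m + 1) * (P.L + 1) * min 1 t

theorem P_G_ge {d n : ℕ} (P : Par d n) : 1 + 10 * P.L ≤ P.G := by
  have := P.hL1
  rw [P.hG]
  have : 0 ≤ ((P.mm : ℝ) + 1) * (P.L + 1) := by positivity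
  linarith

theorem psi_nonneg {d n : ℕ} (P : Par d n) (t : ℝ) (ht : 0 ≤ t) (m : ℕ) : 0 ≤ psi P t m := by
  have h1 := P_G_ge P
  have h2 := P.hL1
  have h3 : 0 ≤ Real.log (1 + t) := Real.log_nonneg (by linarith)
  have h4 : 0 ≤ min 1 t := le_min zero_le_one ht
  unfold psi
  have : 0 ≤ P.G := by linarith
  positivity

theorem psi_mono_m {d n : ℕ} (P : Par d n) (t : ℝ) (ht : 0 ≤ t) (m m' : ℕ) (h : m ≤ m') :
    psi P t m ≤ psi P t m' := by
  have h2 := P.hL1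
  have h4 : 0 ≤ min 1 t := le_min zero_le_one ht
  have h5 : (m : ℝ) ≤ m' := by exact_mod_cast h
  unfold psi
  have : ((m : ℝ) + 1) * (P.L + 1) * min 1 t ≤ ((m' : ℝ) + 1) * (P.L + 1) * min 1 t := by
    refine mul_le_mul_of_nonneg_right (mul_le_mul_of_nonneg_right ?_ ?_) h4 <;> linarith
  linarith

theorem psi_succ {d n : ℕ} (P : Par d n) (t : ℝ) (m : ℕ) :
    psi P t (m + 1) = psi P t m + (P.L + 1) * min 1 t := by
  unfold psi; push_cast; ring

theorem min_le_log {t : ℝ} (ht : 0 ≤ t) : min 1 t ≤ 2 * Real.log (1 + t) := by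
  have h := Real.one_sub_inv_le_log_of_pos (x := 1 + t) (by linarith)
  have h2 : 1 - (1 + t)⁻¹ = t / (1 + t) := by field_simp; ring
  rw [h2] at h
  have h3 : min 1 t ≤ 2 * (t / (1 + t)) := by
    rcases le_total 1 t with h | h
    · rw [min_eq_left h, mul_div_assoc', le_div_iff₀ (by linarith)]; linarith
    · rw [min_eq_right h, mul_div_assoc', le_div_iff₀ (by linarith)]; nlinarith
  linarith

theorem min_le_log_diff {t : ℝ} (ht : 0 ≤ t) :
    min 1 t ≤ 8 * (Real.log (1 + t) - Real.log (1 + 3 / 4 * t)) := by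
  rw [← Real.log_div (by linarith) (by linarith)]
  have h := Real.one_sub_inv_le_log_of_pos (x := (1 + t) / (1 + 3 / 4 * t)) (by positivity)
  rw [inv_div] at h
  have h2 : 1 - (1 + 3 / 4 * t) / (1 + t) = t / (4 * (1 + t)) := by field_simp; ring
  rw [h2] at h
  have h3 : min 1 t ≤ 8 * (t / (4 * (1 + t))) := by
    rcases le_total 1 t with h | h
    · rw [min_eq_left h, mul_div_assoc', le_div_iff₀ (by linarith)]; linarith
    · rw [min_eq_right h, mul_div_assoc', le_div_iff₀ (by linarith)]; nlinarith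
  linarith

theorem psi_shrink {d n : ℕ} (P : Par d n) (t : ℝ) (ht : 0 ≤ t) (m : ℕ) :
    psi P (3 / 4 * t) P.mm + (1 + 10 * P.L) * min 1 t ≤ psi P t m := by
  have h1 := min_le_log_diff ht
  have h2 := P.hL1
  have hG := P.hG
  have hG1 := P_G_ge P
  have h4 : 0 ≤ min 1 t := le_min zero_le_one ht
  have h5 : min 1 (3 / 4 * t) ≤ min 1 t := min_le_min le_rfl (by linarith)
  unfold psi
  have e1 : P.G * min 1 t ≤ P.G * (8 * (Real.log (1 + t) - Real.log (1 + 3 / 4 * t))) :=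
    mul_le_mul_of_nonneg_left h1 (by linarith)
  have e2 : ((P.mm : ℝ) + 1) * (P.L + 1) * min 1 (3 / 4 * t) ≤
      ((P.mm : ℝ) + 1) * (P.L + 1) * min 1 t :=
    mul_le_mul_of_nonneg_left h5 (by positivity)
  have e3 : 0 ≤ ((m : ℝ) + 1) * (P.L + 1) * min 1 t := by positivity
  have e4 : P.G * min 1 t = (1 + 10 * P.L) * min 1 t +
      ((P.mm : ℝ) + 1) * (P.L + 1) * min 1 t := by
    rw [hG]; ring
  nlinarith

/-- the state of the recursion -/
structure St {ι : Type} [DecidableEq ι] {d n : ℕ} (P : Par d n) (v : ι → Fin d → ℝ)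
    (C : Finset ι) (Z : Fin d → ℝ) (t : Fin d → ℝ) (At : Finset ι) (m : ℕ) : Prop where
  sub : At ⊆ C
  tpos : ∀ k, 0 < t k
  tle : ∀ k, t k ≤ P.T0
  qt : ∀ k, qq v C k k ≤ t k ^ 2 ∨ t k = P.T0
  dust : ∀ i ∈ C, i ∉ At → ∀ k, v i k ^ 2 ≤ P.eta * t k ^ 2
  acard : (At.card : ℝ) ≤ 6 * P.L * (4 / 3) ^ m
  mle : m ≤ P.mm
  off : ∀ k l, k ≠ l → |qq v C k l| ≤ P.E * Real.sqrt (P.E2 + qq v C k k)
  z1 : ∀ k, |Z k| ≤ P.R - psi P (t k) m
  z2 : ∀ k, P.T0 ^ 2 < qq v C k k → |Z k| ≤ P.R - psi P P.T0 P.mm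
  w1 : ∀ k, |Z k + sm v C k| ≤ P.R - psi P (t k) m
  w2 : ∀ k, P.T0 ^ 2 < qq v C k k → |Z k + sm v C k| ≤ P.R - psi P P.T0 P.mm

theorem qq_mono {ι : Type} {d : ℕ} (v : ι → Fin d → ℝ) {C D : Finset ι} (h : D ⊆ C)
    (k : Fin d) : qq v D k k ≤ qq v C k k := by
  rw [qq_self, qq_self]
  exact sum_le_sum_of_subset_of_nonneg h fun i _ _ => sq_nonneg _

theorem qq_comm {ι : Type} {d : ℕ} (v : ι → Fin d → ℝ) (C : Finset ι)
    (k l : Fin d) : qq v C k l = qq v C l k := by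
  unfold qq; exact sum_congr rfl fun i _ => by ring

theorem sm_sdiff {ι : Type} [DecidableEq ι] {d : ℕ} (v : ι → Fin d → ℝ) {C D : Finset ι}
    (h : D ⊆ C) (k : Fin d) : sm v (C \ D) k = sm v C k - sm v D k := by
  unfold sm; rw [← sum_sdiff h]; ring

theorem qq_sdiff {ι : Type} [DecidableEq ι] {d : ℕ} (v : ι → Fin d → ℝ) {C D : Finset ι}
    (h : D ⊆ C) (k l : Fin d) : qq v (C \ D) k l = qq v C k l - qq v D k l := by
  unfold qq; rw [← sum_sdiff h]; ring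

theorem one_le_n {d n : ℕ} (P : Par d n) : (1 : ℝ) ≤ n := by
  have := P.hn
  have h2 : 1 ≤ n := le_trans (Nat.one_le_pow _ _ (by omega)) this
  exact_mod_cast h2

theorem qq_abs_le_card {ι : Type} {d : ℕ} (v : ι → Fin d → ℝ)
    (hv : ∀ i, ∑ k, v i k ^ 2 ≤ 1) (C : Finset ι) (k l : Fin d) : |qq v C k l| ≤ C.card := by
  unfold qq
  refine (abs_sum_le_sum_abs _ _).trans ?_
  refine (sum_le_card_nsmul _ _ 1 fun i _ => ?_).trans (le_of_eq (by simp))
  rw [abs_mul]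
  exact mul_le_one₀ (abs_v_le v hv i k) (abs_nonneg _) (abs_v_le v hv i l)

theorem off_child {ι : Type} [DecidableEq ι] {d n : ℕ} (P : Par d n) (v : ι → Fin d → ℝ)
    (hv : ∀ i, ∑ k, v i k ^ 2 ≤ 1)
    (C D X : Finset ι) (hDC : D ⊆ C) (hcard : ((C \ D).card : ℝ) ≤ 6 * P.L)
    (hoff : ∀ k l, k ≠ l → |qq v C k l| ≤ P.E * Real.sqrt (P.E2 + qq v C k k))
    (h1 : ∀ k l, k ≠ l → |qq v X k l - qq v D k l / 2| ≤ Real.sqrt (qq v D k k) / 2 + n)
    (h2 : ∀ k, |qq v X k k - qq v D k k / 2| ≤ qq v D k k / 64 + n) :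
    ∀ k l, k ≠ l → |qq v X k l| ≤ P.E * Real.sqrt (P.E2 + qq v X k k) := by
  intro k l hkl
  have hL1 := P.hL1
  have hn1 := one_le_n P
  have hE2 := P.hE2
  have hE := P.hE
  have a1 := hoff k l hkl
  have a2 := h1 k l hkl
  have a3 := h2 k
  have b1 := (qq_abs_le_card v hv (C \ D) k l).trans hcard
  have b2 := (qq_abs_le_card v hv (C \ D) k k).trans hcard
  rw [qq_sdiff v hDC] at b1 b2
  have b3 := qq_mono v hDC k
  have b4 := qq_nonneg v D k
  have b5 := qq_nonneg v X k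
  set S := Real.sqrt (P.E2 + qq v C k k) with hS
  have hSD : Real.sqrt (qq v D k k) ≤ S := Real.sqrt_le_sqrt (by linarith)
  have hS1 : 1 ≤ S := Real.one_le_sqrt.2 (by linarith)
  have hSsq : S ^ 2 = P.E2 + qq v C k k := Real.sq_sqrt (by linarith)
  have c1 : |qq v X k l| ≤ (P.E * S + 6 * P.L) / 2 + S / 2 + n := by
    have := abs_le.1 a1
    have := abs_le.1 a2
    have := abs_le.1 b1
    rw [abs_le]; constructor <;> linarith
  have c2 : 0.69 * S ≤ Real.sqrt (P.E2 + qq v X k k) := by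
    refine Real.le_sqrt_of_sq_le ?_
    rw [mul_pow, hSsq]
    have := abs_le.1 a3
    have := abs_le.1 b2
    nlinarith
  refine c1.trans (le_trans ?_ (mul_le_mul_of_nonneg_left c2 (by linarith)))
  have c3 : (3 * P.L + n) * 1 ≤ (3 * P.L + n) * S := mul_le_mul_of_nonneg_left hS1 (by linarith)
  have c4 : (0.5 + 3 * P.L + n) * S ≤ (0.19 * P.E) * S :=
    mul_le_mul_of_nonneg_right (by rw [hE]; linarith) (by linarith)
  nlinarith

theorem vle {ι : Type} [DecidableEq ι] {d n : ℕ} {P : Par d n} {v : ι → Fin d → ℝ}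
    (hv : ∀ i, ∑ k, v i k ^ 2 ≤ 1) {C : Finset ι} {Z t : Fin d → ℝ} {At : Finset ι} {m : ℕ}
    (h : St P v C Z t At m) (i : ι) (hi : i ∈ C) (k : Fin d) : |v i k| ≤ min 1 (t k) := by
  refine le_min (abs_v_le v hv i k) ?_
  rcases h.qt k with h1 | h1
  · refine abs_le_of_sq_le_sq (le_trans ?_ h1) (h.tpos k).le
    rw [qq_self]
    exact single_le_sum (f := fun i => v i k ^ 2) (fun j _ => sq_nonneg _) hi
  · rw [h1]
    have := P.hT0
    exact (abs_v_le v hv i k).trans (by linarith)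

theorem sqle {ι : Type} [DecidableEq ι] {d n : ℕ} {P : Par d n} {v : ι → Fin d → ℝ}
    {C : Finset ι} {Z t : Fin d → ℝ} {At : Finset ι} {m : ℕ}
    (h : St P v C Z t At m) (D : Finset ι) (hD : D ⊆ C) (k : Fin d) :
    min 1 (Real.sqrt (qq v D k k)) ≤ min 1 (t k) := by
  rcases h.qt k with h1 | h1
  · refine min_le_min le_rfl ?_
    rw [Real.sqrt_le_left (h.tpos k).le]
    exact (qq_mono v hD k).trans h1
  · rw [h1]
    have := P.hT0
    rw [min_eq_left (by linarith : (1 : ℝ) ≤ P.T0)]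
    exact min_le_left _ _

theorem sm_abs_le {ι : Type} [DecidableEq ι] {d n : ℕ} {P : Par d n} {v : ι → Fin d → ℝ}
    (hv : ∀ i, ∑ k, v i k ^ 2 ≤ 1) {C : Finset ι} {Z t : Fin d → ℝ} {At : Finset ι} {m : ℕ}
    (h : St P v C Z t At m) (X : Finset ι) (hX : X ⊆ C) (k : Fin d) :
    ∑ i ∈ X, |v i k| ≤ X.card * min 1 (t k) := by
  rw [← nsmul_eq_mul]
  exact sum_le_card_nsmul _ _ _ fun i hi => vle hv h i (hX hi) k

theorem good_small {ι : Type} [DecidableEq ι] {d n : ℕ} {P : Par d n} {v : ι → Fin d → ℝ}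
    (hv : ∀ i, ∑ k, v i k ^ 2 ≤ 1) {C : Finset ι} {Z t : Fin d → ℝ} {At : Finset ι} {m : ℕ}
    (h : St P v C Z t At m) (hC : (C.card : ℝ) ≤ 16 * P.L) : Good v P.R C Z := by
  refine good_terminal v _ C Z fun k => ?_
  have h1 := h.z1 k
  have h2 := sm_abs_le hv h C (Subset.refl _) k
  have h3 : 0 ≤ min 1 (t k) := le_min zero_le_one (h.tpos k).le
  have h4 : (C.card : ℝ) * min 1 (t k) ≤ 16 * P.L * min 1 (t k) :=
    mul_le_mul_of_nonneg_right hC h3
  have h5 := min_le_log (h.tpos k).le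
  have hG := P_G_ge P
  have hL := P.hL1
  have h6 : 4 * P.L * min 1 (t k) ≤ P.G * (2 * Real.log (1 + t k)) :=
    mul_le_mul (by linarith) h5 h3 (by linarith)
  have h7 : 0 ≤ ((m : ℝ) + 1) * (P.L + 1) * min 1 (t k) := by positivity
  unfold psi at h1
  nlinarith

theorem childA {ι : Type} [DecidableEq ι] {d n : ℕ} {P : Par d n} {v : ι → Fin d → ℝ}
    (hv : ∀ i, ∑ k, v i k ^ 2 ≤ 1) {C : Finset ι} {Z t : Fin d → ℝ} {At : Finset ι} {m : ℕ}
    (h : St P v C Z t At (m + 1)) (X : Finset ι) (hX : X ⊆ C)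
    (h1 : ∀ k l, k ≠ l → |qq v X k l - qq v C k l / 2| ≤ Real.sqrt (qq v C k k) / 2 + n)
    (h2 : ∀ k, |qq v X k k - qq v C k k / 2| ≤ qq v C k k / 64 + n)
    (hc : ((At ∩ X).card : ℝ) ≤ 3 / 4 * At.card) (W : Fin d → ℝ)
    (z1 : ∀ k, |W k| ≤ P.R - psi P (t k) m)
    (z2 : ∀ k, P.T0 ^ 2 < qq v C k k → |W k| ≤ P.R - psi P P.T0 P.mm)
    (w1 : ∀ k, |W k + sm v X k| ≤ P.R - psi P (t k) m)
    (w2 : ∀ k, P.T0 ^ 2 < qq v C k k → |W k + sm v X k| ≤ P.R - psi P P.T0 P.mm) :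
    St P v X W t (At ∩ X) m where
  sub := inter_subset_right
  tpos := h.tpos
  tle := h.tle
  qt := fun k => (h.qt k).imp (fun h' => (qq_mono v hX k).trans h') id
  dust := fun i hi hi2 k => h.dust i (hX hi) (fun h' => hi2 (mem_inter.2 ⟨h', hi⟩)) k
  acard := by
    have := h.acard
    rw [pow_succ] at this
    linarith
  mle := by have := h.mle; omega
  off := off_child P v hv C C X (Subset.refl _) (by
    have := P.hL1
    simp; linarith) h.off h1 h2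
  z1 := z1
  z2 := fun k hk => z2 k (lt_of_lt_of_le hk (qq_mono v hX k))
  w1 := w1
  w2 := fun k hk => w2 k (lt_of_lt_of_le hk (qq_mono v hX k))

end Vale.Agent.P262
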