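import Mathlib
import Vale.Agent.P262.Rec

namespace Vale.Agent.P262

open Finset

theorem childB {ι : Type} [DecidableEq ι] {d n : ℕ} {P : Par d n} {v : ι → Fin d → ℝ}
    (hv : ∀ i, ∑ k, v i k ^ 2 ≤ 1) {C : Finset ι} {Z t : Fin d → ℝ} {At : Finset ι} {m : ℕ}
    (h : St P v C Z t At m) (hAt : (At.card : ℝ) ≤ 6 * P.L) (X : Finset ι) (hX : X ⊆ C \ At)
    (h1 : ∀ k l, k ≠ l → |qq v X k l - qq v (C \ At) k l / 2| ≤
      Real.sqrt (qq v (C \ At) k k) / 2 + n)
    (h2 : ∀ k μ, (∀ i ∈ C \ At, v i k ^ 2 ≤ μ) → 0 ≤ μ →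
      |qq v X k k - qq v (C \ At) k k / 2| ≤ qq v (C \ At) k k / 64 + n * μ)
    (W : Fin d → ℝ)
    (z1 : ∀ k, P.T0 ^ 2 < qq v (C \ At) k k → |W k| ≤ P.R - psi P P.T0 P.mm)
    (z2 : ∀ k, ¬ P.T0 ^ 2 < qq v (C \ At) k k → |W k| ≤ P.R - psi P (3 / 4 * t k) P.mm)
    (w1 : ∀ k, P.T0 ^ 2 < qq v (C \ At) k k → |W k + sm v X k| ≤ P.R - psi P P.T0 P.mm)
    (w2 : ∀ k, ¬ P.T0 ^ 2 < qq v (C \ At) k k →
      |W k + sm v X k| ≤ P.R - psi P (3 / 4 * t k) P.mm) :
    ∃ t' At', St P v X W t' At' P.mm := by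
  classical
  set D := C \ At with hD
  have hDC : D ⊆ C := sdiff_subset
  have hXC : X ⊆ C := hX.trans hDC
  have hT0 := P.hT0
  have heta0 := P.heta0
  set t' : Fin d → ℝ := fun k => if P.T0 ^ 2 < qq v D k k then P.T0 else 3 / 4 * t k with ht'
  have ht'pos : ∀ k, 0 < t' k := by
    intro k
    have := h.tpos k
    simp only [ht']
    split_ifs <;> linarith
  have hpoor : ∀ k, ¬ P.T0 ^ 2 < qq v D k k → qq v D k k ≤ t k ^ 2 := by
    intro k hk
    rcases h.qt k with h' | h'
    · exact (qq_mono v hDC k).trans h'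
    · rw [h']; exact not_lt.1 hk
  have hXpoor : ∀ k, ¬ P.T0 ^ 2 < qq v D k k → qq v X k k ≤ t' k ^ 2 := by
    intro k hk
    have a1 := hpoor k hk
    have a2 := h2 k (P.eta * t k ^ 2) (fun i hi => h.dust i (hDC hi) (mem_sdiff.1 hi).2 k)
      (by positivity)
    have a3 := (abs_le.1 a2).2
    have a4 : (n : ℝ) * (P.eta * t k ^ 2) ≤ 1 / 32 * t k ^ 2 := by
      rw [← mul_assoc]
      exact mul_le_mul_of_nonneg_right P.heta (sq_nonneg _)
    simp only [ht', hk, if_false]
    have := sq_nonneg (t k)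
    nlinarith
  set At' : Finset ι := X.filter (fun i => ∃ k, P.eta * t' k ^ 2 < v i k ^ 2) with hAt'
  have hcount : ∀ k, ((X.filter (fun i => P.eta * t' k ^ 2 < v i k ^ 2)).card : ℝ) ≤
      1 / P.eta := by
    intro k
    by_cases hk : P.T0 ^ 2 < qq v D k k
    · have : X.filter (fun i => P.eta * t' k ^ 2 < v i k ^ 2) = ∅ := by
        rw [filter_eq_empty_iff]
        intro i _ hi
        simp only [ht', hk, if_true] at hi
        have h3 := abs_v_le v hv i k
        have h4 : v i k ^ 2 ≤ 1 := by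
          rw [← sq_abs]; exact pow_le_one₀ (abs_nonneg _) h3
        have := P.hetaT
        linarith
      rw [this]
      simp; positivity
    · have a1 := hXpoor k hk
      have a2 : ((X.filter (fun i => P.eta * t' k ^ 2 < v i k ^ 2)).card : ℝ) *
          (P.eta * t' k ^ 2) ≤ qq v X k k := by
        rw [qq_self, ← nsmul_eq_mul]
        refine (card_nsmul_le_sum _ _ _ fun i hi => (mem_filter.1 hi).2.le).trans ?_
        exact sum_le_sum_of_subset_of_nonneg (filter_subset _ _) fun i _ _ => sq_nonneg _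
      have a3 : 0 < t' k ^ 2 := by have := ht'pos k; positivity
      rw [le_div_iff₀ heta0]
      by_contra hcon
      push Not at hcon
      have := mul_lt_mul_of_pos_right hcon a3
      nlinarith
  refine ⟨t', At', ?_⟩
  refine
    { sub := filter_subset _ _
      tpos := ht'pos
      tle := ?_
      qt := ?_
      dust := ?_
      acard := ?_
      mle := le_rfl
      off := ?_
      z1 := ?_
      z2 := ?_
      w1 := ?_
      w2 := ?_ }
  · intro k
    have := h.tle k
    have := h.tpos k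
    simp only [ht']
    split_ifs <;> linarith
  · intro k
    by_cases hk : P.T0 ^ 2 < qq v D k k
    · right; simp only [ht', hk, if_true]
    · left; exact hXpoor k hk
  · intro i hi hi2 k
    by_contra hcon
    push Not at hcon
    exact hi2 (mem_filter.2 ⟨hi, k, hcon⟩)
  · refine le_trans ?_ P.hmm
    have e1 : At' ⊆ univ.biUnion
        (fun k => X.filter (fun i => P.eta * t' k ^ 2 < v i k ^ 2)) := by
      intro i hi
      obtain ⟨hi1, k, hk⟩ := mem_filter.1 hi
      exact mem_biUnion.2 ⟨k, mem_univ _, mem_filter.2 ⟨hi1, hk⟩⟩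
    have e2 : (At'.card : ℝ) ≤
        ∑ k, ((X.filter (fun i => P.eta * t' k ^ 2 < v i k ^ 2)).card : ℝ) := by
      have := (card_le_card e1).trans card_biUnion_le
      exact_mod_cast this
    refine e2.trans ((sum_le_sum fun k _ => hcount k).trans (le_of_eq ?_))
    simp [div_eq_mul_inv]
  · refine off_child P v hv C D X hDC ?_ h.off h1 ?_
    · rw [hD, Finset.sdiff_sdiff_eq_self h.sub]; exact hAt
    · intro k
      have := h2 k 1 (fun i _ => by
        have h3 := abs_v_le v hv i k
        rw [← sq_abs]; exact pow_le_one₀ (abs_nonneg _) h3) zero_le_one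
      rw [mul_one] at this
      exact this
  · intro k
    by_cases hk : P.T0 ^ 2 < qq v D k k
    · simp only [ht', hk, if_true]; exact z1 k hk
    · simp only [ht', hk, if_false]; exact z2 k hk
  · intro k hk
    exact z1 k (lt_of_lt_of_le hk (qq_mono v hX k))
  · intro k
    by_cases hk : P.T0 ^ 2 < qq v D k k
    · simp only [ht', hk, if_true]; exact w1 k hk
    · simp only [ht', hk, if_false]; exact w2 k hk
  · intro k hk
    exact w1 k (lt_of_lt_of_le hk (qq_mono v hX k))

theorem R_sub_psi {d n : ℕ} (P : Par d n) : P.R - psi P P.T0 P.mm = 1 + 10 * P.L := by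
  have hT0 := P.hT0
  rw [P.hR]
  unfold psi
  rw [min_eq_left (by linarith : (1 : ℝ) ≤ P.T0)]
  ring

theorem caseB {ι : Type} [Fintype ι] [DecidableEq ι] {d n : ℕ} {P : Par d n}
    {v : ι → Fin d → ℝ}
    (hv : ∀ i, ∑ k, v i k ^ 2 ≤ 1) {C : Finset ι} {Z t : Fin d → ℝ} {At : Finset ι} {m : ℕ}
    (IH : ∀ (X : Finset ι) (W t' : Fin d → ℝ) (At' : Finset ι) (m' : ℕ), X.card < C.card →
      St P v X W t' At' m' → Good v P.R X W)
    (h : St P v C Z t At m) (hC : 16 * P.L < (C.card : ℝ)) (hAt : (At.card : ℝ) ≤ 6 * P.L) :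
    Good v P.R C Z := by
  classical
  have hL1 := P.hL1
  have hT0 := P.hT0
  have hn1 := one_le_n P
  have hE1 : 1 ≤ P.E := by rw [P.hE]; linarith
  have hR0 : 0 ≤ P.R := by
    have := R_sub_psi P
    have := psi_nonneg P P.T0 (by linarith) P.mm
    linarith
  set y : Fin d → ℝ := fun k => Z k + sm v C k / 2 with hy
  have hylt : ∀ k, |y k| ≤ P.R - psi P (t k) m := by
    intro k
    have a1 := abs_le.1 (h.z1 k)
    have a2 := abs_le.1 (h.w1 k)
    rw [abs_le]; simp only [hy]; constructor <;> linarith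
  have hyR : ∀ k, |y k| ≤ P.R := fun k => by
    have := hylt k
    have := psi_nonneg P (t k) (h.tpos k).le m
    linarith
  have hrt : ∀ k, P.T0 ^ 2 < qq v C k k → t k = P.T0 := by
    intro k hk
    rcases h.qt k with h' | h'
    · have := h.tle k
      have := h.tpos k
      nlinarith
    · exact h'
  have hR1 := R_sub_psi P
  have hTE := P.hTE
  have hE2 := P.hE2
  set D := C \ At with hD
  have hDC : D ⊆ C := sdiff_subset
  have hCD : C \ D = At := by rw [hD, Finset.sdiff_sdiff_eq_self h.sub]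
  have hQ : ∀ k l, k ≠ l → P.T0 ^ 2 < qq v D l l →
      |qq v D k l| ≤ 2 * P.E * Real.sqrt (qq v D l l) := by
    intro k l hkl hl
    have a1 := h.off l k hkl.symm
    have b1 := (qq_abs_le_card v hv (C \ D) l k)
    have b2 := (qq_abs_le_card v hv (C \ D) l l)
    rw [qq_sdiff v hDC, hCD] at b1 b2
    rw [qq_comm]
    set s := Real.sqrt (qq v D l l) with hs
    have hs1 : P.T0 ≤ s := Real.le_sqrt_of_sq_le hl.le
    have hssq : s ^ 2 = qq v D l l := Real.sq_sqrt (qq_nonneg v D l)
    have c1 : Real.sqrt (P.E2 + qq v C l l) ≤ 1.5 * s := by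
      rw [Real.sqrt_le_left (by linarith), mul_pow, hssq]
      have := abs_le.1 b2
      have : P.E2 + 6 * P.L ≤ qq v D l l := by
        have : P.T0 * 1 ≤ P.T0 * P.T0 := mul_le_mul_of_nonneg_left (by linarith) (by linarith)
        nlinarith
      nlinarith
    have c2 : |qq v D l k| ≤ P.E * Real.sqrt (P.E2 + qq v C l l) + 6 * P.L := by
      have := abs_le.1 a1
      have := abs_le.1 b1
      rw [abs_le]; constructor <;> linarith
    have c3 : P.E * Real.sqrt (P.E2 + qq v C l l) ≤ P.E * (1.5 * s) :=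
      mul_le_mul_of_nonneg_left c1 (by linarith)
    have c4 : 6 * P.L * 1 ≤ (0.5 * P.E) * s := by
      refine mul_le_mul ?_ (by linarith) (by norm_num) (by linarith)
      rw [P.hE]; linarith
    nlinarith
  obtain ⟨D1, hD1, s1, s2, -, s4, s5⟩ := split v hv D ∅ (empty_subset _) y n P.hn P.L P.hL
    P.T0 P.R P.E hT0 hR0 hE1 P.hTER hyR hQ
  set D2 := D \ D1 with hD2
  have hD2D : D2 ⊆ D := sdiff_subset
  have hsmAt : ∀ k, |sm v At k| ≤ 6 * P.L * min 1 (t k) := by
    intro k
    have a1 := sm_abs_le hv h At h.sub k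
    have a2 : |sm v At k| ≤ ∑ i ∈ At, |v i k| := abs_sum_le_sum_abs _ _
    have a3 : (At.card : ℝ) * min 1 (t k) ≤ 6 * P.L * min 1 (t k) :=
      mul_le_mul_of_nonneg_right hAt (le_min zero_le_one (h.tpos k).le)
    linarith
  have hsmC : ∀ k, sm v C k = sm v D k + sm v At k := by
    intro k
    have := sm_sdiff v h.sub k
    rw [← hD] at this
    linarith
  have hsmD : ∀ k, sm v D2 k = sm v D k - sm v D1 k := fun k => sm_sdiff v hD1 k
  set Z1 : Fin d → ℝ := fun k => Z k + sm v D1 k with hZ1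
  set Z2 : Fin d → ℝ := fun k => Z1 k + sm v At k with hZ2
  have hmin0 : ∀ k, 0 ≤ min 1 (t k) := fun k => le_min zero_le_one (h.tpos k).le
  have herr : ∀ k, |sm v D1 k - (sm v D k / 2 - if P.T0 ^ 2 < qq v D k k then y k else 0)| ≤
      (P.L + 1) * min 1 (t k) := fun k =>
    (s1 k).trans (mul_le_mul_of_nonneg_left (sqle h D hDC k) (by linarith))
  have hrich : ∀ k, P.T0 ^ 2 < qq v D k k → |Z1 k| ≤ (4 * P.L + 1) * min 1 (t k) ∧
      |Z2 k| ≤ (4 * P.L + 1) * min 1 (t k) := by
    intro k hk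
    have a1 := herr k
    rw [if_pos hk] at a1
    have a2 := abs_le.1 (hsmAt k)
    have a3 := hsmC k
    have a1 := abs_le.1 a1
    simp only [hZ2, hZ1, hy, abs_le] at a1 ⊢
    refine ⟨⟨?_, ?_⟩, ⟨?_, ?_⟩⟩ <;> linarith
  have hpoor : ∀ k, ¬ P.T0 ^ 2 < qq v D k k →
      |Z1 k| ≤ P.R - psi P (t k) m + (4 * P.L + 1) * min 1 (t k) ∧
      |Z2 k| ≤ P.R - psi P (t k) m + (4 * P.L + 1) * min 1 (t k) := by
    intro k hk
    have a1 := herr k
    rw [if_neg hk] at a1
    have a2 := abs_le.1 (hsmAt k)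
    have a3 := hsmC k
    have a1 := abs_le.1 a1
    have a4 := abs_le.1 (hylt k)
    simp only [hZ2, hZ1, hy, abs_le] at a1 a4 ⊢
    refine ⟨⟨?_, ?_⟩, ⟨?_, ?_⟩⟩ <;> linarith
  have hLm : ∀ k, 0 ≤ P.L * min 1 (t k) := fun k => mul_nonneg (by linarith) (hmin0 k)
  have hrichle : ∀ k, (4 * P.L + 1) * min 1 (t k) ≤ 4 * P.L + 1 := fun k =>
    mul_le_of_le_one_right (by linarith) (min_le_left _ _)
  have hsh : ∀ k, psi P (3 / 4 * t k) P.mm + (1 + 10 * P.L) * min 1 (t k) ≤
      psi P (t k) m := fun k => psi_shrink P (t k) (h.tpos k).le m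
  have hqDC : ∀ k, P.T0 ^ 2 < qq v D k k → P.T0 ^ 2 < qq v C k k := fun k hk =>
    lt_of_lt_of_le hk (qq_mono v hDC k)
  have hcardD : (D.card : ℝ) ≤ C.card := by exact_mod_cast card_le_card hDC
  have hcard1 : D1.card < C.card := by
    have a1 := abs_le.1 s2
    have : (D1.card : ℝ) < C.card := by linarith
    exact_mod_cast this
  have hcard2 : D2.card < C.card := by
    have a1 := abs_le.1 s2
    have a2 : (D2.card : ℝ) = D.card - D1.card := by
      rw [hD2, card_sdiff_of_subset hD1, Nat.cast_sub (card_le_card hD1)]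
    have : (D2.card : ℝ) < C.card := by linarith
    exact_mod_cast this
  have g1 : Good v P.R D1 Z := by
    obtain ⟨t', At', hst⟩ := childB hv h hAt D1 hD1 s4 s5 Z
      (fun k hk => h.z2 k (hqDC k hk))
      (fun k hk => by
        have := h.z1 k; have := hsh k; have := hmin0 k; have := hLm k; linarith)
      (fun k hk => by
        have := (hrich k hk).1; have := hrichle k
        change |Z1 k| ≤ _
        rw [hR1]; linarith)
      (fun k hk => by
        have := (hpoor k hk).1; have := hsh k; have := hmin0 k; have := hLm k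
        change |Z1 k| ≤ _
        linarith)
    exact IH D1 Z t' At' _ hcard1 hst
  have g2 : Good v P.R At Z1 := by
    refine good_terminal v _ _ _ fun k => ?_
    have a1 := sm_abs_le hv h At h.sub k
    have a3 : (At.card : ℝ) * min 1 (t k) ≤ 6 * P.L * min 1 (t k) :=
      mul_le_mul_of_nonneg_right hAt (hmin0 k)
    by_cases hk : P.T0 ^ 2 < qq v D k k
    · have a4 := (hrich k hk).1
      have a5 : (10 * P.L + 1) * min 1 (t k) ≤ 10 * P.L + 1 :=
        mul_le_of_le_one_right (by linarith) (min_le_left _ _)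
      have := psi_nonneg P P.T0 (by linarith) P.mm
      linarith
    · have a4 := (hpoor k hk).1
      have a5 := hsh k
      have := psi_nonneg P (3 / 4 * t k) (by have := h.tpos k; linarith) P.mm
      linarith
  have g3 : Good v P.R D2 Z2 := by
    have q1 : ∀ k l, k ≠ l → |qq v D2 k l - qq v D k l / 2| ≤
        Real.sqrt (qq v D k k) / 2 + n := by
      intro k l hkl
      have a1 := s4 k l hkl
      rw [hD2, qq_sdiff v hD1, abs_sub_comm]
      have e : qq v D k l / 2 - (qq v D k l - qq v D1 k l) = qq v D1 k l - qq v D k l / 2 := by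
        ring
      rw [e]; exact a1
    have q2 : ∀ k μ, (∀ i ∈ D, v i k ^ 2 ≤ μ) → 0 ≤ μ →
        |qq v D2 k k - qq v D k k / 2| ≤ qq v D k k / 64 + n * μ := by
      intro k μ hμ hμ0
      have a1 := s5 k μ hμ hμ0
      rw [hD2, qq_sdiff v hD1, abs_sub_comm]
      have e : qq v D k k / 2 - (qq v D k k - qq v D1 k k) = qq v D1 k k - qq v D k k / 2 := by
        ring
      rw [e]; exact a1
    have hend : ∀ k, Z2 k + sm v D2 k = Z k + sm v C k := by
      intro k
      rw [hsmD, hsmC]; simp only [hZ2, hZ1]; ring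
    obtain ⟨t', At', hst⟩ := childB hv h hAt D2 hD2D q1 q2 Z2
      (fun k hk => by
        have := (hrich k hk).2; have := hrichle k
        rw [hR1]; linarith)
      (fun k hk => by
        have := (hpoor k hk).2; have := hsh k; have := hmin0 k; have := hLm k
        linarith)
      (fun k hk => by rw [hend]; exact h.w2 k (hqDC k hk))
      (fun k hk => by
        rw [hend]
        have := h.w1 k; have := hsh k; have := hmin0 k; have := hLm k; linarith)
    exact IH D2 Z2 t' At' _ hcard2 hst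
  have g23 : Good v P.R (At ∪ D2) Z1 := by
    refine good_append v _ At D2 Z1 g2 g3 ?_
    exact (disjoint_sdiff (s := At) (t := C)).mono_right hD2D
  have g123 : Good v P.R (D1 ∪ (At ∪ D2)) Z := by
    refine good_append v _ D1 _ Z g1 g23 ?_
    rw [disjoint_union_right]
    refine ⟨?_, disjoint_sdiff⟩
    exact ((disjoint_sdiff (s := At) (t := C)).mono_right hD1).symm
  have hun : D1 ∪ (At ∪ D2) = C := by
    ext i
    simp only [mem_union, hD2, hD, mem_sdiff]
    constructor
    · rintro (h' | h' | h')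
      · exact hDC (hD1 h')
      · exact h.sub h'
      · exact h'.1.1
    · intro hi
      by_cases h1 : i ∈ At
      · exact Or.inr (Or.inl h1)
      · by_cases h2 : i ∈ D1
        · exact Or.inl h2
        · exact Or.inr (Or.inr ⟨⟨hi, h1⟩, h2⟩)
  rw [hun] at g123
  exact g123

theorem caseA {ι : Type} [Fintype ι] [DecidableEq ι] {d n : ℕ} {P : Par d n}
    {v : ι → Fin d → ℝ}
    (hv : ∀ i, ∑ k, v i k ^ 2 ≤ 1) {C : Finset ι} {Z t : Fin d → ℝ} {At : Finset ι} {m : ℕ}
    (IH : ∀ (X : Finset ι) (W t' : Fin d → ℝ) (At' : Finset ι) (m' : ℕ), X.card < C.card →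
      St P v X W t' At' m' → Good v P.R X W)
    (h : St P v C Z t At m) (hC : 16 * P.L < (C.card : ℝ)) (hAt : 6 * P.L < (At.card : ℝ)) :
    Good v P.R C Z := by
  classical
  have hL1 := P.hL1
  have hT0 := P.hT0
  have hn1 := one_le_n P
  have hE1 : 1 ≤ P.E := by rw [P.hE]; linarith
  have hR0 : 0 ≤ P.R := by
    have := R_sub_psi P
    have := psi_nonneg P P.T0 (by linarith) P.mm
    linarith
  set y : Fin d → ℝ := fun k => Z k + sm v C k / 2 with hy
  have hylt : ∀ k, |y k| ≤ P.R - psi P (t k) m := by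
    intro k
    have a1 := abs_le.1 (h.z1 k)
    have a2 := abs_le.1 (h.w1 k)
    rw [abs_le]; simp only [hy]; constructor <;> linarith
  have hyR : ∀ k, |y k| ≤ P.R := fun k => by
    have := hylt k
    have := psi_nonneg P (t k) (h.tpos k).le m
    linarith
  have hrt : ∀ k, P.T0 ^ 2 < qq v C k k → t k = P.T0 := by
    intro k hk
    rcases h.qt k with h' | h'
    · have := h.tle k
      have := h.tpos k
      nlinarith
    · exact h'
  have hR1 := R_sub_psi P
  have hTE := P.hTE
  have hE2 := P.hE2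
  obtain ⟨m', rfl⟩ : ∃ m', m = m' + 1 := by
    rcases m with _ | m'
    · have := h.acard
      rw [pow_zero, mul_one] at this
      linarith
    · exact ⟨m', rfl⟩
  have hQ : ∀ k l, k ≠ l → P.T0 ^ 2 < qq v C l l →
      |qq v C k l| ≤ 2 * P.E * Real.sqrt (qq v C l l) := by
    intro k l hkl hl
    have a1 := h.off l k hkl.symm
    rw [qq_comm]
    set s := Real.sqrt (qq v C l l) with hs
    have hs1 : P.T0 ≤ s := Real.le_sqrt_of_sq_le hl.le
    have hssq : s ^ 2 = qq v C l l := Real.sq_sqrt (qq_nonneg v C l)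
    have c1 : Real.sqrt (P.E2 + qq v C l l) ≤ 2 * s := by
      rw [Real.sqrt_le_left (by linarith), mul_pow, hssq]
      have : P.T0 * 1 ≤ P.T0 * P.T0 := mul_le_mul_of_nonneg_left (by linarith) (by linarith)
      nlinarith
    have c3 : P.E * Real.sqrt (P.E2 + qq v C l l) ≤ P.E * (2 * s) :=
      mul_le_mul_of_nonneg_left c1 (by linarith)
    nlinarith
  obtain ⟨C1, hC1, s1, s2, s3, s4, s5⟩ := split v hv C At h.sub y n P.hn P.L P.hL
    P.T0 P.R P.E hT0 hR0 hE1 P.hTER hyR hQ
  set C2 := C \ C1 with hC2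
  have hC2C : C2 ⊆ C := sdiff_subset
  have s5' : ∀ k, |qq v C1 k k - qq v C k k / 2| ≤ qq v C k k / 64 + n := by
    intro k
    have := s5 k 1 (fun i _ => by
      have h3 := abs_v_le v hv i k
      rw [← sq_abs]; exact pow_le_one₀ (abs_nonneg _) h3) zero_le_one
    rw [mul_one] at this
    exact this
  set Z1 : Fin d → ℝ := fun k => Z k + sm v C1 k with hZ1
  have hmin0 : ∀ k, 0 ≤ min 1 (t k) := fun k => le_min zero_le_one (h.tpos k).le
  have herr : ∀ k, |sm v C1 k - (sm v C k / 2 - if P.T0 ^ 2 < qq v C k k then y k else 0)| ≤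
      (P.L + 1) * min 1 (t k) := fun k =>
    (s1 k).trans (mul_le_mul_of_nonneg_left (sqle h C (Subset.refl _) k) (by linarith))
  have hrich : ∀ k, P.T0 ^ 2 < qq v C k k → |Z1 k| ≤ P.L + 1 := by
    intro k hk
    have a1 := herr k
    rw [if_pos hk] at a1
    have a5 : (P.L + 1) * min 1 (t k) ≤ P.L + 1 :=
      mul_le_of_le_one_right (by linarith) (min_le_left _ _)
    have a1 := abs_le.1 a1
    simp only [hZ1, hy, abs_le] at a1 ⊢
    constructor <;> linarith
  have hsucc : ∀ k, psi P (t k) (m' + 1) = psi P (t k) m' + (P.L + 1) * min 1 (t k) :=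
    fun k => psi_succ P (t k) m'
  have hpoor : ∀ k, ¬ P.T0 ^ 2 < qq v C k k → |Z1 k| ≤ P.R - psi P (t k) m' := by
    intro k hk
    have a1 := herr k
    rw [if_neg hk] at a1
    have a1 := abs_le.1 a1
    have a4 := abs_le.1 (hylt k)
    have a5 := hsucc k
    simp only [hZ1, hy, abs_le] at a1 a4 ⊢
    constructor <;> linarith
  have hmid1 : ∀ k, |Z1 k| ≤ P.R - psi P (t k) m' := by
    intro k
    by_cases hk : P.T0 ^ 2 < qq v C k k
    · have a1 := hrich k hk
      have a2 := psi_mono_m P P.T0 (by linarith) m' P.mm (by have := h.mle; omega)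
      rw [hrt k hk]
      linarith
    · exact hpoor k hk
  have hmid2 : ∀ k, P.T0 ^ 2 < qq v C k k → |Z1 k| ≤ P.R - psi P P.T0 P.mm := by
    intro k hk
    have a1 := hrich k hk
    rw [hR1]; linarith
  have hpm : ∀ k, psi P (t k) m' ≤ psi P (t k) (m' + 1) := fun k =>
    psi_mono_m P _ (h.tpos k).le _ _ (by omega)
  have hcard1 : C1.card < C.card := by
    have a1 := abs_le.1 s2
    have : (C1.card : ℝ) < C.card := by linarith
    exact_mod_cast this
  have hcard2 : C2.card < C.card := by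
    have a1 := abs_le.1 s2
    have a2 : (C2.card : ℝ) = C.card - C1.card := by
      rw [hC2, card_sdiff_of_subset hC1, Nat.cast_sub (card_le_card hC1)]
    have : (C2.card : ℝ) < C.card := by linarith
    exact_mod_cast this
  have hsm2 : ∀ k, sm v C2 k = sm v C k - sm v C1 k := fun k => sm_sdiff v hC1 k
  have hAtsplit : ((At ∩ C2).card : ℝ) = At.card - (At ∩ C1).card := by
    have e1 : At ∩ C2 = At \ (At ∩ C1) := by
      ext i
      simp only [hC2, mem_inter, mem_sdiff, not_and]
      constructor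
      · rintro ⟨a, b, c⟩; exact ⟨a, fun _ => c⟩
      · rintro ⟨a, b⟩; exact ⟨a, h.sub a, b a⟩
    rw [e1, card_sdiff_of_subset inter_subset_left,
      Nat.cast_sub (card_le_card inter_subset_left)]
  have ha3 := abs_le.1 s3
  have g1 : Good v P.R C1 Z := by
    refine IH C1 Z t (At ∩ C1) m' hcard1 (childA hv h C1 hC1 s4 s5' ?_ Z
      (fun k => (h.z1 k).trans (by have := hpm k; linarith)) h.z2 hmid1 hmid2)
    linarith
  have g2 : Good v P.R C2 Z1 := by
    have q1 : ∀ k l, k ≠ l → |qq v C2 k l - qq v C k l / 2| ≤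
        Real.sqrt (qq v C k k) / 2 + n := by
      intro k l hkl
      have a1 := s4 k l hkl
      rw [hC2, qq_sdiff v hC1, abs_sub_comm]
      have e : qq v C k l / 2 - (qq v C k l - qq v C1 k l) = qq v C1 k l - qq v C k l / 2 := by
        ring
      rw [e]; exact a1
    have q2 : ∀ k, |qq v C2 k k - qq v C k k / 2| ≤ qq v C k k / 64 + n := by
      intro k
      have a1 := s5' k
      rw [hC2, qq_sdiff v hC1, abs_sub_comm]
      have e : qq v C k k / 2 - (qq v C k k - qq v C1 k k) = qq v C1 k k - qq v C k k / 2 := by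
        ring
      rw [e]; exact a1
    have hend : ∀ k, Z1 k + sm v C2 k = Z k + sm v C k := by
      intro k
      rw [hsm2]; simp only [hZ1]; ring
    refine IH C2 Z1 t (At ∩ C2) m' hcard2 (childA hv h C2 hC2C q1 q2 ?_ Z1 hmid1 hmid2
      (fun k => ?_) (fun k hk => ?_))
    · rw [hAtsplit]; linarith
    · rw [hend]
      exact (h.w1 k).trans (by have := hpm k; linarith)
    · rw [hend]; exact h.w2 k hk
  have g12 := good_append v _ C1 C2 Z g1 g2 disjoint_sdiff
  rw [hC2, union_sdiff_of_subset hC1] at g12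
  exact g12


theorem rec_step {ι : Type} [Fintype ι] [DecidableEq ι] {d n : ℕ} {P : Par d n}
    {v : ι → Fin d → ℝ}
    (hv : ∀ i, ∑ k, v i k ^ 2 ≤ 1) {C : Finset ι} {Z t : Fin d → ℝ} {At : Finset ι} {m : ℕ}
    (IH : ∀ (X : Finset ι) (W t' : Fin d → ℝ) (At' : Finset ι) (m' : ℕ), X.card < C.card →
      St P v X W t' At' m' → Good v P.R X W)
    (h : St P v C Z t At m) : Good v P.R C Z := by
  by_cases hC : (C.card : ℝ) ≤ 16 * P.L
  · exact good_small hv h hC
  · by_cases hAt : (At.card : ℝ) ≤ 6 * P.L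
    · exact caseB hv IH h (not_le.1 hC) hAt
    · exact caseA hv IH h (not_le.1 hC) (not_le.1 hAt)

theorem rec_main {ι : Type} [Fintype ι] [DecidableEq ι] {d n : ℕ} {P : Par d n}
    {v : ι → Fin d → ℝ} (hv : ∀ i, ∑ k, v i k ^ 2 ≤ 1) (N : ℕ) :
    ∀ (C : Finset ι) (Z t : Fin d → ℝ) (At : Finset ι) (m : ℕ), C.card = N →
      St P v C Z t At m → Good v P.R C Z := by
  induction N using Nat.strong_induction_on with
  | _ N ih =>
    intro C Z t At m hC h
    exact rec_step hv (fun X W t' At' m' hX h' => ih X.card (hC ▸ hX) X W t' At' m' rfl h') h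

/-- coordinate version: diagonal second moment -/
theorem diag_main {ι : Type} [Fintype ι] [DecidableEq ι] {d n : ℕ} (P : Par d n)
    {v : ι → Fin d → ℝ} (hv : ∀ i, ∑ k, v i k ^ 2 ≤ 1) (h0 : ∀ k, ∑ i, v i k = 0)
    (hoff : ∀ k l, k ≠ l → ∑ i, v i k * v i l = 0) : Good v P.R univ (fun _ => 0) := by
  have hT0 := P.hT0
  have hL1 := P.hL1
  have hn1 := one_le_n P
  have hR1 := R_sub_psi P
  refine rec_main hv _ univ (fun _ => 0) (fun _ => P.T0) ∅ P.mm rfl ?_
  have hz : ∀ k : Fin d, |(0 : ℝ) + sm v univ k| = 0 := by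
    intro k
    unfold sm
    rw [h0]; simp
  refine
    { sub := empty_subset _
      tpos := fun _ => by linarith
      tle := fun _ => le_rfl
      qt := fun _ => Or.inr rfl
      dust := fun i _ _ k => ?_
      acard := ?_
      mle := le_rfl
      off := fun k l hkl => ?_
      z1 := fun k => ?_
      z2 := fun k _ => ?_
      w1 := fun k => ?_
      w2 := fun k _ => ?_ }
  · have h3 := abs_v_le v hv i k
    have h4 : v i k ^ 2 ≤ 1 := by
      rw [← sq_abs]; exact pow_le_one₀ (abs_nonneg _) h3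
    have := P.hetaT
    linarith
  · simp only [card_empty, Nat.cast_zero]
    positivity
  · unfold qq
    rw [hoff k l hkl, abs_zero]
    have : 0 ≤ P.E := by rw [P.hE]; linarith
    positivity
  · rw [hR1, abs_zero]; linarith
  · rw [hR1, abs_zero]; linarith
  · rw [hR1, hz]; linarith
  · rw [hR1, hz]; linarith

end Vale.Agent.P262
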