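import Mathlib
import Vale.Agent.P262.Rec2

namespace Vale.Agent.P262

open Finset

theorem perm_of_list {N : ℕ} (l : List (Fin N)) (hn : l.Nodup) (hl : l.toFinset = univ) :
    ∃ π : Equiv.Perm (Fin N), ∀ (f : Fin N → ℝ) (k : ℕ), k ≤ N →
      ∑ i ∈ univ.filter (fun i : Fin N => (i : ℕ) < k), f (π i) = ((l.take k).map f).sum := by
  classical
  have hmem : ∀ x, x ∈ l := fun x => List.mem_toFinset.1 (by rw [hl]; exact mem_univ x)
  have hlen : l.length = N := by
    have h1 := List.toFinset_card_of_nodup hn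
    rw [hl, card_univ, Fintype.card_fin] at h1
    exact h1.symm
  let e := hn.getEquivOfForallMemList l hmem
  let π : Equiv.Perm (Fin N) := (finCongr hlen.symm).trans e
  have hπ : ∀ i : Fin N, π i = l.get ⟨i, by rw [hlen]; exact i.2⟩ := fun i => rfl
  refine ⟨π, fun f k hk => ?_⟩
  induction k with
  | zero => simp
  | succ k ih =>
    have hk' : k < N := hk
    have hkl : k < l.length := by rw [hlen]; exact hk'
    have e1 : univ.filter (fun i : Fin N => (i : ℕ) < k + 1) =
        insert ⟨k, hk'⟩ (univ.filter (fun i : Fin N => (i : ℕ) < k)) := by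
      ext i
      simp only [mem_filter, mem_univ, true_and, mem_insert, Fin.ext_iff]
      omega
    rw [e1, sum_insert (by simp), ih hk'.le, List.take_succ_eq_append_getElem hkl,
      List.map_append, List.sum_append, add_comm]
    simp [hπ]

theorem rotate {N d : ℕ} (v : Fin N → EuclideanSpace ℝ (Fin d)) :
    ∃ b : OrthonormalBasis (Fin d) ℝ (EuclideanSpace ℝ (Fin d)),
      ∀ k l, k ≠ l → ∑ i, inner ℝ (b k) (v i) * inner ℝ (b l) (v i) = 0 := by
  classical
  let T : EuclideanSpace ℝ (Fin d) →ₗ[ℝ] EuclideanSpace ℝ (Fin d) :=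
    ∑ i, ((innerSL ℝ (v i)).toLinearMap.smulRight (v i))
  have hT : ∀ x, T x = ∑ i, inner ℝ (v i) x • v i := by
    intro x
    simp [T, LinearMap.sum_apply]
  have hsym : T.IsSymmetric := by
    intro x y
    rw [hT, hT, sum_inner, inner_sum]
    refine sum_congr rfl fun i _ => ?_
    rw [inner_smul_left, inner_smul_right]
    simp only [conj_trivial]
    rw [real_inner_comm x (v i)]
    ring
  have hfr : Module.finrank ℝ (EuclideanSpace ℝ (Fin d)) = d := finrank_euclideanSpace_fin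
  refine ⟨hsym.eigenvectorBasis hfr, fun k l hkl => ?_⟩
  set b := hsym.eigenvectorBasis hfr
  have h1 : inner ℝ (b k) (T (b l)) = ∑ i, inner ℝ (b k) (v i) * inner ℝ (b l) (v i) := by
    rw [hT, inner_sum]
    refine sum_congr rfl fun i _ => ?_
    rw [inner_smul_right, real_inner_comm (b l) (v i)]
    ring
  rw [← h1, hsym.apply_eigenvectorBasis hfr l, inner_smul_right]
  have := b.orthonormal.2 hkl
  rw [this, mul_zero]

theorem final {N d : ℕ} (P : Par d ((d + 2) ^ 2)) (v : Fin N → EuclideanSpace ℝ (Fin d))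
    (hv : ∀ i, ‖v i‖ ≤ 1) (h0 : ∑ i, v i = 0) :
    ∃ π : Equiv.Perm (Fin N), ∀ k ≤ N,
      ‖∑ i ∈ univ.filter (fun i : Fin N => (i : ℕ) < k), v (π i)‖ ≤ Real.sqrt d * P.R := by
  classical
  obtain ⟨b, hb⟩ := rotate v
  set w : Fin N → Fin d → ℝ := fun i k => inner ℝ (b k) (v i) with hw
  have hw1 : ∀ i, ∑ k, w i k ^ 2 ≤ 1 := by
    intro i
    have h1 := b.sum_sq_norm_inner_right (v i)
    simp only [Real.norm_eq_abs, sq_abs] at h1
    simp only [hw]
    rw [h1]
    exact pow_le_one₀ (norm_nonneg _) (hv i)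
  have hw0 : ∀ k, ∑ i, w i k = 0 := by
    intro k
    simp only [hw]
    rw [← inner_sum, h0, inner_zero_right]
  obtain ⟨l, hl1, hl2, hl3⟩ := diag_main P hw1 hw0 hb
  obtain ⟨π, hπ⟩ := perm_of_list l hl1 hl2
  refine ⟨π, fun k hk => ?_⟩
  set S := ∑ i ∈ univ.filter (fun i : Fin N => (i : ℕ) < k), v (π i) with hS
  have hR0 : 0 ≤ P.R := by
    have := R_sub_psi P
    have h3 := P.hT0
    have := psi_nonneg P P.T0 (by linarith) P.mm
    have := P.hL1
    linarith
  have hcoord : ∀ c, |inner ℝ (b c) S| ≤ P.R := by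
    intro c
    rw [hS, inner_sum]
    have h1 := hπ (fun i => w i c) k hk
    have h2 := hl3 k c
    rw [zero_add, ← h1] at h2
    exact h2
  have h1 := b.sum_sq_norm_inner_right S
  simp only [Real.norm_eq_abs, sq_abs] at h1
  have h2 : ‖S‖ ^ 2 ≤ d * P.R ^ 2 := by
    rw [← h1]
    refine (sum_le_card_nsmul _ _ (P.R ^ 2) fun c _ => ?_).trans (le_of_eq (by simp))
    rw [← sq_abs]
    exact pow_le_pow_left₀ (abs_nonneg _) (hcoord c) 2
  refine abs_le_of_sq_le_sq' ?_ (by positivity) |>.2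
  rw [mul_pow, Real.sq_sqrt (Nat.cast_nonneg _)]
  exact h2

end Vale.Agent.P262
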