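import Mathlib
import Vale.Agent.P262.Komlos

namespace Vale.Agent.P262

open Finset

theorem cosh_pair (p q s : ℝ) :
    Real.cosh (p + q) * Real.exp (-s) + Real.cosh (p - q) * Real.exp s ≤
      2 * Real.cosh p * Real.exp (q ^ 2 + s ^ 2) := by
  have e1 : Real.cosh (p + q) * Real.exp (-s) + Real.cosh (p - q) * Real.exp s =
      2 * (Real.cosh p * (Real.cosh q * Real.cosh s) - Real.sinh p * (Real.sinh q * Real.sinh s)) := by
    rw [Real.cosh_add, Real.cosh_sub, Real.cosh_eq s, Real.sinh_eq s]; ring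
  rw [e1]
  have hsp : |Real.sinh p| ≤ Real.cosh p := by
    rw [abs_le]
    have h1 := Real.cosh_add_sinh p
    have h2 := Real.cosh_sub_sinh p
    have h3 := Real.exp_pos p
    have h4 := Real.exp_pos (-p)
    constructor <;> linarith
  have h2 : -(Real.sinh p * (Real.sinh q * Real.sinh s)) ≤
      Real.cosh p * (Real.sinh |q| * Real.sinh |s|) := by
    have h3 : |Real.sinh p * (Real.sinh q * Real.sinh s)| ≤
        Real.cosh p * (Real.sinh |q| * Real.sinh |s|) := by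
      rw [abs_mul, abs_mul, Real.abs_sinh, Real.abs_sinh, Real.abs_sinh, ← Real.abs_sinh p]
      exact mul_le_mul_of_nonneg_right hsp (mul_nonneg
        (Real.sinh_nonneg_iff.2 (abs_nonneg _)) (Real.sinh_nonneg_iff.2 (abs_nonneg _)))
    have := neg_abs_le (Real.sinh p * (Real.sinh q * Real.sinh s))
    linarith
  have h3 : Real.cosh q * Real.cosh s + Real.sinh |q| * Real.sinh |s| = Real.cosh (|q| + |s|) := by
    rw [Real.cosh_add, Real.cosh_abs, Real.cosh_abs]
  have h4 : Real.cosh (|q| + |s|) ≤ Real.exp (q ^ 2 + s ^ 2) := by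
    refine (Real.cosh_le_exp_half_sq _).trans (Real.exp_le_exp.2 ?_)
    have h5 := sq_abs q
    have h6 := sq_abs s
    nlinarith [sq_nonneg (|q| - |s|)]
  have h5 := Real.cosh_pos p
  calc 2 * (Real.cosh p * (Real.cosh q * Real.cosh s) - Real.sinh p * (Real.sinh q * Real.sinh s))
      ≤ 2 * (Real.cosh p * (Real.cosh q * Real.cosh s + Real.sinh |q| * Real.sinh |s|)) := by
        linarith
    _ = 2 * Real.cosh p * Real.cosh (|q| + |s|) := by rw [h3]; ring
    _ ≤ _ := mul_le_mul_of_nonneg_left h4 (by positivity)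

/-- remaining energy -/
noncomputable def rem {α β : Type} [Fintype α] (r : β → α → ℝ) (j : β) (x : α → ℝ) : ℝ :=
  ∑ i, r j i ^ 2 * (1 - x i ^ 2)

noncomputable def W2 {α β : Type} [Fintype α] (r : β → α → ℝ) (c yo : β → ℝ)
    (x0 : α → ℝ) (P : β → Prop) [DecidablePred P] (j : β) (x : α → ℝ) : ℝ :=
  c j * Real.cosh (1 / 20 * (yo j + ∑ i, r j i * (x i - x0 i))) *
    Real.exp ((if P j then 12 else rem r j x) / 96)

noncomputable def Pot2 {α β : Type} [Fintype α] [Fintype β] (r : β → α → ℝ) (c yo : β → ℝ)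
    (x0 : α → ℝ) (ep : ℝ) (P : β → Prop) [DecidablePred P] (x : α → ℝ) : ℝ :=
  ∑ j, W2 r c yo x0 P j x + ep * ∑ i, (1 - x i ^ 2)

theorem pot2_cont {α β : Type} [Fintype α] [Fintype β] (r : β → α → ℝ) (c yo : β → ℝ)
    (x0 : α → ℝ) (ep : ℝ) (P : β → Prop) [DecidablePred P] :
    Continuous (fun x => Pot2 r c yo x0 ep P x) := by
  unfold Pot2 W2 rem
  refine Continuous.add ?_ (by fun_prop)
  refine continuous_finsetSum _ fun j _ => ?_
  refine Continuous.mul ?_ ?_
  · exact continuous_const.mul (Real.continuous_cosh.comp (by fun_prop))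
  · by_cases h : P j
    · simp only [h, if_true]; exact continuous_const
    · simp only [h, if_false]; exact Real.continuous_exp.comp (by fun_prop)

theorem W2_pair {α β : Type} [Fintype α] [DecidableEq α]
    (r : β → α → ℝ) (c yo : β → ℝ) (x0 : α → ℝ) (P : β → Prop) [DecidablePred P]
    (j : β) (hc : 0 ≤ c j) (hj : ¬ P j) (y u : α → ℝ) (A : Finset α)
    (hu0 : ∀ i ∉ A, u i = 0) (hA : ∑ i ∈ A, r j i ^ 2 ≤ 12) (hy : ∀ i, |y i| ≤ 1) (t : ℝ) :
    W2 r c yo x0 P j (fun i => y i + t * u i) + W2 r c yo x0 P j (fun i => y i + -t * u i) ≤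
      2 * W2 r c yo x0 P j y * Real.exp (t ^ 2 * (1 / 400 * (∑ i, r j i * u i) ^ 2 -
        (∑ i, r j i ^ 2 * u i ^ 2) / 192)) := by
  set a : ℝ := ∑ i, r j i * u i with ha
  set G : ℝ := ∑ i, r j i ^ 2 * u i ^ 2 with hG
  set F : ℝ := ∑ i, r j i ^ 2 * (y i * u i) with hF
  have hrem : ∀ s : ℝ, rem r j (fun i => y i + s * u i) = rem r j y - 2 * s * F - s ^ 2 * G := by
    intro s
    simp only [rem, hF, hG, mul_sum, ← sum_sub_distrib]
    exact sum_congr rfl fun i _ => by ring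
  have hlin : ∀ s : ℝ, ∑ i, r j i * (y i + s * u i - x0 i) =
      ∑ i, r j i * (y i - x0 i) + s * a := by
    intro s
    simp only [ha, mul_sum, ← sum_add_distrib]
    exact sum_congr rfl fun i _ => by ring
  have hF2 : F ^ 2 ≤ 12 * G := by
    have h1 : F = ∑ i ∈ A, (r j i * y i) * (r j i * u i) := by
      rw [hF, ← sum_subset (subset_univ A)]
      · exact sum_congr rfl fun i _ => by ring
      · intro i _ hi; rw [hu0 i hi]; ring
    have h2 := sum_mul_sq_le_sq_mul_sq A (fun i => r j i * y i) (fun i => r j i * u i)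
    rw [← h1] at h2
    have h3 : ∑ i ∈ A, (r j i * y i) ^ 2 ≤ 12 := by
      refine le_trans (sum_le_sum fun i _ => ?_) hA
      rw [mul_pow]
      have := abs_le_one_iff_mul_self_le_one.1 (hy i)
      nlinarith [sq_nonneg (r j i)]
    have h4 : ∑ i ∈ A, (r j i * u i) ^ 2 ≤ G := by
      rw [hG]
      refine le_trans (le_of_eq ?_) (sum_le_sum_of_subset_of_nonneg (subset_univ A)
        fun i _ _ => by positivity)
      exact sum_congr rfl fun i _ => by ring
    exact h2.trans (mul_le_mul h3 h4 (sum_nonneg fun i _ => sq_nonneg _) (by norm_num))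
  simp only [W2, hj, if_false, hrem, hlin]
  set E := yo j + ∑ i, r j i * (y i - x0 i) with hE
  have e1 : ∀ s : ℝ, c j * Real.cosh (1 / 20 * (yo j + (∑ i, r j i * (y i - x0 i) + s * a))) *
      Real.exp ((rem r j y - 2 * s * F - s ^ 2 * G) / 96) =
      (c j * Real.exp (rem r j y / 96) * Real.exp (-(s ^ 2 * G / 96))) *
      (Real.cosh (1 / 20 * E + s * a / 20) * Real.exp (-(s * F / 48))) := by
    intro s
    have e2 : (rem r j y - 2 * s * F - s ^ 2 * G) / 96 =
        rem r j y / 96 + -(s ^ 2 * G / 96) + -(s * F / 48) := by ring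
    rw [e2, Real.exp_add, Real.exp_add]
    have e3 : 1 / 20 * (yo j + (∑ i, r j i * (y i - x0 i) + s * a)) =
        1 / 20 * E + s * a / 20 := by rw [hE]; ring
    rw [e3]; ring
  rw [e1, e1]
  have e4 : (-t) ^ 2 * G = t ^ 2 * G := by ring
  have e5 : 1 / 20 * E + -t * a / 20 = 1 / 20 * E - t * a / 20 := by ring
  have e6 : -(-t * F / 48) = t * F / 48 := by ring
  rw [e4, e5, e6, ← mul_add]
  have hcp := cosh_pair (1 / 20 * E) (t * a / 20) (t * F / 48)
  have hnn : 0 ≤ c j * Real.exp (rem r j y / 96) * Real.exp (-(t ^ 2 * G / 96)) :=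
    mul_nonneg (mul_nonneg hc (Real.exp_pos _).le) (Real.exp_pos _).le
  refine (mul_le_mul_of_nonneg_left hcp hnn).trans ?_
  have e8 : Real.exp (-(t ^ 2 * G / 96) + ((t * a / 20) ^ 2 + (t * F / 48) ^ 2)) =
      Real.exp (-(t ^ 2 * G / 96)) * Real.exp ((t * a / 20) ^ 2 + (t * F / 48) ^ 2) :=
    Real.exp_add _ _
  have e7 : c j * Real.exp (rem r j y / 96) * Real.exp (-(t ^ 2 * G / 96)) *
      (2 * Real.cosh (1 / 20 * E) * Real.exp ((t * a / 20) ^ 2 + (t * F / 48) ^ 2)) =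
      2 * (c j * Real.cosh (1 / 20 * E) * Real.exp (rem r j y / 96)) *
        Real.exp (-(t ^ 2 * G / 96) + ((t * a / 20) ^ 2 + (t * F / 48) ^ 2)) := by
    rw [e8]; ring
  rw [e7]
  refine mul_le_mul_of_nonneg_left (Real.exp_le_exp.2 ?_)
    (mul_nonneg (by norm_num) (mul_nonneg (mul_nonneg hc (Real.cosh_pos _).le)
      (Real.exp_pos _).le))
  have := mul_le_mul_of_nonneg_left hF2 (sq_nonneg t)
  nlinarith

theorem W2_const {α β : Type} [Fintype α]
    (r : β → α → ℝ) (c yo : β → ℝ) (x0 : α → ℝ) (P : β → Prop) [DecidablePred P]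
    (j : β) (hj : P j) (y u : α → ℝ) (hu : ∑ i, r j i * u i = 0) (s : ℝ) :
    W2 r c yo x0 P j (fun i => y i + s * u i) = W2 r c yo x0 P j y := by
  simp only [W2, hj, if_true]
  have : ∑ i, r j i * (y i + s * u i - x0 i) = ∑ i, r j i * (y i - x0 i) := by
    have h1 : ∑ i, r j i * (y i + s * u i - x0 i) =
        ∑ i, r j i * (y i - x0 i) + s * ∑ i, r j i * u i := by
      simp only [mul_sum, ← sum_add_distrib]
      exact sum_congr rfl fun i _ => by ring
    rw [h1, hu, mul_zero, add_zero]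
  rw [this]

theorem dir2 {α β : Type} [Fintype α] [DecidableEq α] [Fintype β] [DecidableEq β]
    (r : β → α → ℝ) (w : β → ℝ) (hw0 : ∀ j, 0 ≤ w j) (ep : ℝ) (hep : 0 < ep)
    (A : Finset α) (hAne : A.Nonempty) (H : Finset β) (hHcard : (H.card : ℝ) ≤ A.card / 4) :
    ∃ u : α → ℝ, (∀ i ∉ A, u i = 0) ∧ (∀ j ∈ H, ∑ i, r j i * u i = 0) ∧
      ∑ j ∈ univ \ H, w j * (1 / 400 * (∑ i, r j i * u i) ^ 2 -
        (∑ i, r j i ^ 2 * u i ^ 2) / 192) ≤ -(36 / 100) + ep * ∑ i, u i ^ 2 := by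
  classical
  have hnpos : (0 : ℝ) < A.card := by exact_mod_cast card_pos.2 hAne
  have hHB : H.card < A.card := by
    have : (H.card : ℝ) < A.card := by linarith
    exact_mod_cast this
  set del : α → ℝ := fun i => ∑ j ∈ univ \ H, w j * r j i ^ 2 with hdel
  have hdel0 : ∀ i, 0 ≤ del i := fun i => sum_nonneg fun j _ => mul_nonneg (hw0 j) (sq_nonneg _)
  set Dd : α → ℝ := fun i => del i / 192 + ep with hDd
  have hD0 : ∀ i, 0 < Dd i := fun i => by have := hdel0 i; simp only [hDd]; positivity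
  obtain ⟨z, hz0, hz1, hz2, hz3⟩ := good_dir A (fun j i => r j i / Real.sqrt (Dd i)) w hw0 H hHB
  set u : α → ℝ := fun i => z i / Real.sqrt (Dd i) with hu
  have hu0 : ∀ i ∉ A, u i = 0 := fun i hi => by simp only [hu, hz0 i hi, zero_div]
  set a : β → ℝ := fun j => ∑ i, r j i * u i with ha
  have hau : ∀ j, ∑ i, r j i / Real.sqrt (Dd i) * z i = a j := fun j =>
    sum_congr rfl fun i _ => by simp only [hu]; ring
  simp only [hau] at hz2 hz3
  have hDu : ∑ i, Dd i * u i ^ 2 = 1 := by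
    rw [← hz1]
    refine sum_congr rfl fun i _ => ?_
    simp only [hu, div_pow, Real.sq_sqrt (hD0 i).le]
    have := (hD0 i).ne'
    field_simp
  set G : β → ℝ := fun j => ∑ i, r j i ^ 2 * u i ^ 2 with hG
  have hX : ∑ j, w j * a j ^ 2 ≤ 256 := by
    have h1 : ∑ j ∈ univ \ H, w j * ∑ i ∈ A, (r j i / Real.sqrt (Dd i)) ^ 2 ≤ 192 * A.card := by
      have e : ∑ j ∈ univ \ H, w j * ∑ i ∈ A, (r j i / Real.sqrt (Dd i)) ^ 2 =
          ∑ i ∈ A, del i / Dd i := by
        simp only [mul_sum]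
        rw [sum_comm]
        refine sum_congr rfl fun i _ => ?_
        simp only [hdel, sum_div]
        refine sum_congr rfl fun j _ => ?_
        rw [div_pow, Real.sq_sqrt (hD0 i).le]; ring
      rw [e]
      refine (sum_le_card_nsmul A _ 192 fun i _ => ?_).trans (le_of_eq ?_)
      · rw [div_le_iff₀ (hD0 i)]
        simp only [hDd]; linarith
      · rw [nsmul_eq_mul]; ring
    have h2 : (3 / 4 * A.card : ℝ) * ∑ j, w j * a j ^ 2 ≤ 192 * A.card := by
      refine le_trans ?_ (hz3.trans h1)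
      refine mul_le_mul_of_nonneg_right (by linarith)
        (sum_nonneg fun j _ => mul_nonneg (hw0 j) (sq_nonneg _))
    by_contra hcon
    push Not at hcon
    have h3 := mul_lt_mul_of_pos_left hcon (by positivity : (0 : ℝ) < 3 / 4 * A.card)
    linarith
  refine ⟨u, hu0, hz2, ?_⟩
  have h1 : ∑ j ∈ univ \ H, w j * a j ^ 2 ≤ 256 :=
    (sum_le_sum_of_subset_of_nonneg sdiff_subset
      fun j _ _ => mul_nonneg (hw0 j) (sq_nonneg _)).trans hX
  have h2 : ∑ j ∈ univ \ H, w j * G j = ∑ i, del i * u i ^ 2 := by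
    simp only [hG, hdel, mul_sum, sum_mul]
    rw [sum_comm]
    exact sum_congr rfl fun i _ => sum_congr rfl fun j _ => by ring
  have h3 : 1 / 192 * ∑ i, del i * u i ^ 2 + ep * ∑ i, u i ^ 2 = ∑ i, Dd i * u i ^ 2 := by
    rw [mul_sum, mul_sum, ← sum_add_distrib]
    exact sum_congr rfl fun i _ => by simp only [hDd]; ring
  have h4 : ∑ j ∈ univ \ H, w j * (1 / 400 * a j ^ 2 - G j / 192) =
      1 / 400 * ∑ j ∈ univ \ H, w j * a j ^ 2 - 1 / 192 * ∑ j ∈ univ \ H, w j * G j := by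
    rw [mul_sum, mul_sum, ← sum_sub_distrib]
    exact sum_congr rfl fun j _ => by ring
  change ∑ j ∈ univ \ H, w j * (1 / 400 * a j ^ 2 - G j / 192) ≤ _
  rw [h4, h2]
  rw [hDu] at h3
  linarith

theorem small_contra (W S1 S2 s M e : ℝ) (hs : 0 < s ^ 2) (hsM : s ^ 2 * M ≤ 1 / 4)
    (h1 : W ≤ S1) (h2 : W ≤ S2) (X : ℝ) (hX : X ≤ -(36 / 100) + e)
    (h3 : S1 + S2 ≤ 2 * W + 2 * s ^ 2 * X + 2 * s ^ 2 * (s ^ 2 * M) - 2 * s ^ 2 * e) : False := by
  have h4 : 2 * s ^ 2 * X ≤ 2 * s ^ 2 * (-(36 / 100) + e) :=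
    mul_le_mul_of_nonneg_left hX (by linarith)
  have h5 : 2 * s ^ 2 * (s ^ 2 * M) ≤ 2 * s ^ 2 * (1 / 4) :=
    mul_le_mul_of_nonneg_left hsM (by linarith)
  nlinarith

theorem pot2_step {α β : Type} [Fintype α] [DecidableEq α] [Fintype β] [DecidableEq β]
    (r : β → α → ℝ) (J : Finset β) (hJ1 : ∀ i, ∑ j ∈ J, r j i ^ 2 ≤ 3)
    (hJ2 : ∀ j ∉ J, ∑ i, r j i ^ 2 ≤ 1) (c yo : β → ℝ) (hc : ∀ j, 0 ≤ c j)
    (x0 x : α → ℝ) (hx : ∀ i, |x i| ≤ 1) (ep : ℝ) (hep : 0 < ep)
    (A : Finset α) (hA : A = univ.filter (fun i => |x i| < 1)) (hAne : A.Nonempty)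
    (H : Finset β) (hH : H = J.filter (fun j => 12 < ∑ i ∈ A, r j i ^ 2)) :
    ∃ y : α → ℝ, (∀ i, |y i| ≤ 1) ∧ (∀ i, |x i| = 1 → y i = x i) ∧
      (univ.filter (fun i => |y i| < 1)) ⊂ A ∧
      Pot2 r c yo x0 ep (· ∈ H) y ≤ Pot2 r c yo x0 ep (· ∈ H) x := by
  classical
  obtain ⟨y, hyK, hy⟩ := (isCompact_face A x).exists_isMinOn ⟨x, hx, fun _ _ => rfl⟩
    (f := fun y => Pot2 r c yo x0 ep (· ∈ H) y) (pot2_cont r c yo x0 ep _).continuousOn
  have hA' : ∀ i, |x i| = 1 → i ∉ A := by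
    intro i hi h
    rw [hA] at h
    have := (mem_filter.1 h).2
    linarith
  refine ⟨y, hyK.1, fun i hi => hyK.2 i (hA' i hi), ?_, hy ⟨hx, fun _ _ => rfl⟩⟩
  have hBA : univ.filter (fun i => |y i| < 1) ⊆ A := by
    intro i hi
    by_contra h
    have h1 := hyK.2 i h
    have h2 := (mem_filter.1 hi).2
    have h3 : ¬ |x i| < 1 := fun h' => h (by rw [hA]; exact mem_filter.2 ⟨mem_univ _, h'⟩)
    rw [h1] at h2
    exact h3 h2
  rw [Finset.ssubset_iff_subset_ne]
  refine ⟨hBA, fun hBeq => ?_⟩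
  have halive : ∀ i ∈ A, |y i| < 1 := by
    intro i hi
    rw [← hBeq] at hi
    exact (mem_filter.1 hi).2
  have hHcard : (H.card : ℝ) ≤ A.card / 4 := by
    have h1 : (H.card : ℝ) * 12 ≤ ∑ j ∈ H, ∑ i ∈ A, r j i ^ 2 := by
      rw [← nsmul_eq_mul]
      exact card_nsmul_le_sum _ _ _ fun j hj => (mem_filter.1 (hH ▸ hj)).2.le
    have h2 : ∑ j ∈ H, ∑ i ∈ A, r j i ^ 2 ≤ ∑ j ∈ J, ∑ i ∈ A, r j i ^ 2 :=
      sum_le_sum_of_subset_of_nonneg (by rw [hH]; exact filter_subset _ _)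
        fun j _ _ => sum_nonneg fun i _ => sq_nonneg _
    have h3 : ∑ j ∈ J, ∑ i ∈ A, r j i ^ 2 ≤ A.card * 3 := by
      rw [sum_comm, ← nsmul_eq_mul]
      exact sum_le_card_nsmul _ _ _ fun i _ => hJ1 i
    linarith
  have hlightA : ∀ j, j ∉ H → ∑ i ∈ A, r j i ^ 2 ≤ 12 := by
    intro j hj
    by_cases hj2 : j ∈ J
    · by_contra h
      push Not at h
      exact hj (by rw [hH]; exact mem_filter.2 ⟨hj2, h⟩)
    · have h2 := hJ2 j hj2
      have h3 : ∑ i ∈ A, r j i ^ 2 ≤ ∑ i, r j i ^ 2 :=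
        sum_le_sum_of_subset_of_nonneg (subset_univ _) fun i _ _ => sq_nonneg _
      linarith
  set w : β → ℝ := fun j => W2 r c yo x0 (· ∈ H) j y with hw
  have hw0 : ∀ j, 0 ≤ w j := fun j =>
    mul_nonneg (mul_nonneg (hc j) (Real.cosh_pos _).le) (Real.exp_pos _).le
  obtain ⟨u, hu0, hz2, hsumkap⟩ := dir2 r w hw0 ep hep A hAne H hHcard
  set kap : β → ℝ := fun j => 1 / 400 * (∑ i, r j i * u i) ^ 2 -
        (∑ i, r j i ^ 2 * u i ^ 2) / 192 with hkap
  have hterm : ∀ t : ℝ, ∀ j, j ∉ H →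
      W2 r c yo x0 (· ∈ H) j (fun i => y i + t * u i) +
      W2 r c yo x0 (· ∈ H) j (fun i => y i + -t * u i) ≤ 2 * w j * Real.exp (t ^ 2 * kap j) :=
    fun t j hj => W2_pair r c yo x0 (· ∈ H) j (hc j) hj y u A hu0 (hlightA j hj) hyK.1 t
  -- choose t
  set M : ℝ := ∑ j ∈ univ \ H, w j * kap j ^ 2 with hM
  have hM0 : 0 ≤ M := sum_nonneg fun j _ => mul_nonneg (hw0 j) (sq_nonneg _)
  set U : ℝ := 1 + ∑ i, |u i| with hU
  have hU1 : 1 ≤ U := by
    have : 0 ≤ ∑ i, |u i| := sum_nonneg fun i _ => abs_nonneg _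
    linarith
  have hUi : ∀ i, |u i| ≤ U := fun i => by
    have := single_le_sum (f := fun i => |u i|) (fun j _ => abs_nonneg _) (mem_univ i)
    linarith
  set Kk : ℝ := 1 + ∑ j, |kap j| with hKk
  have hKk1 : 1 ≤ Kk := by
    have : 0 ≤ ∑ j, |kap j| := sum_nonneg fun i _ => abs_nonneg _
    linarith
  have hKj : ∀ j, |kap j| ≤ Kk := fun j => by
    have := single_le_sum (f := fun j => |kap j|) (fun j _ => abs_nonneg _) (mem_univ j)
    linarith
  obtain ⟨t, ht, ht1, ht2⟩ := exists_small A y halive (1 / (Kk + 4 * M + 1)) (by positivity)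
  set s : ℝ := t / U with hs
  have hs0 : 0 < s := by positivity
  have hst : s ≤ t := div_le_self ht.le hU1
  have hs1 : s ≤ 1 / (Kk + 4 * M + 1) := hst.trans ht1
  have hs2 : s * (Kk + 4 * M + 1) ≤ 1 := by
    rwa [le_div_iff₀ (by positivity)] at hs1
  have hsle1 : s ≤ 1 := by nlinarith
  have hsK : s * Kk ≤ 1 := by nlinarith
  have hsM' : s * M ≤ 1 / 4 := by nlinarith
  have hmem : ∀ s' : ℝ, |s'| = s → (fun i => y i + s' * u i) ∈ face A x := by
    intro s' hs'
    refine ⟨fun i => ?_, fun i hi => ?_⟩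
    · by_cases hi : i ∈ A
      · have h1 := ht2 i hi
        have h2 : |y i + s' * u i| ≤ |y i| + |s' * u i| := abs_add_le _ _
        rw [abs_mul, hs'] at h2
        have h3 : s * |u i| ≤ s * U := mul_le_mul_of_nonneg_left (hUi i) hs0.le
        have h4 : s * U = t := by rw [hs]; field_simp
        linarith
      · simp only [hu0 i hi, mul_zero, add_zero]; exact hyK.1 i
    · simp only [hu0 i hi, mul_zero, add_zero]; exact hyK.2 i hi
  have h1 := hy (hmem s (abs_of_pos hs0))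
  have h2 := hy (hmem (-s) (by rw [abs_neg, abs_of_pos hs0]))
  simp only [Set.mem_ofPred_eq] at h1 h2
  have hexp : ∀ j, Real.exp (s ^ 2 * kap j) ≤ 1 + s ^ 2 * kap j + s ^ 2 * (s ^ 2 * kap j ^ 2) := by
    intro j
    have hb : |s ^ 2 * kap j| ≤ 1 := by
      rw [abs_mul, abs_of_nonneg (sq_nonneg s)]
      calc s ^ 2 * |kap j| ≤ s ^ 2 * Kk := mul_le_mul_of_nonneg_left (hKj j) (sq_nonneg s)
        _ = s * (s * Kk) := by ring
        _ ≤ 1 * 1 := mul_le_mul hsle1 hsK (by positivity) (by norm_num)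
        _ = 1 := by norm_num
    have h5 := (abs_le.1 (Real.abs_exp_sub_one_sub_id_le hb)).2
    have h6 : (s ^ 2 * kap j) ^ 2 = s ^ 2 * (s ^ 2 * kap j ^ 2) := by ring
    rw [h6] at h5
    linarith
  have hsumW : ∑ j, W2 r c yo x0 (· ∈ H) j (fun i => y i + s * u i) +
      ∑ j, W2 r c yo x0 (· ∈ H) j (fun i => y i + -s * u i) ≤
      2 * ∑ j, w j + 2 * s ^ 2 * (∑ j ∈ univ \ H, w j * kap j) + 2 * s ^ 2 * (s ^ 2 * M) := by
    rw [← sum_add_distrib, ← sum_sdiff (subset_univ H)]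
    have g1 : ∑ j ∈ H, (W2 r c yo x0 (· ∈ H) j (fun i => y i + s * u i) +
        W2 r c yo x0 (· ∈ H) j (fun i => y i + -s * u i)) = 2 * ∑ j ∈ H, w j := by
      rw [mul_sum]
      refine sum_congr rfl fun j hj => ?_
      rw [W2_const r c yo x0 (· ∈ H) j hj y u (hz2 j hj) s,
        W2_const r c yo x0 (· ∈ H) j hj y u (hz2 j hj) (-s)]
      ring
    have g2 : ∑ j ∈ univ \ H, (W2 r c yo x0 (· ∈ H) j (fun i => y i + s * u i) +
        W2 r c yo x0 (· ∈ H) j (fun i => y i + -s * u i)) ≤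
        ∑ j ∈ univ \ H, (2 * w j + 2 * s ^ 2 * (w j * kap j) +
          2 * s ^ 2 * (s ^ 2 * (w j * kap j ^ 2))) := by
      refine sum_le_sum fun j hj => ?_
      refine (hterm s j (mem_sdiff.1 hj).2).trans ?_
      have := mul_le_mul_of_nonneg_left (hexp j) (by have := hw0 j; linarith : 0 ≤ 2 * w j)
      refine this.trans (le_of_eq (by ring))
    have g3 : ∑ j ∈ univ \ H, (2 * w j + 2 * s ^ 2 * (w j * kap j) +
          2 * s ^ 2 * (s ^ 2 * (w j * kap j ^ 2))) = 2 * ∑ j ∈ univ \ H, w j +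
          2 * s ^ 2 * (∑ j ∈ univ \ H, w j * kap j) + 2 * s ^ 2 * (s ^ 2 * M) := by
      rw [sum_add_distrib, sum_add_distrib, ← mul_sum, ← mul_sum, ← mul_sum, ← mul_sum]
    have g4 : ∑ j, w j = ∑ j ∈ univ \ H, w j + ∑ j ∈ H, w j := (sum_sdiff (subset_univ H)).symm
    rw [g4, g1]
    linarith
  have hsq : ep * ∑ i, (1 - (y i + s * u i) ^ 2) + ep * ∑ i, (1 - (y i + -s * u i) ^ 2) =
      2 * (ep * ∑ i, (1 - y i ^ 2)) - 2 * s ^ 2 * (ep * ∑ i, u i ^ 2) := by
    simp only [mul_sum, ← sum_add_distrib, ← sum_sub_distrib]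
    exact sum_congr rfl fun i _ => by ring
  have hPy : Pot2 r c yo x0 ep (· ∈ H) y = ∑ j, w j + ep * ∑ i, (1 - y i ^ 2) := rfl
  rw [hPy] at h1 h2
  unfold Pot2 at h1 h2
  have hs2pos : 0 < s ^ 2 := by positivity
  have hsM : s ^ 2 * M ≤ 1 / 4 := by
    calc s ^ 2 * M = s * (s * M) := by ring
      _ ≤ 1 * (1 / 4) := mul_le_mul hsle1 hsM' (by positivity) (by norm_num)
      _ = 1 / 4 := by norm_num
  refine small_contra _ _ _ s M _ hs2pos hsM h1 h2 _ hsumkap ?_
  linarith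

theorem rem_le {α β : Type} [Fintype α] [DecidableEq α] (r : β → α → ℝ) (j : β) (y : α → ℝ)
    (hy : ∀ i, |y i| ≤ 1) (A : Finset α) (hA : A = univ.filter (fun i => |y i| < 1)) :
    rem r j y ≤ ∑ i ∈ A, r j i ^ 2 := by
  unfold rem
  rw [← sum_subset (subset_univ A)]
  · refine sum_le_sum fun i _ => ?_
    have h1 := sq_nonneg (r j i)
    have h2 := sq_nonneg (y i)
    nlinarith
  · intro i _ hi
    have h2 : ¬ |y i| < 1 := fun h' => hi (by rw [hA]; exact mem_filter.2 ⟨mem_univ _, h'⟩)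
    have h3 : |y i| = 1 := le_antisymm (hy i) (not_lt.1 h2)
    rw [← sq_abs (y i), h3]; ring

theorem pot2_round {α β : Type} [Fintype α] [DecidableEq α] [Fintype β] [DecidableEq β]
    (r : β → α → ℝ) (J : Finset β) (hJ1 : ∀ i, ∑ j ∈ J, r j i ^ 2 ≤ 3)
    (hJ2 : ∀ j ∉ J, ∑ i, r j i ^ 2 ≤ 1) (c yo : β → ℝ) (hc : ∀ j, 0 ≤ c j)
    (x0 : α → ℝ) (ep : ℝ) (hep : 0 < ep) (n : ℕ) :
    ∀ x : α → ℝ, (∀ i, |x i| ≤ 1) → ∀ A : Finset α, A = univ.filter (fun i => |x i| < 1) →
    A.card = n →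
    ∃ y : α → ℝ, (∀ i, |y i| = 1) ∧ (∀ i, |x i| = 1 → y i = x i) ∧
      ∑ j, c j * Real.cosh (1 / 20 * (yo j + ∑ i, r j i * (y i - x0 i))) ≤
        Pot2 r c yo x0 ep (· ∈ J.filter (fun j => 12 < ∑ i ∈ A, r j i ^ 2)) x := by
  classical
  induction n using Nat.strong_induction_on with
  | _ n ih =>
    intro x hx A hA hn
    rcases A.eq_empty_or_nonempty with h0 | h0
    · subst h0
      have hx1 : ∀ i, |x i| = 1 := by
        intro i
        by_contra h
        have h2 : i ∈ univ.filter (fun i => |x i| < 1) :=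
          mem_filter.2 ⟨mem_univ _, lt_of_le_of_ne (hx i) h⟩
        rw [← hA] at h2
        simp at h2
      refine ⟨x, hx1, fun _ _ => rfl, ?_⟩
      unfold Pot2
      have h1 : ∑ i, (1 - x i ^ 2) = 0 := sum_eq_zero fun i _ => by
        rw [← sq_abs, hx1 i]; ring
      rw [h1, mul_zero, add_zero]
      refine le_of_eq (sum_congr rfl fun j _ => ?_)
      have h2 : rem r j x = 0 := sum_eq_zero fun i _ => by
        rw [← sq_abs (x i), hx1 i]; ring
      have h3 : ¬ (j ∈ J.filter (fun j => 12 < ∑ i ∈ (∅ : Finset α), r j i ^ 2)) := by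
        intro h
        have h4 := (mem_filter.1 h).2
        rw [sum_empty] at h4
        linarith
      simp only [W2, h3, if_false, h2, zero_div, Real.exp_zero, mul_one]
    · obtain ⟨y, hy1, hy2, hy3, hy4⟩ := pot2_step r J hJ1 hJ2 c yo hc x0 x hx ep hep A hA h0 _ rfl
      set B := univ.filter (fun i => |y i| < 1) with hB
      obtain ⟨z, hz1, hz2, hz3⟩ := ih B.card (hn ▸ card_lt_card hy3) y hy1 B hB rfl
      refine ⟨z, hz1, fun i hi => ?_, ?_⟩
      · rw [hz2 i (by rw [hy2 i hi]; exact hi), hy2 i hi]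
      · refine hz3.trans (le_trans ?_ hy4)
        unfold Pot2
        refine add_le_add (sum_le_sum fun j _ => ?_) le_rfl
        unfold W2
        refine mul_le_mul_of_nonneg_left (Real.exp_le_exp.2 ?_)
          (mul_nonneg (hc j) (Real.cosh_pos _).le)
        refine div_le_div_of_nonneg_right ?_ (by norm_num)
        have hmono : ∑ i ∈ B, r j i ^ 2 ≤ ∑ i ∈ A, r j i ^ 2 :=
          sum_le_sum_of_subset_of_nonneg hy3.1 fun i _ _ => sq_nonneg _
        have hrl := rem_le r j y hy1 B hB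
        by_cases h1 : j ∈ J.filter (fun j => 12 < ∑ i ∈ B, r j i ^ 2)
        · have h2 : j ∈ J.filter (fun j => 12 < ∑ i ∈ A, r j i ^ 2) := by
            rw [mem_filter] at h1 ⊢
            exact ⟨h1.1, lt_of_lt_of_le h1.2 hmono⟩
          rw [if_pos h1, if_pos h2]
        · rw [if_neg h1]
          by_cases h2 : j ∈ J.filter (fun j => 12 < ∑ i ∈ A, r j i ^ 2)
          · rw [if_pos h2]
            rw [mem_filter] at h1 h2
            by_contra hcon
            push Not at hcon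
            exact h1 ⟨h2.1, lt_of_lt_of_le hcon hrl⟩
          · rw [if_neg h2]

theorem komlos2 {α β : Type} [Fintype α] [DecidableEq α] [Fintype β] [DecidableEq β]
    (r : β → α → ℝ) (J : Finset β) (hJ1 : ∀ i, ∑ j ∈ J, r j i ^ 2 ≤ 3)
    (hJ2 : ∀ j ∉ J, ∑ i, r j i ^ 2 ≤ 1) (c yo : β → ℝ) (hc : ∀ j, 0 ≤ c j)
    (x : α → ℝ) (hx : ∀ i, |x i| ≤ 1) :
    ∃ y : α → ℝ, (∀ i, |y i| = 1) ∧ (∀ i, |x i| = 1 → y i = x i) ∧
      ∑ j, c j * Real.cosh (1 / 20 * (yo j + ∑ i, r j i * (y i - x i))) ≤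
        Real.exp (1 / 8) * ∑ j, c j * Real.cosh (1 / 20 * yo j) + 1 := by
  classical
  set A := univ.filter (fun i => |x i| < 1) with hA
  have hα : (0 : ℝ) ≤ Fintype.card α := Nat.cast_nonneg _
  obtain ⟨y, hy1, hy2, hy3⟩ := pot2_round r J hJ1 hJ2 c yo hc x (1 / (Fintype.card α + 1))
    (by positivity) _ x hx A hA rfl
  refine ⟨y, hy1, hy2, hy3.trans ?_⟩
  unfold Pot2
  refine add_le_add ?_ ?_
  · rw [mul_sum]
    refine sum_le_sum fun j _ => ?_
    unfold W2
    have e1 : ∑ i, r j i * (x i - x i) = 0 := sum_eq_zero fun i _ => by ring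
    rw [e1, add_zero, mul_comm (Real.exp (1 / 8))]
    refine mul_le_mul_of_nonneg_left (Real.exp_le_exp.2 ?_)
      (mul_nonneg (hc j) (Real.cosh_pos _).le)
    have h12 : (if j ∈ J.filter (fun j => 12 < ∑ i ∈ A, r j i ^ 2) then (12 : ℝ)
        else rem r j x) ≤ 12 := by
      split_ifs with h
      · exact le_rfl
      · refine (rem_le r j x hx A hA).trans ?_
        by_cases hj : j ∈ J
        · by_contra hcon
          push Not at hcon
          exact h (mem_filter.2 ⟨hj, hcon⟩)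
        · have h2 := hJ2 j hj
          have h3 : ∑ i ∈ A, r j i ^ 2 ≤ ∑ i, r j i ^ 2 :=
            sum_le_sum_of_subset_of_nonneg (subset_univ _) fun i _ _ => sq_nonneg _
          linarith
    have h13 := div_le_div_of_nonneg_right h12 (by norm_num : (0 : ℝ) ≤ 96)
    refine h13.trans (by norm_num)
  · have h1 : ∑ i, (1 - x i ^ 2) ≤ (Fintype.card α : ℝ) := by
      refine (sum_le_card_nsmul univ _ (1 : ℝ) fun i _ => ?_).trans (le_of_eq (by simp))
      have := sq_nonneg (x i); linarith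
    rw [one_div, inv_mul_le_iff₀ (by positivity)]
    linarith

theorem rounding2 {α β γ : Type} [Fintype α] [DecidableEq α] [Fintype β] [DecidableEq β]
    [Fintype γ] [DecidableEq γ]
    (p : β → α → ℝ) (r : γ → α → ℝ) (J : Finset γ) (hJ1 : ∀ i, ∑ j ∈ J, r j i ^ 2 ≤ 3)
    (hJ2 : ∀ j ∉ J, ∑ i, r j i ^ 2 ≤ 1) (c a : γ → ℝ) (hc : ∀ j, 0 ≤ c j)
    (lam : α → ℝ) (h0 : ∀ i, 0 ≤ lam i) (h1 : ∀ i, lam i ≤ 1) (n : ℕ)
    (hn : Fintype.card β + Fintype.card γ ≤ n) :
    ∃ S : Finset α, (∀ i ∈ S, lam i ≠ 0) ∧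
      (∑ j, c j * Real.cosh ((a j + (∑ i ∈ S, r j i - ∑ i, lam i * r j i)) / 10) ≤
        Real.exp (1 / 8) * ∑ j, c j * Real.cosh (a j / 10) + 1) ∧
      (∀ b (M : ℝ), 0 ≤ M → (∀ i, lam i ≠ 0 → |p b i| ≤ M) →
        |∑ i ∈ S, p b i - ∑ i, lam i * p b i| ≤ n * M) := by
  classical
  set x : α → ℝ := fun i => 2 * lam i - 1 with hx
  have hx1 : ∀ i, |x i| ≤ 1 := fun i => by
    have := h0 i
    have := h1 i
    rw [abs_le]; simp only [hx]; constructor <;> linarith
  obtain ⟨y, hy1, hy2, hy3, hy4⟩ := vertex (Sum.elim p r) x hx1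
  obtain ⟨z, hz1, hz2, hz3⟩ := komlos2 r J hJ1 hJ2 c (fun j => 2 * a j) hc y hy1
  set S : Finset α := univ.filter (fun i => z i = 1) with hS
  have hz : ∀ i, z i = 1 ∨ z i = -1 := fun i => by
    have := hz1 i
    rcases abs_cases (z i) with h | h
    · left; linarith
    · right; linarith
  have hsum : ∀ f : α → ℝ, ∑ i ∈ S, f i - ∑ i, lam i * f i =
      (∑ i, f i * (z i - x i)) / 2 := by
    intro f
    have e1 : ∑ i ∈ S, f i = ∑ i, (z i + 1) / 2 * f i := by
      rw [hS, sum_filter]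
      refine sum_congr rfl fun i _ => ?_
      rcases hz i with h | h
      · simp [h]
      · rw [h]; norm_num
    rw [e1, ← sum_sub_distrib, sum_div]
    refine sum_congr rfl fun i _ => ?_
    simp only [hx]; ring
  have hp : ∀ b, ∑ i, p b i * (z i - x i) = ∑ i, p b i * (z i - y i) := by
    intro b
    have := hy2 (Sum.inl b)
    simp only [Sum.elim_inl] at this
    simp only [mul_sub, sum_sub_distrib]
    rw [this]
  have hr : ∀ b, ∑ i, r b i * (z i - x i) = ∑ i, r b i * (z i - y i) := by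
    intro b
    have := hy2 (Sum.inr b)
    simp only [Sum.elim_inr] at this
    simp only [mul_sub, sum_sub_distrib]
    rw [this]
  refine ⟨S, ?_, ?_, ?_⟩
  · intro i hi h
    have hxi : x i = -1 := by simp only [hx, h]; norm_num
    have h2 : y i = x i := hy3 i (by rw [hxi]; norm_num)
    have h3 : z i = y i := hz2 i (by rw [h2, hxi]; norm_num)
    have h4 : z i = 1 := (mem_filter.1 hi).2
    rw [h3, h2, hxi] at h4
    norm_num at h4
  · have e1 : ∀ j, (a j + (∑ i ∈ S, r j i - ∑ i, lam i * r j i)) / 10 =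
        1 / 20 * (2 * a j + ∑ i, r j i * (z i - y i)) := by
      intro j
      rw [hsum, hr]; ring
    have e2 : ∀ j, a j / 10 = 1 / 20 * (2 * a j) := fun j => by ring
    simp only [e1, e2]
    exact hz3
  · intro b M hM hb
    rw [hsum, hp]
    set F : Finset α := univ.filter (fun i => |y i| < 1) with hF
    have e : ∑ i, p b i * (z i - y i) = ∑ i ∈ F, p b i * (z i - y i) := by
      symm
      refine sum_subset (subset_univ _) fun i _ hi => ?_
      have h2 : ¬ |y i| < 1 := fun h => hi (mem_filter.2 ⟨mem_univ _, h⟩)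
      rw [hz2 i (le_antisymm (hy1 i) (not_lt.1 h2))]
      ring
    rw [e, abs_div, abs_two]
    have h2 : |∑ i ∈ F, p b i * (z i - y i)| ≤ ∑ i ∈ F, M * 2 := by
      refine (abs_sum_le_sum_abs _ _).trans (sum_le_sum fun i hi => ?_)
      rw [abs_mul]
      have h3 : lam i ≠ 0 := by
        intro h
        have hxi : x i = -1 := by simp only [hx, h]; norm_num
        have h2 : y i = x i := hy3 i (by rw [hxi]; norm_num)
        have h4 := (mem_filter.1 hi).2
        rw [h2, hxi] at h4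
        norm_num at h4
      refine mul_le_mul (hb i h3) ?_ (abs_nonneg _) hM
      have h4 := abs_le.1 (hz1 i).le
      have h5 := abs_le.1 (hy1 i)
      rw [abs_le]; constructor <;> linarith
    have h3 : (F.card : ℝ) ≤ n := by
      have h7 : F.card ≤ n := by
        rw [Fintype.card_sum] at hy4
        exact hy4.trans hn
      exact_mod_cast h7
    rw [sum_const, nsmul_eq_mul] at h2
    have h4 : (F.card : ℝ) * (M * 2) ≤ n * (M * 2) :=
      mul_le_mul_of_nonneg_right h3 (by positivity)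
    linarith

end Vale.Agent.P262
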