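import Mathlib
import Vale.Agent.P262.Split
import Vale.Agent.P262.K2

namespace Vale.Agent.P262

open Finset

theorem cosh_shift (x s : ℝ) : Real.cosh (x + s) ≤ Real.exp |s| * Real.cosh x := by
  rw [Real.cosh_eq, Real.cosh_eq]
  have h1 : Real.exp (x + s) ≤ Real.exp |s| * Real.exp x := by
    rw [← Real.exp_add]
    exact Real.exp_le_exp.2 (by have := le_abs_self s; linarith)
  have h2 : Real.exp (-(x + s)) ≤ Real.exp |s| * Real.exp (-x) := by
    rw [← Real.exp_add]
    exact Real.exp_le_exp.2 (by have := neg_abs_le s; linarith)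
  linarith

theorem abs_le_of_cosh {x Y c : ℝ} (hc : 0 < c) (hY : 0 < Y) (h : c * Real.cosh (x / 10) ≤ Y) :
    |x| ≤ 10 * Real.log (2 * Y / c) := by
  have h1 : Real.exp |x / 10| ≤ 2 * Real.cosh (x / 10) := by
    rw [← Real.cosh_abs, Real.cosh_eq]
    have := Real.exp_pos (-|x / 10|)
    linarith
  have h2 : Real.cosh (x / 10) ≤ Y / c := by rw [le_div_iff₀ hc]; linarith
  have h3 : Real.exp |x / 10| ≤ 2 * Y / c := by
    rw [mul_div_assoc]; linarith
  have h4 := (Real.le_log_iff_exp_le (by positivity)).2 h3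
  rw [abs_div, abs_of_pos (by norm_num : (0 : ℝ) < 10)] at h4
  linarith

theorem split2 {ι : Type} [Fintype ι] [DecidableEq ι] {d : ℕ} (v : ι → Fin d → ℝ)
    (hv : ∀ i, ∑ k, v i k ^ 2 ≤ 1) (D : Finset ι) (age : ι → ℕ) (mm : ℕ)
    (Mn : Finset (Fin d)) (y : Fin d → ℝ)
    (n : ℕ) (hn : (d + 2) ^ 2 + mm ≤ n)
    (cw : Fin d → ℝ) (hcw : ∀ k, 0 ≤ cw k) (gw : ℕ → ℝ) (hgw : ∀ a, 0 < gw a)
    (T0 R E : ℝ) (hT0 : 64 ≤ T0) (hR : 0 ≤ R) (hE : 1 ≤ E) (hTER : 2 * d * E * R ≤ T0)
    (hy : ∀ k, |y k| ≤ R)
    (hQ : ∀ k l, k ≠ l → T0 ^ 2 < qq v D l l →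
      |qq v D k l| ≤ 2 * E * Real.sqrt (qq v D l l))
    (Y : ℝ) (hY : Real.exp (1 / 8) * (∑ k ∈ Mn, cw k *
      Real.cosh ((if T0 ^ 2 < qq v D k k then 0 else y k) / 10) + d + 1 +
      ∑ a ∈ range (mm + 1), gw a) + 1 ≤ Y) :
    ∃ D1 ⊆ D,
      (∑ k ∈ Mn, cw k * Real.cosh (((if T0 ^ 2 < qq v D k k then 0 else y k) +
        (sm v D1 k - (sm v D k / 2 - if T0 ^ 2 < qq v D k k then y k else 0))) / 10) ≤
          Real.exp (1 / 10) * Y) ∧
      (∀ k, k ∉ Mn → |sm v D1 k - (sm v D k / 2 - if T0 ^ 2 < qq v D k k then y k else 0)| ≤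
        (10 * Real.log (2 * Y) + 1) * Real.sqrt (qq v D k k)) ∧
      |(D1.card : ℝ) - D.card / 2| ≤ D.card / 64 + 10 * Real.log (2 * Y) ∧
      (∀ a ≤ mm, |((D1.filter (fun i => age i = a)).card : ℝ) -
          (D.filter (fun i => age i = a)).card / 2| ≤
        (D.filter (fun i => age i = a)).card / 64 + 10 * Real.log (2 * Y / gw a)) ∧
      (∀ k l, k ≠ l → |qq v D1 k l - qq v D k l / 2| ≤ Real.sqrt (qq v D k k) / 2 + n) ∧
      (∀ k, |qq v D1 k k - qq v D k k / 2| ≤ qq v D k k / 64 + n) ∧
      (∀ k μ, (∀ i ∈ D, age i = 0 → v i k ^ 2 ≤ μ) → 0 ≤ μ →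
        |qq v (D1.filter (fun i => age i = 0)) k k -
          qq v (D.filter (fun i => age i = 0)) k k / 2| ≤
          qq v (D.filter (fun i => age i = 0)) k k / 64 + n * μ) := by
  classical
  have hT0p : 0 < T0 := by linarith
  set q : Fin d → ℝ := fun k => qq v D k k with hq
  have hq0 : ∀ k, 0 ≤ q k := fun k => qq_nonneg v D k
  set w : Fin d → ℝ := fun k => if T0 ^ 2 < q k then -(y k / q k) else 0 with hw
  have hdR : 2 * (d : ℝ) * R ≤ T0 := by
    have : 2 * (d : ℝ) * R * 1 ≤ 2 * d * R * E := mul_le_mul_of_nonneg_left hE (by positivity)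
    linarith
  have hw1 : ∀ k, |w k| ≤ R / T0 ^ 2 := by
    intro k
    simp only [hw]
    split_ifs with h
    · rw [abs_neg, abs_div, abs_of_pos (lt_trans (by positivity) h)]
      exact div_le_div₀ hR (hy k) (by positivity) h.le
    · rw [abs_zero]; positivity
  have hw2 : ∀ k, |w k| * Real.sqrt (q k) ≤ R / T0 := by
    intro k
    simp only [hw]
    split_ifs with h
    · have hqp : 0 < q k := lt_trans (by positivity) h
      have hs : T0 ≤ Real.sqrt (q k) := Real.le_sqrt_of_sq_le h.le
      have hsp : 0 < Real.sqrt (q k) := by linarith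
      rw [abs_neg, abs_div, abs_of_pos hqp]
      have : |y k| / q k * Real.sqrt (q k) = |y k| / Real.sqrt (q k) := by
        rw [div_mul_eq_mul_div, div_eq_div_iff hqp.ne' hsp.ne', mul_assoc, Real.mul_self_sqrt hqp.le]
      rw [this]
      exact div_le_div₀ hR (hy k) hT0p hs
    · simp; positivity
  have hwsum : ∑ k, |w k| ≤ 1 / 128 := by
    calc ∑ k, |w k| ≤ ∑ _k : Fin d, R / T0 ^ 2 := sum_le_sum fun k _ => hw1 k
      _ = (2 * d * R) / (2 * T0 ^ 2) := by
          rw [sum_const, card_univ, Fintype.card_fin, nsmul_eq_mul]; field_simp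
      _ ≤ T0 / (2 * T0 ^ 2) := div_le_div_of_nonneg_right hdR (by positivity)
      _ = 1 / (2 * T0) := by field_simp
      _ ≤ 1 / 128 := one_div_le_one_div_of_le (by norm_num) (by linarith)
  set b : ι → ℝ := fun i => ∑ k, v i k * w k with hb
  have hb1 : ∀ i, |b i| ≤ 1 / 128 := by
    intro i
    refine le_trans ?_ hwsum
    refine (abs_sum_le_sum_abs _ _).trans (sum_le_sum fun k _ => ?_)
    rw [abs_mul]
    exact mul_le_of_le_one_left (abs_nonneg _) (abs_v_le v hv i k)
  set lam : ι → ℝ := fun i => if i ∈ D then 1 / 2 + b i else 0 with hlam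
  have hlam0 : ∀ i, 0 ≤ lam i := by
    intro i
    simp only [hlam]
    split_ifs
    · have := abs_le.1 (hb1 i); linarith
    · exact le_refl _
  have hlam1 : ∀ i, lam i ≤ 1 := by
    intro i
    simp only [hlam]
    split_ifs
    · have := abs_le.1 (hb1 i); linarith
    · norm_num
  have hlamsum : ∀ f : ι → ℝ, ∑ i, lam i * f i = (∑ i ∈ D, f i) / 2 + ∑ i ∈ D, b i * f i := by
    intro f
    rw [sum_div, ← sum_add_distrib]
    rw [← sum_subset (subset_univ D)]
    · refine sum_congr rfl fun i hi => ?_
      simp only [hlam, hi, if_true]; ring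
    · intro i _ hi
      simp only [hlam, hi, if_false]; ring
  have hlamD : ∀ i, lam i ≠ 0 → i ∈ D := by
    intro i hi
    by_contra h
    exact hi (by simp only [hlam, h, if_false])
  let p : (Fin d × Fin d) ⊕ Fin d → ι → ℝ := fun kl i =>
    Sum.elim (fun kl => v i kl.1 * v i kl.2) (fun k => if age i = 0 then v i k * v i k else 0) kl
  let r : Fin d ⊕ Option (Fin (mm + 1)) → ι → ℝ := fun j i =>
    Sum.elim (fun k => if i ∈ D then (if k ∈ Mn then v i k else v i k / Real.sqrt (q k)) else 0)
      (fun t => Option.elim t (if i ∈ D then (1 : ℝ) else 0)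
        (fun a : Fin (mm + 1) => if i ∈ D then (if age i = (a : ℕ) then 1 else 0) else 0)) j
  let J : Finset (Fin d ⊕ Option (Fin (mm + 1))) :=
    univ.filter (fun j => Sum.elim (fun k => k ∈ Mn) (fun _ => True) j)
  have hJ1 : ∀ i, ∑ j ∈ J, r j i ^ 2 ≤ 3 := by
    intro i
    simp only [J]
    rw [sum_filter, Fintype.sum_sum_type]
    have e1 : ∑ k : Fin d, (if Sum.elim (fun k => k ∈ Mn)
        (fun _ : Option (Fin (mm + 1)) => True) (Sum.inl k) then
        r (Sum.inl k) i ^ 2 else 0) ≤ ∑ k, v i k ^ 2 := by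
      refine sum_le_sum fun k _ => ?_
      simp only [Sum.elim_inl, r]
      by_cases h1 : k ∈ Mn
      · by_cases h2 : i ∈ D
        · simp [h1, h2]
        · simp [h1, h2]; positivity
      · simp [h1]; positivity
    have e2 : ∑ t : Option (Fin (mm + 1)), (if Sum.elim (fun k => k ∈ Mn)
        (fun _ : Option (Fin (mm + 1)) => True) (Sum.inr t) then
        r (Sum.inr t) i ^ 2 else 0) ≤ 2 := by
      refine le_trans (sum_le_sum (g := fun t => r (Sum.inr t) i ^ 2) fun t _ => ?_) ?_
      · split_ifs
        exacts [le_rfl, sq_nonneg _]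
      rw [Fintype.sum_option]
      simp only [Sum.elim_inr, r, Option.elim]
      have e3 : ∑ a : Fin (mm + 1), (if i ∈ D then (if age i = (a : ℕ) then (1 : ℝ) else 0)
          else 0) ^ 2 ≤ 1 := by
        by_cases hi : i ∈ D
        · simp only [hi, if_true]
          by_cases ha : age i < mm + 1
          · rw [sum_eq_single (⟨age i, ha⟩ : Fin (mm + 1))]
            · simp
            · intro b _ hb
              have : ¬ age i = (b : ℕ) := fun h => hb (Fin.ext h.symm)
              simp [this]
            · simp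
          · rw [sum_eq_zero]
            · norm_num
            · intro b _
              have : ¬ age i = (b : ℕ) := fun h => ha (h ▸ b.2)
              simp [this]
        · simp [hi]
      have e4 : (if i ∈ D then (1 : ℝ) else 0) ^ 2 ≤ 1 := by split_ifs <;> norm_num
      linarith
    have := hv i
    linarith
  have hJ2 : ∀ j ∉ J, ∑ i, r j i ^ 2 ≤ 1 := by
    intro j hj
    rcases j with k | t
    · have hk : ¬ k ∈ Mn := by
        intro h
        exact hj (mem_filter.2 ⟨mem_univ _, h⟩)
      simp only [Sum.elim_inl, r, hk, if_false]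
      rw [← sum_subset (subset_univ D)]
      · rw [sum_congr rfl (g := fun i => v i k ^ 2 / q k)]
        · rw [← sum_div, ← qq_self]
          exact div_self_le_one _
        · intro i hi
          simp only [hi, if_true]
          rw [div_pow, Real.sq_sqrt (hq0 k)]
      · intro i _ hi
        simp [hi]
    · exact absurd (mem_filter.2 ⟨mem_univ _, trivial⟩) hj
  set aa : Fin d → ℝ := fun k => if T0 ^ 2 < q k then 0 else y k with haa
  let c : Fin d ⊕ Option (Fin (mm + 1)) → ℝ := fun j =>
    Sum.elim (fun k => if k ∈ Mn then cw k else 1) (fun t => Option.elim t 1 (fun a : Fin (mm + 1) => gw (a : ℕ))) j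
  let a' : Fin d ⊕ Option (Fin (mm + 1)) → ℝ := fun j =>
    Sum.elim (fun k => if k ∈ Mn then aa k else 0) (fun _ => 0) j
  have hc0 : ∀ j, 0 ≤ c j := by
    intro j
    rcases j with k | t
    · simp only [c, Sum.elim_inl]; split_ifs; exacts [hcw k, zero_le_one]
    · rcases t with _ | a
      · exact zero_le_one
      · exact (hgw a).le
  obtain ⟨S, hS0, hS1, hS2⟩ := rounding2 p r J hJ1 hJ2 c a' hc0 lam hlam0 hlam1 n (by
    simp only [Fintype.card_prod, Fintype.card_fin, Fintype.card_sum, Fintype.card_option]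
    nlinarith)
  have hSD : S ⊆ D := fun i hi => hlamD i (hS0 i hi)
  -- total potential
  have hinit : Real.exp (1 / 8) * ∑ j, c j * Real.cosh (a' j / 10) + 1 ≤ Y := by
    refine le_trans (add_le_add (mul_le_mul_of_nonneg_left ?_ (Real.exp_pos _).le) le_rfl) hY
    rw [Fintype.sum_sum_type, Fintype.sum_option]
    have g1 : ∑ k : Fin d, c (Sum.inl k) * Real.cosh (a' (Sum.inl k) / 10) ≤
        ∑ k ∈ Mn, cw k * Real.cosh (aa k / 10) + d := by
      have g2 : ∀ k : Fin d, c (Sum.inl k) * Real.cosh (a' (Sum.inl k) / 10) ≤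
          (if k ∈ Mn then cw k * Real.cosh (aa k / 10) else 0) + 1 := by
        intro k
        by_cases hk : k ∈ Mn
        · simp [c, a', hk]
        · simp [c, a', hk]
      refine (sum_le_sum fun k _ => g2 k).trans (le_of_eq ?_)
      rw [sum_add_distrib, ← sum_filter]
      simp
    have g3 : ∑ a : Fin (mm + 1), c (Sum.inr (some a)) * Real.cosh (a' (Sum.inr (some a)) / 10) =
        ∑ a ∈ range (mm + 1), gw a := by
      rw [← Fin.sum_univ_eq_sum_range]
      exact sum_congr rfl fun a _ => by simp [c, a']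
    have g4 : c (Sum.inr none) * Real.cosh (a' (Sum.inr none) / 10) = 1 := by simp [c, a']
    rw [g3, g4]
    linarith
  have hS1' := hS1.trans hinit
  have hYpos : 0 < Y := lt_of_lt_of_le (by
    have : 0 ≤ ∑ j, c j * Real.cosh (a' j / 10) :=
      sum_nonneg fun j _ => mul_nonneg (hc0 j) (Real.cosh_pos _).le
    positivity) hinit
  set er : Fin d ⊕ Option (Fin (mm + 1)) → ℝ := fun j =>
    ∑ i ∈ S, r j i - ∑ i, lam i * r j i with her
  have hterm : ∀ j, c j * Real.cosh ((a' j + er j) / 10) ≤ Y := fun j =>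
    (single_le_sum (f := fun j => c j * Real.cosh ((a' j + er j) / 10))
      (fun j _ => mul_nonneg (hc0 j) (Real.cosh_pos _).le) (mem_univ j)).trans hS1'
  -- offdiagonal reset error
  have hoffd : ∀ k, |∑ i ∈ D, b i * v i k + (if T0 ^ 2 < q k then y k else 0)| ≤
        min 1 (Real.sqrt (q k)) := by
    intro k
    have hm0 : 0 ≤ min 1 (Real.sqrt (q k)) := le_min zero_le_one (Real.sqrt_nonneg _)
    have e1 : ∑ i ∈ D, b i * v i k = ∑ l, qq v D k l * w l := by
      simp only [hb, qq, sum_mul]
      rw [sum_comm]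
      refine sum_congr rfl fun l _ => sum_congr rfl fun i _ => by ring
    have e2 : qq v D k k * w k = -(if T0 ^ 2 < q k then y k else 0) := by
      simp only [hw]
      split_ifs with h
      · have : q k ≠ 0 := (lt_trans (by positivity) h).ne'
        change q k * _ = _
        field_simp
      · simp
    rw [e1, ← add_sum_erase univ _ (mem_univ k), e2, neg_add_cancel_comm]
    refine (abs_sum_le_sum_abs _ _).trans ?_
    have hterm : ∀ l ∈ univ.erase k, |qq v D k l * w l| ≤
        2 * E * R / T0 * min 1 (Real.sqrt (q k)) := by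
      intro l hl
      have hkl : k ≠ l := (ne_of_mem_erase hl).symm
      by_cases hrich : T0 ^ 2 < q l
      · have g1 : |qq v D k l| ≤ 2 * E * Real.sqrt (q l) := hQ k l hkl hrich
        have g2 : |qq v D k l| ≤ Real.sqrt (q k) * Real.sqrt (q l) := by
          refine le_trans ?_ (abs_cs v D k l)
          unfold qq
          refine (abs_sum_le_sum_abs _ _).trans (le_of_eq ?_)
          exact sum_congr rfl fun i _ => abs_mul _ _
        have hs : 0 ≤ Real.sqrt (q l) := Real.sqrt_nonneg _
        have g3 : |qq v D k l| ≤ (2 * E * min 1 (Real.sqrt (q k))) * Real.sqrt (q l) := by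
          rcases le_total 1 (Real.sqrt (q k)) with h | h
          · rw [min_eq_left h, mul_one]; exact g1
          · rw [min_eq_right h]
            refine g2.trans (mul_le_mul_of_nonneg_right ?_ hs)
            have := Real.sqrt_nonneg (q k)
            nlinarith
        rw [abs_mul]
        calc |qq v D k l| * |w l| ≤ ((2 * E * min 1 (Real.sqrt (q k))) * Real.sqrt (q l)) * |w l| :=
              mul_le_mul_of_nonneg_right g3 (abs_nonneg _)
          _ = (2 * E * min 1 (Real.sqrt (q k))) * (|w l| * Real.sqrt (q l)) := by ring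
          _ ≤ (2 * E * min 1 (Real.sqrt (q k))) * (R / T0) :=
              mul_le_mul_of_nonneg_left (hw2 l) (by positivity)
          _ = _ := by ring
      · have : w l = 0 := by simp only [hw, hrich, if_false]
        rw [this, mul_zero, abs_zero]
        positivity
    refine (sum_le_card_nsmul _ _ _ hterm).trans ?_
    rw [nsmul_eq_mul]
    have hc : ((univ.erase k).card : ℝ) ≤ d := by
      have := card_le_univ (univ.erase k)
      rw [Fintype.card_fin] at this
      exact_mod_cast this
    calc ((univ.erase k).card : ℝ) * (2 * E * R / T0 * min 1 (Real.sqrt (q k))) ≤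
          d * (2 * E * R / T0 * min 1 (Real.sqrt (q k))) :=
          mul_le_mul_of_nonneg_right hc (by positivity)
      _ = (2 * d * E * R) / T0 * min 1 (Real.sqrt (q k)) := by ring
      _ ≤ 1 * min 1 (Real.sqrt (q k)) :=
          mul_le_mul_of_nonneg_right ((div_le_one hT0p).2 hTER) hm0
      _ = _ := one_mul _
  have hdecomp : ∀ k, sm v S k - (sm v D k / 2 - if T0 ^ 2 < q k then y k else 0) =
        (∑ i ∈ S, v i k - ∑ i, lam i * v i k) +
        (∑ i ∈ D, b i * v i k + (if T0 ^ 2 < q k then y k else 0)) := by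
    intro k
    rw [hlamsum (fun i => v i k)]; unfold sm; ring
  refine ⟨S, hSD, ?_, ?_, ?_, ?_, ?_, ?_, ?_⟩
  · -- main coordinates
    have hmain : ∀ k ∈ Mn, er (Sum.inl k) = ∑ i ∈ S, v i k - ∑ i, lam i * v i k := by
      intro k hk
      simp only [her]
      congr 1
      · exact sum_congr rfl fun i hi => by simp [r, hk, hSD hi]
      · refine sum_congr rfl fun i _ => ?_
        by_cases hi : i ∈ D
        · simp [r, hk, hi]
        · simp [hlam, hi]
    have h1 : ∑ k ∈ Mn, cw k * Real.cosh ((aa k + er (Sum.inl k)) / 10) ≤ Y := by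
      refine le_trans ?_ hS1'
      rw [Fintype.sum_sum_type]
      have h2 : ∑ k ∈ Mn, cw k * Real.cosh ((aa k + er (Sum.inl k)) / 10) ≤
          ∑ k : Fin d, c (Sum.inl k) * Real.cosh ((a' (Sum.inl k) + er (Sum.inl k)) / 10) := by
        refine le_trans (le_of_eq (sum_congr rfl fun k hk => ?_))
          (sum_le_sum_of_subset_of_nonneg (subset_univ Mn)
            fun k _ _ => mul_nonneg (hc0 _) (Real.cosh_pos _).le)
        simp [c, a', hk]
      have h3 : 0 ≤ ∑ t : Option (Fin (mm + 1)), c (Sum.inr t) *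
          Real.cosh ((a' (Sum.inr t) + er (Sum.inr t)) / 10) :=
        sum_nonneg fun t _ => mul_nonneg (hc0 _) (Real.cosh_pos _).le
      linarith
    refine le_trans ?_ (mul_le_mul_of_nonneg_left h1 (Real.exp_pos _).le)
    rw [mul_sum]
    refine sum_le_sum fun k hk => ?_
    have h4 := hdecomp k
    rw [← hmain k hk] at h4
    change cw k * Real.cosh ((aa k +
      (sm v S k - (sm v D k / 2 - if T0 ^ 2 < q k then y k else 0))) / 10) ≤ _
    rw [h4]
    set of := ∑ i ∈ D, b i * v i k + (if T0 ^ 2 < q k then y k else 0) with hof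
    have h5 : (aa k + (er (Sum.inl k) + of)) / 10 = (aa k + er (Sum.inl k)) / 10 + of / 10 := by
      ring
    rw [h5]
    have h6 := cosh_shift ((aa k + er (Sum.inl k)) / 10) (of / 10)
    have h7 : Real.exp |of / 10| ≤ Real.exp (1 / 10) := by
      refine Real.exp_le_exp.2 ?_
      rw [abs_div, abs_of_pos (by norm_num : (0 : ℝ) < 10)]
      exact div_le_div_of_nonneg_right ((hoffd k).trans (min_le_left _ _)) (by norm_num)
    have h8 := Real.cosh_pos ((aa k + er (Sum.inl k)) / 10)
    calc cw k * Real.cosh ((aa k + er (Sum.inl k)) / 10 + of / 10) ≤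
          cw k * (Real.exp (1 / 10) * Real.cosh ((aa k + er (Sum.inl k)) / 10)) :=
          mul_le_mul_of_nonneg_left
            (h6.trans (mul_le_mul_of_nonneg_right h7 h8.le)) (hcw k)
      _ = _ := by ring
  · intro k hk
    rw [hdecomp k]
    have h0 := hterm (Sum.inl k)
    have h1 : |er (Sum.inl k)| ≤ 10 * Real.log (2 * Y) := by
      have h2 : (1 : ℝ) * Real.cosh (er (Sum.inl k) / 10) ≤ Y := by
        simpa [c, a', hk] using h0
      have := abs_le_of_cosh one_pos hYpos h2
      simpa using this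
    have hv' : ∀ i ∈ D, v i k = Real.sqrt (q k) * r (Sum.inl k) i := by
      intro i hi
      simp only [r, Sum.elim_inl, hi, if_true, hk, if_false]
      by_cases h0 : q k = 0
      · have : v i k ^ 2 ≤ q k := by
          simp only [hq]; rw [qq_self]
          exact single_le_sum (f := fun i => v i k ^ 2) (fun j _ => sq_nonneg _) hi
        rw [h0] at this
        have h3 : v i k = 0 := by
          have := le_antisymm this (sq_nonneg _)
          exact pow_eq_zero_iff (two_ne_zero) |>.1 this
        rw [h0, h3]; simp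
      · have : Real.sqrt (q k) ≠ 0 := by
          rw [Real.sqrt_ne_zero']
          exact lt_of_le_of_ne (hq0 k) (Ne.symm h0)
        field_simp
    have e1 : ∑ i ∈ S, v i k = Real.sqrt (q k) * ∑ i ∈ S, r (Sum.inl k) i := by
      rw [mul_sum]; exact sum_congr rfl fun i hi => hv' i (hSD hi)
    have e2 : ∑ i, lam i * v i k = Real.sqrt (q k) * ∑ i, lam i * r (Sum.inl k) i := by
      rw [mul_sum]
      refine sum_congr rfl fun i _ => ?_
      by_cases hi : i ∈ D
      · rw [hv' i hi]; ring
      · simp [hlam, hi]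
    have h3 : |∑ i ∈ S, v i k - ∑ i, lam i * v i k| ≤
        10 * Real.log (2 * Y) * Real.sqrt (q k) := by
      rw [e1, e2, ← mul_sub, abs_mul, abs_of_nonneg (Real.sqrt_nonneg _), mul_comm]
      exact mul_le_mul_of_nonneg_right h1 (Real.sqrt_nonneg _)
    refine (abs_add_le _ _).trans ?_
    have h4 := (hoffd k).trans (min_le_right _ _)
    change _ ≤ (10 * Real.log (2 * Y) + 1) * Real.sqrt (q k)
    linarith
  · have h0 := hterm (Sum.inr none)
    have h1 : |er (Sum.inr none)| ≤ 10 * Real.log (2 * Y) := by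
      have h2 : (1 : ℝ) * Real.cosh (er (Sum.inr none) / 10) ≤ Y := by
        simpa [c, a'] using h0
      have := abs_le_of_cosh one_pos hYpos h2
      simpa using this
    simp only [her] at h1
    have e1 : ∑ i ∈ S, r (Sum.inr none) i = S.card := by
      rw [sum_congr rfl (g := fun _ => (1 : ℝ)) (fun i hi => by simp [r, hSD hi])]
      simp
    have e2 : ∑ i, lam i * r (Sum.inr none) i = D.card / 2 + ∑ i ∈ D, b i := by
      rw [hlamsum]
      congr 1
      · rw [sum_congr rfl (g := fun _ => (1 : ℝ)) (fun i hi => by simp [r, hi])]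
        simp
      · exact sum_congr rfl fun i hi => by simp [r, hi]
    rw [e1, e2] at h1
    have h2 : |∑ i ∈ D, b i| ≤ D.card * (1 / 128) := by
      refine (abs_sum_le_sum_abs _ _).trans ?_
      rw [← nsmul_eq_mul]
      exact sum_le_card_nsmul _ _ _ fun i _ => hb1 i
    have h3 : (S.card : ℝ) - D.card / 2 = ((S.card : ℝ) - (D.card / 2 + ∑ i ∈ D, b i)) +
      ∑ i ∈ D, b i := by ring
    rw [h3]
    refine (abs_add_le _ _).trans ?_
    have : (0 : ℝ) ≤ D.card := Nat.cast_nonneg _
    linarith
  · intro a ha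
    have h0 := hterm (Sum.inr (some ⟨a, Nat.lt_succ_of_le ha⟩))
    have h1 : |er (Sum.inr (some ⟨a, Nat.lt_succ_of_le ha⟩))| ≤ 10 * Real.log (2 * Y / gw a) := by
      have h2 : gw a * Real.cosh (er (Sum.inr (some ⟨a, Nat.lt_succ_of_le ha⟩)) / 10) ≤ Y := by
        simpa [c, a'] using h0
      exact abs_le_of_cosh (hgw a) hYpos h2
    simp only [her] at h1
    set T := D.filter (fun i => age i = a) with hT
    have hTD : T ⊆ D := filter_subset _ _
    have e1 : ∑ i ∈ S, r (Sum.inr (some ⟨a, Nat.lt_succ_of_le ha⟩)) i =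
        (S.filter (fun i => age i = a)).card := by
      rw [card_eq_sum_ones]
      push_cast
      rw [sum_filter]
      exact sum_congr rfl fun i hi => by simp [r, hSD hi]
    have e2 : ∑ i, lam i * r (Sum.inr (some ⟨a, Nat.lt_succ_of_le ha⟩)) i =
        T.card / 2 + ∑ i ∈ T, b i := by
      rw [hlamsum]
      have g1 : ∀ f : ι → ℝ, ∑ i ∈ D, f i * r (Sum.inr (some ⟨a, Nat.lt_succ_of_le ha⟩)) i =
          ∑ i ∈ T, f i := by
        intro f
        rw [hT, sum_filter]
        exact sum_congr rfl fun i hi => by simp [r, hi]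
      congr 1
      · have := g1 (fun _ => 1)
        simp only [one_mul] at this
        rw [this]; simp
      · exact g1 b
    rw [e1, e2] at h1
    have h2 : |∑ i ∈ T, b i| ≤ T.card * (1 / 128) := by
      refine (abs_sum_le_sum_abs _ _).trans ?_
      rw [← nsmul_eq_mul]
      exact sum_le_card_nsmul _ _ _ fun i _ => hb1 i
    have h3 : ((S.filter (fun i => age i = a)).card : ℝ) - T.card / 2 =
      (((S.filter (fun i => age i = a)).card : ℝ) - (T.card / 2 + ∑ i ∈ T, b i)) +
        ∑ i ∈ T, b i := by ring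
    rw [h3]
    refine (abs_add_le _ _).trans ?_
    have : (0 : ℝ) ≤ T.card := Nat.cast_nonneg _
    linarith
  · intro k l hkl
    have h1 := hS2 (Sum.inl (k, l)) 1 zero_le_one (fun i _ => by
      simp only [p, Sum.elim_inl, abs_mul]
      exact mul_le_one₀ (abs_v_le v hv i k) (abs_nonneg _) (abs_v_le v hv i l))
    simp only [p, Sum.elim_inl] at h1
    rw [hlamsum] at h1
    have h2 : |∑ i ∈ D, b i * (v i k * v i l)| ≤ Real.sqrt (q k) / 2 := by
      have g1 : |∑ i ∈ D, b i * (v i k * v i l)| ≤
          ∑ i ∈ D, ∑ m, |w m| * (|v i m| * |v i k|) := by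
        refine (abs_sum_le_sum_abs _ _).trans (sum_le_sum fun i _ => ?_)
        rw [abs_mul, abs_mul]
        calc |b i| * (|v i k| * |v i l|) ≤ (∑ m, |v i m| * |w m|) * (|v i k| * 1) := by
              refine mul_le_mul ?_ ?_ (by positivity) (by positivity)
              · refine (abs_sum_le_sum_abs _ _).trans (le_of_eq ?_)
                exact sum_congr rfl fun m _ => abs_mul _ _
              · exact mul_le_mul_of_nonneg_left (abs_v_le v hv i l) (abs_nonneg _)
          _ = _ := by
              rw [sum_mul]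
              exact sum_congr rfl fun m _ => by ring
      refine g1.trans ?_
      rw [sum_comm]
      calc ∑ m, ∑ i ∈ D, |w m| * (|v i m| * |v i k|) ≤ ∑ _m : Fin d, R / T0 * Real.sqrt (q k) := by
            refine sum_le_sum fun m _ => ?_
            rw [← mul_sum]
            calc |w m| * ∑ i ∈ D, |v i m| * |v i k| ≤
                  |w m| * (Real.sqrt (q m) * Real.sqrt (q k)) :=
                  mul_le_mul_of_nonneg_left (abs_cs v D m k) (abs_nonneg _)
              _ = (|w m| * Real.sqrt (q m)) * Real.sqrt (q k) := by ring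
              _ ≤ _ := mul_le_mul_of_nonneg_right (hw2 m) (Real.sqrt_nonneg _)
        _ = (2 * d * R) / T0 * (Real.sqrt (q k) / 2) := by
            rw [sum_const, card_univ, Fintype.card_fin, nsmul_eq_mul]; ring
        _ ≤ 1 * (Real.sqrt (q k) / 2) :=
            mul_le_mul_of_nonneg_right ((div_le_one hT0p).2 hdR) (by positivity)
        _ = _ := one_mul _
    have h3 : qq v S k l - qq v D k l / 2 =
        (∑ i ∈ S, v i k * v i l - ((∑ i ∈ D, v i k * v i l) / 2 +
          ∑ i ∈ D, b i * (v i k * v i l))) + ∑ i ∈ D, b i * (v i k * v i l) := by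
      unfold qq; ring
    rw [h3]
    refine (abs_add_le _ _).trans ?_
    linarith
  · intro k
    have h1 := hS2 (Sum.inl (k, k)) 1 zero_le_one (fun i _ => by
      simp only [p, Sum.elim_inl, abs_mul]
      exact mul_le_one₀ (abs_v_le v hv i k) (abs_nonneg _) (abs_v_le v hv i k))
    simp only [p, Sum.elim_inl] at h1
    rw [hlamsum] at h1
    have h2 : |∑ i ∈ D, b i * (v i k * v i k)| ≤ q k / 64 := by
      have g1 : |∑ i ∈ D, b i * (v i k * v i k)| ≤ ∑ i ∈ D, (1 / 128) * (v i k * v i k) := by
        refine (abs_sum_le_sum_abs _ _).trans (sum_le_sum fun i _ => ?_)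
        rw [abs_mul, abs_of_nonneg (mul_self_nonneg (v i k))]
        exact mul_le_mul_of_nonneg_right (hb1 i) (mul_self_nonneg _)
      rw [← mul_sum] at g1
      have : q k = ∑ i ∈ D, v i k * v i k := rfl
      rw [← this] at g1
      have := hq0 k
      linarith
    have h3 : qq v S k k - qq v D k k / 2 =
        (∑ i ∈ S, v i k * v i k - ((∑ i ∈ D, v i k * v i k) / 2 +
          ∑ i ∈ D, b i * (v i k * v i k))) + ∑ i ∈ D, b i * (v i k * v i k) := by
      unfold qq; ring
    rw [h3]
    refine (abs_add_le _ _).trans ?_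
    linarith
  · intro k μ hμ hμ0
    set T := D.filter (fun i => age i = 0) with hT
    have h1 := hS2 (Sum.inr k) μ hμ0 (fun i hi => by
      simp only [p, Sum.elim_inr]
      split_ifs with h0
      · have := hμ i (hlamD i hi) h0
        rw [abs_of_nonneg (mul_self_nonneg _)]
        linarith [sq (v i k)]
      · rw [abs_zero]; exact hμ0)
    simp only [p, Sum.elim_inr] at h1
    rw [hlamsum] at h1
    have f1 : ∑ i ∈ S, (if age i = 0 then v i k * v i k else 0) =
        qq v (S.filter (fun i => age i = 0)) k k := by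
      unfold qq; rw [sum_filter]
    have f2 : ∑ i ∈ D, (if age i = 0 then v i k * v i k else 0) = qq v T k k := by
      unfold qq; rw [hT, sum_filter]
    have f3 : ∑ i ∈ D, b i * (if age i = 0 then v i k * v i k else 0) =
        ∑ i ∈ T, b i * (v i k * v i k) := by
      rw [hT, sum_filter]
      exact sum_congr rfl fun i _ => by split_ifs <;> simp
    rw [f1, f2, f3] at h1
    have h2 : |∑ i ∈ T, b i * (v i k * v i k)| ≤ qq v T k k / 64 := by
      have g1 : |∑ i ∈ T, b i * (v i k * v i k)| ≤ ∑ i ∈ T, (1 / 128) * (v i k * v i k) := by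
        refine (abs_sum_le_sum_abs _ _).trans (sum_le_sum fun i _ => ?_)
        rw [abs_mul, abs_of_nonneg (mul_self_nonneg (v i k))]
        exact mul_le_mul_of_nonneg_right (hb1 i) (mul_self_nonneg _)
      rw [← mul_sum] at g1
      have : qq v T k k = ∑ i ∈ T, v i k * v i k := rfl
      rw [← this] at g1
      have := qq_nonneg v T k
      linarith
    have h3 : qq v (S.filter (fun i => age i = 0)) k k - qq v T k k / 2 =
        (qq v (S.filter (fun i => age i = 0)) k k - (qq v T k k / 2 +
          ∑ i ∈ T, b i * (v i k * v i k))) + ∑ i ∈ T, b i * (v i k * v i k) := by ring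
    rw [h3]
    refine (abs_add_le _ _).trans ?_
    linarith

end Vale.Agent.P262
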