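import Mathlib
import Vale.Agent.P262.Split2
import Vale.Agent.P262.Rec

namespace Vale.Agent.P262

open Finset

/-- parameters -/
structure Par2 (d n : ℕ) where
  mm : ℕ
  L : ℝ
  T0 : ℝ
  R : ℝ
  E : ℝ
  E2 : ℝ
  eta : ℝ
  B0 : ℝ
  Ym : ℝ
  K : ℝ
  R1 : ℝ
  Ga : ℝ
  gw : ℕ → ℝ
  hmm1 : 1 ≤ mm
  hn : (d + 2) ^ 2 + mm ≤ n
  hYm : 0 < Ym
  hL : L = 10 * Real.log (2 * Ym)
  hL1 : 1 ≤ L
  hB0 : Real.exp 7 * (Real.exp (1 / 10) * Ym) ≤ B0
  hgw : ∀ a, 0 < gw a
  hpot : Real.exp (1 / 8) * ((3 / 4) ^ 40 * B0 + 2 * d + 1 + ∑ a ∈ range (mm + 1), gw a) + 1 ≤ Ym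
  hcount : ∀ a < mm, 10 * Real.log (2 * Ym / gw a) ≤ 15 / 64 * (140 * (4 / 3) ^ (mm - a))
  hnew : d / eta ≤ 140 * (4 / 3) ^ (mm - 1)
  heta0 : 0 < eta
  heta : n * eta ≤ 1 / 32
  hetaT : 1 < eta * T0 ^ 2
  hK1 : 1 ≤ K
  hK : (mm + 1) * (16 / 9) ^ mm ≤ K ^ 2
  hT0 : 64 ≤ T0
  hE2 : E2 = 2 * (n + 140)
  hE : E = 8 * (1 + n + 140)
  hTE : E2 + 140 ≤ T0
  hR1 : 10 * Real.log (2 * B0 * (4 * K * T0 / 3) ^ 40) ≤ R1
  hGa : Ga = 4 * (L + 281)
  hR : R = R1 + Ga + 4 * L
  hTER : 2 * d * E * R ≤ T0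

/-- main coordinates -/
noncomputable def Mn {d n : ℕ} (P : Par2 d n) (t : Fin d → ℝ) : Finset (Fin d) :=
  by classical exact univ.filter (fun k => 1 ≤ P.K * t k)

theorem mem_Mn {d n : ℕ} (P : Par2 d n) (t : Fin d → ℝ) (k : Fin d) :
    k ∈ Mn P t ↔ 1 ≤ P.K * t k := by
  classical
  simp [Mn]

/-- endpoint property -/
def EP {d n : ℕ} (P : Par2 d n) (t z : Fin d → ℝ) : Prop :=
  (∑ k ∈ Mn P t, (t k / P.T0) ^ 40 * Real.cosh (z k / 10) ≤ P.B0) ∧
    ∀ k, P.K * t k < 1 → |z k| ≤ P.R - P.Ga * (P.K * t k)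

theorem B0_pos {d n : ℕ} (P : Par2 d n) : 0 < P.B0 :=
  lt_of_lt_of_le (by have := P.hYm; positivity) P.hB0

theorem Ga_ge {d n : ℕ} (P : Par2 d n) : 4 * P.L + 1124 ≤ P.Ga := by
  rw [P.hGa]; linarith

theorem main_abs {d n : ℕ} (P : Par2 d n) (s z : ℝ) (hs : 3 / 4 ≤ P.K * s)
    (h : (s / P.T0) ^ 40 * Real.cosh (z / 10) ≤ P.B0) : |z| ≤ P.R1 := by
  have hT0 := P.hT0
  have hK := P.hK1
  have hB := B0_pos P
  have hs0 : 0 < s := by
    by_contra hcon
    push Not at hcon
    have : P.K * s ≤ 0 := mul_nonpos_of_nonneg_of_nonpos (by linarith) hcon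
    linarith
  have hc : 0 < (s / P.T0) ^ 40 := by positivity
  refine (abs_le_of_cosh hc hB h).trans (le_trans ?_ P.hR1)
  refine mul_le_mul_of_nonneg_left (Real.log_le_log (by positivity) ?_) (by norm_num)
  rw [div_eq_mul_inv, ← inv_pow, inv_div]
  refine mul_le_mul_of_nonneg_left (pow_le_pow_left₀ (by positivity) ?_ 40) (by positivity)
  rw [div_le_iff₀ hs0]
  have : P.T0 * (3 / 4) ≤ P.T0 * (P.K * s) := mul_le_mul_of_nonneg_left hs (by linarith)
  linarith

theorem EP_term {d n : ℕ} (P : Par2 d n) (S : Finset (Fin d)) (c z : Fin d → ℝ)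
    (h : ∑ k ∈ S, (c k / P.T0) ^ 40 * Real.cosh (z k / 10) ≤ P.B0) (k : Fin d) (hk : k ∈ S) :
    (c k / P.T0) ^ 40 * Real.cosh (z k / 10) ≤ P.B0 :=
  (single_le_sum (f := fun k => (c k / P.T0) ^ 40 * Real.cosh (z k / 10))
    (fun j _ => mul_nonneg (by positivity) (Real.cosh_pos _).le) hk).trans h

/-- the state -/
structure St2 {ι : Type} [DecidableEq ι] {d n : ℕ} (P : Par2 d n) (v : ι → Fin d → ℝ)
    (C : Finset ι) (Z : Fin d → ℝ) (t : Fin d → ℝ) (age : ι → ℕ) : Prop where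
  tpos : ∀ k, 0 < t k
  tle : ∀ k, t k ≤ P.T0
  agele : ∀ i ∈ C, age i ≤ P.mm
  en : ∀ k, (∀ a ≤ P.mm, qq v (C.filter (fun i => age i = a)) k k ≤ (16 / 9) ^ a * t k ^ 2) ∨
    t k = P.T0
  dust : ∀ i ∈ C, age i = 0 → ∀ k, v i k ^ 2 ≤ P.eta * t k ^ 2
  cnt : ∀ a, 1 ≤ a → a ≤ P.mm →
    ((C.filter (fun i => age i = a)).card : ℝ) ≤ 140 * (4 / 3) ^ (P.mm - a)
  off : ∀ k l, k ≠ l → |qq v C k l| ≤ P.E * Real.sqrt (P.E2 + qq v C k k)
  pz : EP P t Z
  pw : EP P t (fun k => Z k + sm v C k)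

theorem off_child2 {ι : Type} [DecidableEq ι] {d : ℕ} (v : ι → Fin d → ℝ) (n : ℕ) (hn1 : 1 ≤ n)
    (A E E2 : ℝ) (hA : 0 ≤ A) (hE2 : E2 = 2 * (n + A)) (hE : E = 8 * (1 + n + A))
    (hv : ∀ i, ∑ k, v i k ^ 2 ≤ 1)
    (C D X : Finset ι) (hDC : D ⊆ C) (hcard : ((C \ D).card : ℝ) ≤ A)
    (hoff : ∀ k l, k ≠ l → |qq v C k l| ≤ E * Real.sqrt (E2 + qq v C k k))
    (h1 : ∀ k l, k ≠ l → |qq v X k l - qq v D k l / 2| ≤ Real.sqrt (qq v D k k) / 2 + n)
    (h2 : ∀ k, |qq v X k k - qq v D k k / 2| ≤ qq v D k k / 64 + n) :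
    ∀ k l, k ≠ l → |qq v X k l| ≤ E * Real.sqrt (E2 + qq v X k k) := by
  intro k l hkl
  have hn1 : (1 : ℝ) ≤ n := by exact_mod_cast hn1
  have a1 := hoff k l hkl
  have a2 := h1 k l hkl
  have a3 := h2 k
  have b1 := (qq_abs_le_card v hv (C \ D) k l).trans hcard
  have b2 := (qq_abs_le_card v hv (C \ D) k k).trans hcard
  rw [qq_sdiff v hDC] at b1 b2
  have b3 := qq_mono v hDC k
  have b4 := qq_nonneg v D k
  have b5 := qq_nonneg v X k
  set S := Real.sqrt (E2 + qq v C k k) with hS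
  have hSD : Real.sqrt (qq v D k k) ≤ S := Real.sqrt_le_sqrt (by linarith)
  have hS1 : 1 ≤ S := Real.one_le_sqrt.2 (by linarith)
  have hSsq : S ^ 2 = E2 + qq v C k k := Real.sq_sqrt (by linarith)
  have c1 : |qq v X k l| ≤ (E * S + A) / 2 + S / 2 + n := by
    have := abs_le.1 a1
    have := abs_le.1 a2
    have := abs_le.1 b1
    rw [abs_le]; constructor <;> linarith
  have c2 : 0.69 * S ≤ Real.sqrt (E2 + qq v X k k) := by
    refine Real.le_sqrt_of_sq_le ?_
    rw [mul_pow, hSsq]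
    have := abs_le.1 a3
    have := abs_le.1 b2
    nlinarith
  refine c1.trans (le_trans ?_ (mul_le_mul_of_nonneg_left c2 (by linarith)))
  have c3 : (A / 2 + n) * 1 ≤ (A / 2 + n) * S := mul_le_mul_of_nonneg_left hS1 (by linarith)
  have c4 : (0.5 + A / 2 + n) * S ≤ (0.19 * E) * S :=
    mul_le_mul_of_nonneg_right (by rw [hE]; linarith) (by linarith)
  nlinarith

theorem n_ge {d n : ℕ} (P : Par2 d n) : 1 ≤ n := by
  have := P.hn
  have h2 : 1 ≤ (d + 2) ^ 2 := Nat.one_le_pow _ _ (by omega)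
  omega

/-- total energy bound for coordinates with small `t` -/
theorem en_total {ι : Type} [DecidableEq ι] {d n : ℕ} {P : Par2 d n} {v : ι → Fin d → ℝ}
    {C : Finset ι} {Z t : Fin d → ℝ} {age : ι → ℕ} (h : St2 P v C Z t age) (k : Fin d)
    (hk : t k ≠ P.T0) : qq v C k k ≤ (P.K * t k) ^ 2 := by
  have h1 := (h.en k).resolve_right hk
  have e1 : qq v C k k = ∑ a ∈ range (P.mm + 1), qq v (C.filter (fun i => age i = a)) k k := by
    unfold qq
    exact (sum_fiberwise_of_maps_to (fun i hi => mem_range.2 (Nat.lt_succ_of_le (h.agele i hi)))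
      _).symm
  rw [e1]
  have e2 : ∀ a ∈ range (P.mm + 1), qq v (C.filter (fun i => age i = a)) k k ≤
      (16 / 9) ^ P.mm * t k ^ 2 := by
    intro a ha
    have ha' : a ≤ P.mm := Nat.lt_succ_iff.1 (mem_range.1 ha)
    refine (h1 a ha').trans (mul_le_mul_of_nonneg_right ?_ (sq_nonneg _))
    exact pow_le_pow_right₀ (by norm_num) ha'
  refine (sum_le_card_nsmul _ _ _ e2).trans ?_
  rw [card_range, nsmul_eq_mul, mul_pow, ← mul_assoc]
  refine mul_le_mul_of_nonneg_right ?_ (sq_nonneg _)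
  have := P.hK
  push_cast
  exact this

theorem after_v {ι : Type} [DecidableEq ι] {d n : ℕ} {P : Par2 d n} {v : ι → Fin d → ℝ}
    {C : Finset ι} {Z t : Fin d → ℝ} {age : ι → ℕ} (h : St2 P v C Z t age) (k : Fin d)
    (hk : P.K * t k < 1) : t k ≠ P.T0 ∧ ∀ i ∈ C, |v i k| ≤ P.K * t k := by
  have hne : t k ≠ P.T0 := by
    intro h'
    rw [h'] at hk
    have := P.hT0
    have := P.hK1
    nlinarith
  refine ⟨hne, fun i hi => ?_⟩
  have h0 : 0 ≤ P.K * t k := mul_nonneg (by have := P.hK1; linarith) (h.tpos k).le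
  refine abs_le_of_sq_le_sq (le_trans ?_ (en_total h k hne)) h0
  rw [qq_self]
  exact single_le_sum (f := fun i => v i k ^ 2) (fun j _ => sq_nonneg _) hi

theorem sum_abs_le {ι : Type} (v : ι → ℝ) (X : Finset ι) (c A : ℝ)
    (hc : 0 ≤ c) (hX : (X.card : ℝ) ≤ A) (h : ∀ i ∈ X, |v i| ≤ c) : ∑ i ∈ X, |v i| ≤ A * c := by
  refine (sum_le_card_nsmul _ _ _ h).trans ?_
  rw [nsmul_eq_mul]
  exact mul_le_mul_of_nonneg_right hX hc

theorem EP_abs {ι : Type} [DecidableEq ι] {d n : ℕ} {P : Par2 d n} {v : ι → Fin d → ℝ}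
    {C : Finset ι} {Z t : Fin d → ℝ} {age : ι → ℕ} (h : St2 P v C Z t age) (z : Fin d → ℝ)
    (hz : EP P t z) (k : Fin d) :
    (1 ≤ P.K * t k → |z k| ≤ P.R1) ∧ |z k| ≤ P.R := by
  have hL := P.hL1
  have hGa := Ga_ge P
  have h1 : 1 ≤ P.K * t k → |z k| ≤ P.R1 := fun hk =>
    main_abs P (t k) (z k) (by linarith) (EP_term P (Mn P t) t z hz.1 k ((mem_Mn P t k).2 hk))
  refine ⟨h1, ?_⟩
  rcases le_or_gt 1 (P.K * t k) with hk | hk
  · have := h1 hk
    rw [P.hR]; linarith
  · have := hz.2 k hk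
    have h0 : 0 ≤ P.K * t k := mul_nonneg (by have := P.hK1; linarith) (h.tpos k).le
    have : 0 ≤ P.Ga * (P.K * t k) := mul_nonneg (by linarith) h0
    linarith

theorem good_small2 {ι : Type} [DecidableEq ι] {d n : ℕ} {P : Par2 d n} {v : ι → Fin d → ℝ}
    (hv : ∀ i, ∑ k, v i k ^ 2 ≤ 1) {C : Finset ι} {Z t : Fin d → ℝ} {age : ι → ℕ}
    (h : St2 P v C Z t age) (hC : (C.card : ℝ) ≤ 4 * P.L) : Good v P.R C Z := by
  refine good_terminal v _ C Z fun k => ?_
  have hL := P.hL1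
  have hGa := Ga_ge P
  rcases le_or_gt 1 (P.K * t k) with hk | hk
  · have h1 := (EP_abs h Z h.pz k).1 hk
    have h2 := sum_abs_le (fun i => v i k) C 1 (4 * P.L) zero_le_one hC
      (fun i _ => abs_v_le v hv i k)
    rw [P.hR]; linarith
  · have h1 := h.pz.2 k hk
    have h0 : 0 ≤ P.K * t k := mul_nonneg (by have := P.hK1; linarith) (h.tpos k).le
    have h2 := sum_abs_le (fun i => v i k) C (P.K * t k) (4 * P.L) h0 hC
      (after_v h k hk).2
    have h3 : 4 * P.L * (P.K * t k) ≤ P.Ga * (P.K * t k) :=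
      mul_le_mul_of_nonneg_right (by linarith) h0
    linarith

theorem cosh_mid (a b : ℝ) : Real.cosh ((a + b) / 2) ≤ (Real.cosh a + Real.cosh b) / 2 := by
  have h1 : Real.cosh a + Real.cosh b =
      2 * (Real.cosh ((a + b) / 2) * Real.cosh ((a - b) / 2)) := by
    have e1 : a = (a + b) / 2 + (a - b) / 2 := by ring
    have e2 : b = (a + b) / 2 - (a - b) / 2 := by ring
    have h2 := Real.cosh_add ((a + b) / 2) ((a - b) / 2)
    have h3 := Real.cosh_sub ((a + b) / 2) ((a - b) / 2)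
    rw [← e1] at h2
    rw [← e2] at h3
    linarith
  rw [h1]
  have h4 := Real.one_le_cosh ((a - b) / 2)
  have h5 := Real.cosh_pos ((a + b) / 2)
  nlinarith

/-- new scale -/
noncomputable def tn {ι : Type} {d n : ℕ} (P : Par2 d n) (v : ι → Fin d → ℝ)
    (D : Finset ι) (t : Fin d → ℝ) (k : Fin d) : ℝ :=
  by classical exact if P.T0 ^ 2 < qq v D k k ∧ t k = P.T0 then P.T0 else 3 / 4 * t k

/-- new ages -/
noncomputable def agen {ι : Type} {d n : ℕ} (P : Par2 d n) (v : ι → Fin d → ℝ)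
    (t' : Fin d → ℝ) (age : ι → ℕ) (i : ι) : ℕ := by
  classical
  exact if age i = 0 then (if ∃ k, P.eta * t' k ^ 2 < v i k ^ 2 then 1 else 0) else age i + 1

theorem tn_cases {ι : Type} {d n : ℕ} (P : Par2 d n) (v : ι → Fin d → ℝ)
    (D : Finset ι) (t : Fin d → ℝ) (k : Fin d) :
    (P.T0 ^ 2 < qq v D k k ∧ t k = P.T0 ∧ tn P v D t k = P.T0) ∨
    (¬ (P.T0 ^ 2 < qq v D k k ∧ t k = P.T0) ∧ tn P v D t k = 3 / 4 * t k) := by
  classical
  by_cases h : P.T0 ^ 2 < qq v D k k ∧ t k = P.T0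
  · left; exact ⟨h.1, h.2, by simp [tn, h]⟩
  · right; exact ⟨h, by simp only [tn, h, if_false]⟩

theorem tn_le {ι : Type} {d n : ℕ} (P : Par2 d n) (v : ι → Fin d → ℝ)
    (D : Finset ι) (t : Fin d → ℝ) (k : Fin d) (ht : 0 < t k) :
    0 < tn P v D t k ∧ tn P v D t k ≤ t k := by
  rcases tn_cases P v D t k with ⟨_, h1, h2⟩ | ⟨_, h2⟩
  · rw [h2, ← h1]; exact ⟨ht, le_rfl⟩
  · rw [h2]; constructor <;> linarith

/-- endpoint property passes to the children -/
theorem EP_child {ι : Type} {d n : ℕ} (P : Par2 d n) (v : ι → Fin d → ℝ)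
    (D : Finset ι) (t z : Fin d → ℝ) (ht : ∀ k, 0 < t k)
    (h1 : ∑ k ∈ Mn P t, (tn P v D t k / P.T0) ^ 40 * Real.cosh (z k / 10) ≤ P.B0)
    (h2 : ∀ k, P.K * t k < 1 → |z k| ≤ P.R - P.Ga * (P.K * (3 / 4 * t k))) :
    EP P (tn P v D t) z := by
  have hK := P.hK1
  have hT0 := P.hT0
  have hL := P.hL1
  have hGa := Ga_ge P
  constructor
  · refine le_trans (sum_le_sum_of_subset_of_nonneg ?_ ?_) h1
    · intro k hk
      rw [mem_Mn] at hk ⊢
      have := (tn_le P v D t k (ht k)).2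
      have := mul_le_mul_of_nonneg_left this (by linarith : 0 ≤ P.K)
      linarith
    · intro k _ _
      exact mul_nonneg (by positivity) (Real.cosh_pos _).le
  · intro k hk
    have hnr : tn P v D t k = 3 / 4 * t k := by
      rcases tn_cases P v D t k with ⟨_, h3, h4⟩ | ⟨_, h4⟩
      · rw [h4] at hk
        nlinarith
      · exact h4
    rcases le_or_gt 1 (P.K * t k) with hk1 | hk1
    · have h3 := EP_term P (Mn P t) (tn P v D t) z h1 k ((mem_Mn P t k).2 hk1)
      have h4 := main_abs P _ _ (by rw [hnr]; linarith) h3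
      have h5 : P.Ga * (P.K * tn P v D t k) ≤ P.Ga * 1 :=
        mul_le_mul_of_nonneg_left hk.le (by linarith)
      rw [P.hR]; linarith
    · rw [hnr]; exact h2 k hk1

theorem EP_inherit {ι : Type} {d n : ℕ} (P : Par2 d n) (v : ι → Fin d → ℝ)
    (D : Finset ι) (t z : Fin d → ℝ) (ht : ∀ k, 0 < t k) (hz : EP P t z) :
    EP P (tn P v D t) z := by
  have hK := P.hK1
  have hT0 := P.hT0
  have hL := P.hL1
  have hGa := Ga_ge P
  refine EP_child P v D t z ht ?_ ?_
  · refine le_trans (sum_le_sum fun k _ => ?_) hz.1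
    refine mul_le_mul_of_nonneg_right ?_ (Real.cosh_pos _).le
    have h1 := tn_le P v D t k (ht k)
    exact pow_le_pow_left₀ (div_nonneg h1.1.le (by linarith))
      (div_le_div_of_nonneg_right h1.2 (by linarith)) 40
  · intro k hk
    have h1 := hz.2 k hk
    have h0 : 0 < P.K * t k := mul_pos (by linarith) (ht k)
    have h2 : P.Ga * (P.K * (3 / 4 * t k)) ≤ P.Ga * (P.K * t k) :=
      mul_le_mul_of_nonneg_left (by linarith) (by linarith)
    linarith

theorem childC {ι : Type} [DecidableEq ι] {d n : ℕ} {P : Par2 d n} {v : ι → Fin d → ℝ}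
    (hv : ∀ i, ∑ k, v i k ^ 2 ≤ 1) {C : Finset ι} {Z t : Fin d → ℝ} {age : ι → ℕ}
    (h : St2 P v C Z t age) (D : Finset ι) (hD : D = C.filter (fun i => age i ≠ P.mm))
    (X : Finset ι) (hX : X ⊆ D)
    (h1 : ∀ k l, k ≠ l → |qq v X k l - qq v D k l / 2| ≤
      Real.sqrt (qq v D k k) / 2 + n)
    (h2 : ∀ k, |qq v X k k - qq v D k k / 2| ≤ qq v D k k / 64 + n)
    (h3 : ∀ k μ, (∀ i ∈ D, age i = 0 → v i k ^ 2 ≤ μ) → 0 ≤ μ →
        |qq v (X.filter (fun i => age i = 0)) k k -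
          qq v (D.filter (fun i => age i = 0)) k k / 2| ≤
          qq v (D.filter (fun i => age i = 0)) k k / 64 + n * μ)
    (h4 : ∀ a ≤ P.mm, |((X.filter (fun i => age i = a)).card : ℝ) -
          (D.filter (fun i => age i = a)).card / 2| ≤
        (D.filter (fun i => age i = a)).card / 64 + 10 * Real.log (2 * P.Ym / P.gw a))
    (W : Fin d → ℝ) (z1 : EP P (tn P v D t) W)
    (z2 : EP P (tn P v D t) (fun k => W k + sm v X k)) :
    St2 P v X W (tn P v D t) (agen P v (tn P v D t) age) := by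
  classical
  have hDC : D ⊆ C := by rw [hD]; exact filter_subset _ _
  have hXC : X ⊆ C := hX.trans hDC
  have hT0 := P.hT0
  have heta0 := P.heta0
  set t' := tn P v D t with ht'
  set age' := agen P v t' age with hage'
  have ht'pos : ∀ k, 0 < t' k := fun k => (tn_le P v D t k (h.tpos k)).1
  have hv1 : ∀ i k, v i k ^ 2 ≤ 1 := fun i k => by
    rw [← sq_abs]; exact pow_le_one₀ (abs_nonneg _) (abs_v_le v hv i k)
  have hcov : C \ D = C.filter (fun i => age i = P.mm) := by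
    rw [hD]; ext i; simp only [mem_sdiff, mem_filter, not_and, not_not]
    constructor
    · rintro ⟨a, b⟩; exact ⟨a, b a⟩
    · rintro ⟨a, b⟩; exact ⟨a, fun _ => b⟩
  have hBcard : ((C \ D).card : ℝ) ≤ 140 := by
    rw [hcov]
    have := h.cnt P.mm P.hmm1 le_rfl
    simpa using this
  -- energies of the groups of D for shrinking coordinates
  have henD : ∀ k, ¬ (P.T0 ^ 2 < qq v D k k ∧ t k = P.T0) → ∀ a ≤ P.mm,
      qq v (D.filter (fun i => age i = a)) k k ≤ (16 / 9) ^ a * t k ^ 2 := by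
    intro k hk a ha
    by_cases ht : t k = P.T0
    · have h5 : qq v D k k ≤ P.T0 ^ 2 := by
        by_contra hcon
        exact hk ⟨not_le.1 hcon, ht⟩
      have h6 := qq_mono v (filter_subset (fun i => age i = a) D) k
      have h7 : (1 : ℝ) ≤ (16 / 9) ^ a := one_le_pow₀ (by norm_num)
      rw [ht]
      have : 1 * P.T0 ^ 2 ≤ (16 / 9) ^ a * P.T0 ^ 2 :=
        mul_le_mul_of_nonneg_right h7 (sq_nonneg _)
      linarith
    · have h5 := (h.en k).resolve_right ht a ha
      exact (qq_mono v (filter_subset_filter _ hDC) k).trans h5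
  have henX0 : ∀ k, ¬ (P.T0 ^ 2 < qq v D k k ∧ t k = P.T0) →
      qq v (X.filter (fun i => age i = 0)) k k ≤ (3 / 4 * t k) ^ 2 := by
    intro k hk
    have a1 := henD k hk 0 (Nat.zero_le _)
    rw [pow_zero, one_mul] at a1
    have a2 := (abs_le.1 (h3 k (P.eta * t k ^ 2)
      (fun i hi h0 => h.dust i (hDC hi) h0 k) (by positivity))).2
    have a4 : (n : ℝ) * (P.eta * t k ^ 2) ≤ 1 / 32 * t k ^ 2 := by
      rw [← mul_assoc]
      exact mul_le_mul_of_nonneg_right P.heta (sq_nonneg _)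
    have := sq_nonneg (t k)
    nlinarith
  have hage0 : ∀ i, age' i = 0 → age i = 0 ∧ ∀ k, v i k ^ 2 ≤ P.eta * t' k ^ 2 := by
    intro i hi
    simp only [hage', agen] at hi
    by_cases h0 : age i = 0
    · rw [if_pos h0] at hi
      by_cases h5 : ∃ k, P.eta * t' k ^ 2 < v i k ^ 2
      · rw [if_pos h5] at hi; omega
      · push Not at h5
        exact ⟨h0, h5⟩
    · rw [if_neg h0] at hi; omega
  have hage1 : ∀ i, age' i = 1 → age i = 0 ∧ ∃ k, P.eta * t' k ^ 2 < v i k ^ 2 := by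
    intro i hi
    simp only [hage', agen] at hi
    by_cases h0 : age i = 0
    · rw [if_pos h0] at hi
      by_cases h5 : ∃ k, P.eta * t' k ^ 2 < v i k ^ 2
      · exact ⟨h0, h5⟩
      · rw [if_neg h5] at hi; omega
    · rw [if_neg h0] at hi; omega
  have hage2 : ∀ i a, age' i = a + 2 → age i = a + 1 := by
    intro i a hi
    simp only [hage', agen] at hi
    by_cases h0 : age i = 0
    · rw [if_pos h0] at hi
      split_ifs at hi <;> omega
    · rw [if_neg h0] at hi; omega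
  refine
    { tpos := ht'pos
      tle := fun k => (tn_le P v D t k (h.tpos k)).2.trans (h.tle k)
      agele := ?_
      en := ?_
      dust := fun i _ h0 k => (hage0 i h0).2 k
      cnt := ?_
      off := off_child2 v n (n_ge P) 140 P.E P.E2 (by norm_num) P.hE2 P.hE hv C D X hDC
        hBcard h.off h1 h2
      pz := z1
      pw := z2 }
  · intro i hi
    have hiD := hX hi
    rw [hD] at hiD
    have h5 := (mem_filter.1 hiD).2
    have h6 := h.agele i (mem_filter.1 hiD).1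
    have h7 := P.hmm1
    simp only [hage', agen]
    split_ifs <;> omega
  · intro k
    rcases tn_cases P v D t k with ⟨_, _, h5⟩ | ⟨hk, h5⟩
    · right; exact h5
    · left
      intro a ha
      have h5' : t' k = 3 / 4 * t k := h5
      rw [h5']
      have hx0 := henX0 k hk
      have hsub0 : ∀ b, (∀ i, age' i = b → age i = 0) →
          qq v (X.filter (fun i => age' i = b)) k k ≤ (3 / 4 * t k) ^ 2 := by
        intro b hb
        refine le_trans (qq_mono v ?_ k) hx0
        intro i hi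
        rw [mem_filter] at hi ⊢
        exact ⟨hi.1, hb i hi.2⟩
      rcases a with _ | _ | a
      · rw [pow_zero, one_mul]
        exact hsub0 0 fun i hi => (hage0 i hi).1
      · have := hsub0 1 fun i hi => (hage1 i hi).1
        have h6 := sq_nonneg (3 / 4 * t k)
        simp only [zero_add, pow_one]
        linarith
      · have h6 : qq v (X.filter (fun i => age' i = a + 2)) k k ≤
            qq v (D.filter (fun i => age i = a + 1)) k k := by
          refine qq_mono v ?_ k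
          intro i hi
          rw [mem_filter] at hi ⊢
          exact ⟨hX hi.1, hage2 i a hi.2⟩
        have h7 := henD k hk (a + 1) (by omega)
        refine (h6.trans h7).trans (le_of_eq ?_)
        rw [show a + 1 + 1 = (a + 1) + 1 from rfl, pow_succ (16 / 9 : ℝ) (a + 1)]
        ring
  · intro a ha1 ha2
    rcases a with _ | _ | a
    · omega
    · -- new atoms
      refine le_trans ?_ P.hnew
      have hcount : ∀ k, ((X.filter (fun i => age i = 0 ∧ P.eta * t' k ^ 2 < v i k ^ 2)).card : ℝ) ≤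
          1 / P.eta := by
        intro k
        rcases tn_cases P v D t k with ⟨_, _, h5⟩ | ⟨hk, h5⟩
        · have h5' : t' k = P.T0 := h5
          have : X.filter (fun i => age i = 0 ∧ P.eta * t' k ^ 2 < v i k ^ 2) = ∅ := by
            rw [filter_eq_empty_iff]
            intro i _ hi
            have h6 := hi.2
            rw [h5'] at h6
            have := P.hetaT
            have := hv1 i k
            linarith
          rw [this]
          simp; positivity
        · have h5' : t' k = 3 / 4 * t k := h5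
          have a1 := henX0 k hk
          rw [← h5'] at a1
          have a2 : ((X.filter (fun i => age i = 0 ∧ P.eta * t' k ^ 2 < v i k ^ 2)).card : ℝ) *
              (P.eta * t' k ^ 2) ≤ qq v (X.filter (fun i => age i = 0)) k k := by
            rw [qq_self, ← nsmul_eq_mul]
            refine (card_nsmul_le_sum _ _ _ fun i hi => (mem_filter.1 hi).2.2.le).trans ?_
            refine sum_le_sum_of_subset_of_nonneg ?_ fun i _ _ => sq_nonneg _
            intro i hi
            rw [mem_filter] at hi ⊢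
            exact ⟨hi.1, hi.2.1⟩
          have a3 : 0 < t' k ^ 2 := by have := ht'pos k; positivity
          rw [le_div_iff₀ heta0]
          by_contra hcon
          push Not at hcon
          have := mul_lt_mul_of_pos_right hcon a3
          nlinarith
      have e1 : X.filter (fun i => age' i = 0 + 1) ⊆ univ.biUnion
          (fun k => X.filter (fun i => age i = 0 ∧ P.eta * t' k ^ 2 < v i k ^ 2)) := by
        intro i hi
        obtain ⟨hi1, hi2⟩ := mem_filter.1 hi
        obtain ⟨h5, k, hk⟩ := hage1 i hi2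
        exact mem_biUnion.2 ⟨k, mem_univ _, mem_filter.2 ⟨hi1, h5, hk⟩⟩
      have e2 : ((X.filter (fun i => age' i = 0 + 1)).card : ℝ) ≤
          ∑ k, ((X.filter (fun i => age i = 0 ∧ P.eta * t' k ^ 2 < v i k ^ 2)).card : ℝ) := by
        have := (card_le_card e1).trans card_biUnion_le
        exact_mod_cast this
      refine e2.trans ((sum_le_sum fun k _ => hcount k).trans (le_of_eq ?_))
      simp [div_eq_mul_inv]
    · have h6 : ((X.filter (fun i => age' i = a + 2)).card : ℝ) ≤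
          (X.filter (fun i => age i = a + 1)).card := by
        have : X.filter (fun i => age' i = a + 2) ⊆ X.filter (fun i => age i = a + 1) := by
          intro i hi
          rw [mem_filter] at hi ⊢
          exact ⟨hi.1, hage2 i a hi.2⟩
        exact_mod_cast card_le_card this
      have h7 := (abs_le.1 (h4 (a + 1) (by omega))).2
      have h8 : ((D.filter (fun i => age i = a + 1)).card : ℝ) ≤
          140 * (4 / 3) ^ (P.mm - (a + 1)) := by
        refine le_trans ?_ (h.cnt (a + 1) (by omega) (by omega))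
        exact_mod_cast card_le_card (filter_subset_filter _ hDC)
      have h9 := P.hcount (a + 1) (by omega)
      have h10 : (4 / 3 : ℝ) ^ (P.mm - (a + 1)) = (4 / 3) ^ (P.mm - (a + 2)) * (4 / 3) := by
        rw [← pow_succ]; congr 1; omega
      rw [h10] at h8 h9
      change ((X.filter (fun i => age' i = a + 2)).card : ℝ) ≤ 140 * (4 / 3) ^ (P.mm - (a + 2))
      linarith

end Vale.Agent.P262
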