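import Mathlib
import Vale.Agent.P262.Rec3

namespace Vale.Agent.P262

open Finset

theorem shift_bound {d n : ℕ} (P : Par2 d n) (S : Finset (Fin d)) (c x s : Fin d → ℝ)
    (hs : ∀ k, |s k| ≤ 70)
    (h : ∑ k ∈ S, (c k / P.T0) ^ 40 * Real.cosh (x k / 10) ≤ Real.exp (1 / 10) * P.Ym) :
    ∑ k ∈ S, (c k / P.T0) ^ 40 * Real.cosh ((x k + s k) / 10) ≤ P.B0 := by
  refine le_trans ?_ P.hB0
  refine le_trans ?_ (mul_le_mul_of_nonneg_left h (Real.exp_pos _).le)
  rw [mul_sum]
  refine sum_le_sum fun k _ => ?_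
  have h1 := cosh_shift (x k / 10) (s k / 10)
  have h2 : Real.exp |s k / 10| ≤ Real.exp 7 := by
    refine Real.exp_le_exp.2 ?_
    rw [abs_div, abs_of_pos (by norm_num : (0 : ℝ) < 10), div_le_iff₀ (by norm_num)]
    have := hs k
    linarith
  have h3 : (x k + s k) / 10 = x k / 10 + s k / 10 := by ring
  rw [h3]
  calc (c k / P.T0) ^ 40 * Real.cosh (x k / 10 + s k / 10) ≤
        (c k / P.T0) ^ 40 * (Real.exp 7 * Real.cosh (x k / 10)) :=
        mul_le_mul_of_nonneg_left
          (h1.trans (mul_le_mul_of_nonneg_right h2 (Real.cosh_pos _).le)) (by positivity)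
    _ = _ := by ring

/-- the initial potential of a split -/
theorem init_pot {ι : Type} {d n : ℕ} (P : Par2 d n) (v : ι → Fin d → ℝ)
    (D : Finset ι) (t Z Z' : Fin d → ℝ) (ht : ∀ k, 0 < t k)
    (hZ : ∑ k ∈ Mn P t, (t k / P.T0) ^ 40 * Real.cosh (Z k / 10) ≤ P.B0)
    (hZ' : ∑ k ∈ Mn P t, (t k / P.T0) ^ 40 * Real.cosh (Z' k / 10) ≤ P.B0)
    (a : Fin d → ℝ) (ha : ∀ k, a k = 0 ∨ a k = (Z k + Z' k) / 2)
    (ha0 : ∀ k, P.T0 ^ 2 < qq v D k k → a k = 0) :
    ∑ k ∈ Mn P t, (tn P v D t k / P.T0) ^ 40 * Real.cosh (a k / 10) ≤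
      (3 / 4) ^ 40 * P.B0 + d := by
  have hT0 := P.hT0
  have hterm : ∀ k ∈ Mn P t, (tn P v D t k / P.T0) ^ 40 * Real.cosh (a k / 10) ≤
      (3 / 4) ^ 40 * (((t k / P.T0) ^ 40 * Real.cosh (Z k / 10) +
        (t k / P.T0) ^ 40 * Real.cosh (Z' k / 10)) / 2) + 1 := by
    intro k _
    have hc0 : 0 ≤ (t k / P.T0) ^ 40 := by positivity
    have hp1 := Real.cosh_pos (Z k / 10)
    have hp2 := Real.cosh_pos (Z' k / 10)
    rcases tn_cases P v D t k with ⟨h1, _, h2⟩ | ⟨_, h2⟩
    · rw [ha0 k h1, h2, div_self (by linarith), one_pow, zero_div, Real.cosh_zero, one_mul]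
      have : 0 ≤ (3 / 4 : ℝ) ^ 40 * (((t k / P.T0) ^ 40 * Real.cosh (Z k / 10) +
        (t k / P.T0) ^ 40 * Real.cosh (Z' k / 10)) / 2) := by positivity
      linarith
    · rw [h2]
      have h3 : Real.cosh (a k / 10) ≤ (Real.cosh (Z k / 10) + Real.cosh (Z' k / 10)) / 2 := by
        rcases ha k with h4 | h4
        · rw [h4, zero_div, Real.cosh_zero]
          have := Real.one_le_cosh (Z k / 10)
          have := Real.one_le_cosh (Z' k / 10)
          linarith
        · rw [h4]
          have := cosh_mid (Z k / 10) (Z' k / 10)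
          have e : (Z k + Z' k) / 2 / 10 = (Z k / 10 + Z' k / 10) / 2 := by ring
          rw [e]; exact this
      have h4 : (3 / 4 * t k / P.T0) ^ 40 = (3 / 4) ^ 40 * (t k / P.T0) ^ 40 := by
        rw [mul_div_assoc, mul_pow]
      rw [h4]
      have h5 : (3 / 4 : ℝ) ^ 40 * (t k / P.T0) ^ 40 * Real.cosh (a k / 10) ≤
          (3 / 4 : ℝ) ^ 40 * (t k / P.T0) ^ 40 *
            ((Real.cosh (Z k / 10) + Real.cosh (Z' k / 10)) / 2) :=
        mul_le_mul_of_nonneg_left h3 (by positivity)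
      refine h5.trans ?_
      have h6 : (3 / 4 : ℝ) ^ 40 * (t k / P.T0) ^ 40 *
            ((Real.cosh (Z k / 10) + Real.cosh (Z' k / 10)) / 2) =
          (3 / 4) ^ 40 * (((t k / P.T0) ^ 40 * Real.cosh (Z k / 10) +
        (t k / P.T0) ^ 40 * Real.cosh (Z' k / 10)) / 2) := by ring
      rw [h6]
      linarith
  refine (sum_le_sum hterm).trans ?_
  rw [sum_add_distrib, ← mul_sum, ← sum_div, sum_add_distrib]
  have h1 : ∑ _k ∈ Mn P t, (1 : ℝ) ≤ d := by
    rw [sum_const, nsmul_eq_mul, mul_one]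
    have := card_le_univ (Mn P t)
    rw [Fintype.card_fin] at this
    exact_mod_cast this
  have h2 : (3 / 4 : ℝ) ^ 40 * ((∑ k ∈ Mn P t, (t k / P.T0) ^ 40 * Real.cosh (Z k / 10) +
      ∑ k ∈ Mn P t, (t k / P.T0) ^ 40 * Real.cosh (Z' k / 10)) / 2) ≤ (3 / 4) ^ 40 * P.B0 :=
    mul_le_mul_of_nonneg_left (by linarith) (by positivity)
  linarith

theorem rec_step2 {ι : Type} [Fintype ι] [DecidableEq ι] {d n : ℕ} {P : Par2 d n}
    {v : ι → Fin d → ℝ}
    (hv : ∀ i, ∑ k, v i k ^ 2 ≤ 1) {C : Finset ι} {Z t : Fin d → ℝ} {age : ι → ℕ}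
    (IH : ∀ (X : Finset ι) (W t' : Fin d → ℝ) (age' : ι → ℕ), X.card < C.card →
      St2 P v X W t' age' → Good v P.R X W)
    (h : St2 P v C Z t age) (hC : 4 * P.L < (C.card : ℝ)) : Good v P.R C Z := by
  classical
  have hL1 := P.hL1
  have hT0 := P.hT0
  have hK1 := P.hK1
  have hGa := Ga_ge P
  have hn1 : (1 : ℝ) ≤ n := by exact_mod_cast n_ge P
  have hE1 : 1 ≤ P.E := by rw [P.hE]; linarith
  set Z' : Fin d → ℝ := fun k => Z k + sm v C k with hZ'
  set y : Fin d → ℝ := fun k => Z k + sm v C k / 2 with hy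
  have hy2 : ∀ k, y k = (Z k + Z' k) / 2 := fun k => by simp only [hy, hZ']; ring
  have hyR : ∀ k, |y k| ≤ P.R := fun k => by
    have a1 := abs_le.1 (EP_abs h Z h.pz k).2
    have a2 := abs_le.1 (EP_abs h Z' h.pw k).2
    rw [hy2, abs_le]; constructor <;> linarith
  have hTE := P.hTE
  have hE2 := P.hE2
  set B := C.filter (fun i => age i = P.mm) with hB
  set D := C.filter (fun i => age i ≠ P.mm) with hD
  have hDC : D ⊆ C := filter_subset _ _
  have hBC : B ⊆ C := filter_subset _ _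
  have hDB : D = C \ B := by
    ext i; simp only [hD, hB, mem_filter, mem_sdiff, not_and]
    constructor
    · rintro ⟨a, b⟩; exact ⟨a, fun _ => b⟩
    · rintro ⟨a, b⟩; exact ⟨a, b a⟩
  have hCD : C \ D = B := by rw [hDB, Finset.sdiff_sdiff_eq_self hBC]
  have hBcard : (B.card : ℝ) ≤ 140 := by
    have := h.cnt P.mm P.hmm1 le_rfl
    simpa using this
  have hR0 : 0 ≤ P.R := by
    have hB0 := B0_pos P
    have hR1' : 0 ≤ P.R1 := by
      refine le_trans ?_ P.hR1
      refine mul_nonneg (by norm_num) (Real.log_nonneg ?_)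
      have g1 : 1 ≤ 4 * P.K * P.T0 / 3 := by
        have : 1 * 64 ≤ P.K * P.T0 := mul_le_mul hK1 hT0 (by norm_num) (by linarith)
        linarith
      have g2 : 1 ≤ (4 * P.K * P.T0 / 3) ^ 40 := one_le_pow₀ g1
      have g3 : 1 ≤ 2 * P.B0 := by
        have g4 := P.hpot
        have g5 : 0 ≤ Real.exp (1 / 8) * ((3 / 4) ^ 40 * P.B0 + 2 * d + 1 +
            ∑ a ∈ range (P.mm + 1), P.gw a) :=
          mul_nonneg (Real.exp_pos _).le (by
            have : 0 ≤ ∑ a ∈ range (P.mm + 1), P.gw a := sum_nonneg fun a _ => (P.hgw a).le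
            positivity)
        have g6 : 1 ≤ P.Ym := by linarith
        have g7 := P.hB0
        have g8 : (1 : ℝ) ≤ Real.exp 7 := Real.one_le_exp (by norm_num)
        have g9 : (1 : ℝ) ≤ Real.exp (1 / 10) := Real.one_le_exp (by norm_num)
        have g10 : 1 ≤ Real.exp (1 / 10) * P.Ym := one_le_mul_of_one_le_of_one_le g9 g6
        have g11 : 1 ≤ Real.exp 7 * (Real.exp (1 / 10) * P.Ym) :=
          one_le_mul_of_one_le_of_one_le g8 g10
        linarith
      exact one_le_mul_of_one_le_of_one_le g3 g2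
    rw [P.hR]; linarith
  have hQ : ∀ k l, k ≠ l → P.T0 ^ 2 < qq v D l l →
      |qq v D k l| ≤ 2 * P.E * Real.sqrt (qq v D l l) := by
    intro k l hkl hl
    have a1 := h.off l k hkl.symm
    have b1 := (qq_abs_le_card v hv (C \ D) l k)
    have b2 := (qq_abs_le_card v hv (C \ D) l l)
    rw [qq_sdiff v hDC, hCD] at b1 b2
    rw [qq_comm]
    set s := Real.sqrt (qq v D l l) with hs
    have hs1 : P.T0 ≤ s := Real.le_sqrt_of_sq_le hl.le
    have hssq : s ^ 2 = qq v D l l := Real.sq_sqrt (qq_nonneg v D l)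
    have c1 : Real.sqrt (P.E2 + qq v C l l) ≤ 1.5 * s := by
      rw [Real.sqrt_le_left (by linarith), mul_pow, hssq]
      have := abs_le.1 b2
      have : P.E2 + 140 ≤ qq v D l l := by
        have : P.T0 * 1 ≤ P.T0 * P.T0 := mul_le_mul_of_nonneg_left (by linarith) (by linarith)
        nlinarith
      nlinarith
    have c2 : |qq v D l k| ≤ P.E * Real.sqrt (P.E2 + qq v C l l) + 140 := by
      have := abs_le.1 a1
      have := abs_le.1 b1
      rw [abs_le]; constructor <;> linarith
    have c3 : P.E * Real.sqrt (P.E2 + qq v C l l) ≤ P.E * (1.5 * s) :=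
      mul_le_mul_of_nonneg_left c1 (by linarith)
    have c4 : 140 * 1 ≤ (0.5 * P.E) * s := by
      refine mul_le_mul ?_ (by linarith) (by norm_num) (by linarith)
      rw [P.hE]; linarith
    nlinarith
  set t' := tn P v D t with ht'
  set a : Fin d → ℝ := fun k => if P.T0 ^ 2 < qq v D k k then 0 else y k with ha
  have hinit := init_pot P v D t Z Z' h.tpos h.pz.1 h.pw.1 a
    (fun k => by
      simp only [ha]; split_ifs
      · left; rfl
      · right; exact hy2 k)
    (fun k hk => by simp only [ha, hk, if_true])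
  obtain ⟨D1, hD1, s1, s2, s3, s4, s5, s6, s7⟩ := split2 v hv D age P.mm (Mn P t) y n P.hn
    (fun k => (t' k / P.T0) ^ 40) (fun k => by positivity) P.gw P.hgw
    P.T0 P.R P.E hT0 hR0 hE1 P.hTER hyR hQ P.Ym (by
      refine le_trans (add_le_add (mul_le_mul_of_nonneg_left ?_ (Real.exp_pos _).le) le_rfl)
        P.hpot
      have : ∑ k ∈ Mn P t, (t' k / P.T0) ^ 40 * Real.cosh (a k / 10) ≤
        (3 / 4) ^ 40 * P.B0 + d := hinit
      change ∑ k ∈ Mn P t, (t' k / P.T0) ^ 40 * Real.cosh (a k / 10) + d + 1 + _ ≤ _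
      linarith)
  rw [← P.hL] at s2 s3
  set D2 := D \ D1 with hD2
  have hD2D : D2 ⊆ D := sdiff_subset
  have hsmC : ∀ k, sm v C k = sm v D k + sm v B k := by
    intro k
    have := sm_sdiff v hBC k
    rw [← hDB] at this
    linarith
  have hsmD : ∀ k, sm v D2 k = sm v D k - sm v D1 k := fun k => sm_sdiff v hD1 k
  have hsmB : ∀ k, |sm v B k| ≤ 140 := fun k => by
    have h1 : |sm v B k| ≤ ∑ i ∈ B, |v i k| := abs_sum_le_sum_abs _ _
    have h2 := sum_abs_le (fun i => v i k) B 1 140 zero_le_one hBcard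
      (fun i _ => abs_v_le v hv i k)
    linarith
  have hsmB2 : ∀ k, P.K * t k < 1 → ∑ i ∈ B, |v i k| ≤ 140 * (P.K * t k) := fun k hk => by
    have h0 : 0 ≤ P.K * t k := mul_nonneg (by linarith) (h.tpos k).le
    exact sum_abs_le (fun i => v i k) B (P.K * t k) 140 h0 hBcard
      (fun i hi => (after_v h k hk).2 i (hBC hi))
  set Z1 : Fin d → ℝ := fun k => Z k + sm v D1 k with hZ1
  set Z2 : Fin d → ℝ := fun k => Z1 k + sm v B k with hZ2
  set er : Fin d → ℝ := fun k => sm v D1 k - (sm v D k / 2 -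
    if P.T0 ^ 2 < qq v D k k then y k else 0) with her
  have hZ1e : ∀ k, Z1 k = (a k + er k) + -(sm v B k / 2) := by
    intro k
    have := hsmC k
    simp only [hZ1, ha, her, hy]
    split_ifs <;> linarith
  have hZ2e : ∀ k, Z2 k = (a k + er k) + sm v B k / 2 := by
    intro k
    have := hZ1e k
    simp only [hZ2]
    linarith
  have hsB : ∀ k, |sm v B k / 2| ≤ 70 := fun k => by
    have := hsmB k
    rw [abs_div, abs_two]; linarith
  have hmain1 : ∑ k ∈ Mn P t, (t' k / P.T0) ^ 40 * Real.cosh (Z1 k / 10) ≤ P.B0 := by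
    simp only [hZ1e]
    exact shift_bound P (Mn P t) t' (fun k => a k + er k) (fun k => -(sm v B k / 2))
      (fun k => by rw [abs_neg]; exact hsB k) s1
  have hmain2 : ∑ k ∈ Mn P t, (t' k / P.T0) ^ 40 * Real.cosh (Z2 k / 10) ≤ P.B0 := by
    simp only [hZ2e]
    exact shift_bound P (Mn P t) t' (fun k => a k + er k) (fun k => sm v B k / 2)
      hsB s1
  -- after coordinates
  have hafter : ∀ k, P.K * t k < 1 →
      |Z1 k| ≤ P.R - P.Ga * (P.K * t k) + (P.L + 71) * (P.K * t k) ∧
      |Z2 k| ≤ P.R - P.Ga * (P.K * t k) + (P.L + 71) * (P.K * t k) := by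
    intro k hk
    have h0 : 0 ≤ P.K * t k := mul_nonneg (by linarith) (h.tpos k).le
    have hne := (after_v h k hk).1
    have hq : qq v D k k ≤ (P.K * t k) ^ 2 := (qq_mono v hDC k).trans (en_total h k hne)
    have hq1 : ¬ P.T0 ^ 2 < qq v D k k := by
      intro hcon
      have : (P.K * t k) ^ 2 ≤ 1 := pow_le_one₀ h0 hk.le
      nlinarith
    have hsq : Real.sqrt (qq v D k k) ≤ P.K * t k := by
      rw [Real.sqrt_le_left h0]; exact hq
    have hkM : k ∉ Mn P t := by rw [mem_Mn]; exact not_le.2 hk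
    have e1 := s2 k hkM
    have e2 : |er k| ≤ (P.L + 1) * (P.K * t k) :=
      e1.trans (mul_le_mul_of_nonneg_left hsq (by linarith))
    have e3 : |sm v B k| ≤ 140 * (P.K * t k) :=
      (abs_sum_le_sum_abs _ _).trans (hsmB2 k hk)
    have e4 : a k = y k := by simp only [ha, hq1, if_false]
    have e5 := abs_le.1 (h.pz.2 k hk)
    have e6 := abs_le.1 (h.pw.2 k hk)
    have e2' := abs_le.1 e2
    have e3' := abs_le.1 e3
    have e7 := hy2 k
    rw [hZ1e, hZ2e, e4, e7, abs_le, abs_le]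
    simp only [hZ'] at e7 ⊢
    refine ⟨⟨?_, ?_⟩, ⟨?_, ?_⟩⟩ <;> linarith
  have hslack : ∀ k, (P.L + 71) * (P.K * t k) + P.Ga * (P.K * (3 / 4 * t k)) ≤
      P.Ga * (P.K * t k) := by
    intro k
    have h0 : 0 ≤ P.K * t k := mul_nonneg (by linarith) (h.tpos k).le
    have h1 : (P.L + 71) * (P.K * t k) ≤ (P.Ga / 4) * (P.K * t k) :=
      mul_le_mul_of_nonneg_right (by linarith) h0
    nlinarith
  have ep1 : EP P t' Z1 := EP_child P v D t Z1 h.tpos hmain1 fun k hk => by
    have := (hafter k hk).1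
    have := hslack k
    linarith
  have ep2 : EP P t' Z2 := EP_child P v D t Z2 h.tpos hmain2 fun k hk => by
    have := (hafter k hk).2
    have := hslack k
    linarith
  have ep0 : EP P t' Z := EP_inherit P v D t Z h.tpos h.pz
  have ep3 : EP P t' Z' := EP_inherit P v D t Z' h.tpos h.pw
  -- cardinalities
  have hcardD : (D.card : ℝ) ≤ C.card := by exact_mod_cast card_le_card hDC
  have hcard1 : D1.card < C.card := by
    have a1 := abs_le.1 s3
    have : (D1.card : ℝ) < C.card := by linarith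
    exact_mod_cast this
  have hcardD2 : (D2.card : ℝ) = D.card - D1.card := by
    rw [hD2, card_sdiff_of_subset hD1, Nat.cast_sub (card_le_card hD1)]
  have hcard2 : D2.card < C.card := by
    have a1 := abs_le.1 s3
    have : (D2.card : ℝ) < C.card := by linarith
    exact_mod_cast this
  have g1 : Good v P.R D1 Z := by
    refine IH D1 Z t' _ hcard1 (childC hv h D hD D1 hD1 s5 s6 s7 s4 Z ep0 ep1)
  have g2 : Good v P.R B Z1 := by
    refine good_terminal v _ _ _ fun k => ?_
    rcases le_or_gt 1 (P.K * t k) with hk | hk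
    · have h3 := EP_term P (Mn P t) t' Z1 hmain1 k ((mem_Mn P t k).2 hk)
      have h5 : 3 / 4 ≤ P.K * t' k := by
        rcases tn_cases P v D t k with ⟨_, _, h6⟩ | ⟨_, h6⟩
        · have h6' : t' k = P.T0 := h6
          rw [h6']; nlinarith
        · have h6' : t' k = 3 / 4 * t k := h6
          rw [h6']; linarith
      have h4 := main_abs P _ _ h5 h3
      have h2 := sum_abs_le (fun i => v i k) B 1 140 zero_le_one hBcard
        (fun i _ => abs_v_le v hv i k)
      rw [P.hR]; linarith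
    · have h3 := (hafter k hk).1
      have h4 := hsmB2 k hk
      have h0 : 0 ≤ P.K * t k := mul_nonneg (by linarith) (h.tpos k).le
      have h5 : (P.L + 71) * (P.K * t k) + 140 * (P.K * t k) ≤ P.Ga * (P.K * t k) := by
        rw [← add_mul]
        exact mul_le_mul_of_nonneg_right (by linarith) h0
      linarith
  have g3 : Good v P.R D2 Z2 := by
    have q1 : ∀ k l, k ≠ l → |qq v D2 k l - qq v D k l / 2| ≤
        Real.sqrt (qq v D k k) / 2 + n := by
      intro k l hkl
      have a1 := s5 k l hkl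
      rw [hD2, qq_sdiff v hD1, abs_sub_comm]
      have e : qq v D k l / 2 - (qq v D k l - qq v D1 k l) = qq v D1 k l - qq v D k l / 2 := by
        ring
      rw [e]; exact a1
    have q2 : ∀ k, |qq v D2 k k - qq v D k k / 2| ≤ qq v D k k / 64 + n := by
      intro k
      have a1 := s6 k
      rw [hD2, qq_sdiff v hD1, abs_sub_comm]
      have e : qq v D k k / 2 - (qq v D k k - qq v D1 k k) = qq v D1 k k - qq v D k k / 2 := by
        ring
      rw [e]; exact a1
    have hfs : ∀ b, D2.filter (fun i => age i = b) =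
        D.filter (fun i => age i = b) \ D1.filter (fun i => age i = b) := by
      intro b
      ext i
      simp only [hD2, mem_filter, mem_sdiff, not_and]
      constructor
      · rintro ⟨⟨x1, x2⟩, x3⟩; exact ⟨⟨x1, x3⟩, fun x4 => absurd x4 x2⟩
      · rintro ⟨⟨x1, x2⟩, x3⟩; exact ⟨⟨x1, fun x4 => x3 x4 x2⟩, x2⟩
    have hfsub : ∀ b, D1.filter (fun i => age i = b) ⊆ D.filter (fun i => age i = b) :=
      fun b => filter_subset_filter _ hD1
    have q3 : ∀ k μ, (∀ i ∈ D, age i = 0 → v i k ^ 2 ≤ μ) → 0 ≤ μ →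
        |qq v (D2.filter (fun i => age i = 0)) k k -
          qq v (D.filter (fun i => age i = 0)) k k / 2| ≤
          qq v (D.filter (fun i => age i = 0)) k k / 64 + n * μ := by
      intro k μ hμ hμ0
      have a1 := s7 k μ hμ hμ0
      rw [hfs, qq_sdiff v (hfsub 0), abs_sub_comm]
      have e : qq v (D.filter (fun i => age i = 0)) k k / 2 -
          (qq v (D.filter (fun i => age i = 0)) k k - qq v (D1.filter (fun i => age i = 0)) k k) =
          qq v (D1.filter (fun i => age i = 0)) k k -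
            qq v (D.filter (fun i => age i = 0)) k k / 2 := by ring
      rw [e]; exact a1
    have q4 : ∀ b ≤ P.mm, |((D2.filter (fun i => age i = b)).card : ℝ) -
          (D.filter (fun i => age i = b)).card / 2| ≤
        (D.filter (fun i => age i = b)).card / 64 + 10 * Real.log (2 * P.Ym / P.gw b) := by
      intro b hb
      have a1 := s4 b hb
      rw [hfs, card_sdiff_of_subset (hfsub b), Nat.cast_sub (card_le_card (hfsub b)),
        abs_sub_comm]
      have e : ((D.filter (fun i => age i = b)).card : ℝ) / 2 -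
          ((D.filter (fun i => age i = b)).card - (D1.filter (fun i => age i = b)).card) =
          (D1.filter (fun i => age i = b)).card -
            (D.filter (fun i => age i = b)).card / 2 := by ring
      rw [e]; exact a1
    have hend : (fun k => Z2 k + sm v D2 k) = Z' := by
      funext k
      rw [hsmD]; simp only [hZ2, hZ1, hZ']; rw [hsmC]; ring
    exact IH D2 Z2 t' _ hcard2 (childC hv h D hD D2 hD2D q1 q2 q3 q4 Z2 ep2
      (by rw [hend]; exact ep3))
  have hdisj : Disjoint B D := by rw [hDB]; exact disjoint_sdiff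
  have g23 : Good v P.R (B ∪ D2) Z1 :=
    good_append v _ B D2 Z1 g2 g3 (hdisj.mono_right hD2D)
  have g123 : Good v P.R (D1 ∪ (B ∪ D2)) Z := by
    refine good_append v _ D1 _ Z g1 g23 ?_
    rw [disjoint_union_right]
    exact ⟨(hdisj.mono_right hD1).symm, disjoint_sdiff⟩
  have hun : D1 ∪ (B ∪ D2) = C := by
    ext i
    simp only [mem_union, hD2, mem_sdiff]
    constructor
    · rintro (h' | h' | h')
      · exact hDC (hD1 h')
      · exact hBC h'
      · exact hDC h'.1
    · intro hi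
      by_cases h1 : i ∈ B
      · exact Or.inr (Or.inl h1)
      · have hiD : i ∈ D := by rw [hDB]; exact mem_sdiff.2 ⟨hi, h1⟩
        by_cases h2 : i ∈ D1
        · exact Or.inl h2
        · exact Or.inr (Or.inr ⟨hiD, h2⟩)
  rw [hun] at g123
  exact g123

theorem rec_main2 {ι : Type} [Fintype ι] [DecidableEq ι] {d n : ℕ} {P : Par2 d n}
    {v : ι → Fin d → ℝ} (hv : ∀ i, ∑ k, v i k ^ 2 ≤ 1) (N : ℕ) :
    ∀ (C : Finset ι) (Z t : Fin d → ℝ) (age : ι → ℕ), C.card = N →
      St2 P v C Z t age → Good v P.R C Z := by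
  induction N using Nat.strong_induction_on with
  | _ N ih =>
    intro C Z t age hC h
    rcases le_or_gt (C.card : ℝ) (4 * P.L) with h1 | h1
    · exact good_small2 hv h h1
    · exact rec_step2 hv (fun X W t' age' hX h' => ih X.card (hC ▸ hX) X W t' age' rfl h') h h1

end Vale.Agent.P262
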