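import Mathlib
import Vale.Agent.P262.Rec4
import Vale.Agent.P262.Final

namespace Vale.Agent.P262

open Finset

theorem diag_main2 {ι : Type} [Fintype ι] [DecidableEq ι] {d n : ℕ} (P : Par2 d n)
    {v : ι → Fin d → ℝ} (hv : ∀ i, ∑ k, v i k ^ 2 ≤ 1) (h0 : ∀ k, ∑ i, v i k = 0)
    (hoff : ∀ k l, k ≠ l → ∑ i, v i k * v i l = 0) : Good v P.R univ (fun _ => 0) := by
  classical
  have hT0 := P.hT0
  have hL1 := P.hL1
  have hK1 := P.hK1
  have hdB : (d : ℝ) ≤ P.B0 := by
    have hB0 := B0_pos P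
    have g4 := P.hpot
    have hS : 0 ≤ ∑ a ∈ range (P.mm + 1), P.gw a := sum_nonneg fun a _ => (P.hgw a).le
    have hd0 : (0 : ℝ) ≤ d := Nat.cast_nonneg d
    have g1 : (1 : ℝ) ≤ Real.exp (1 / 8) := Real.one_le_exp (by norm_num)
    have g0 : 0 ≤ (3 / 4 : ℝ) ^ 40 * P.B0 := by positivity
    have g5 : 1 * (2 * (d : ℝ)) ≤ Real.exp (1 / 8) * ((3 / 4) ^ 40 * P.B0 + 2 * d + 1 +
        ∑ a ∈ range (P.mm + 1), P.gw a) :=
      mul_le_mul g1 (by linarith) (by linarith) (Real.exp_pos _).le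
    have g6 : 2 * (d : ℝ) ≤ P.Ym := by linarith
    have g7 := P.hB0
    have g8 : (1 : ℝ) ≤ Real.exp 7 := Real.one_le_exp (by norm_num)
    have g9 : (1 : ℝ) ≤ Real.exp (1 / 10) := Real.one_le_exp (by norm_num)
    have hY := P.hYm
    have g10 : 1 * P.Ym ≤ Real.exp (1 / 10) * P.Ym := mul_le_mul_of_nonneg_right g9 hY.le
    have g11 : 1 * (Real.exp (1 / 10) * P.Ym) ≤ Real.exp 7 * (Real.exp (1 / 10) * P.Ym) :=
      mul_le_mul_of_nonneg_right g8 (by positivity)
    linarith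
  have hep : EP P (fun _ => P.T0) (fun _ : Fin d => (0 : ℝ)) := by
    constructor
    · have hT0' : P.T0 ≠ 0 := by linarith
      simp only [zero_div, Real.cosh_zero, div_self hT0', one_pow, mul_one, sum_const,
        nsmul_eq_mul]
      have := card_le_univ (Mn P (fun _ : Fin d => P.T0))
      rw [Fintype.card_fin] at this
      have : ((Mn P (fun _ : Fin d => P.T0)).card : ℝ) ≤ d := by exact_mod_cast this
      linarith
    · intro k hk
      nlinarith
  refine rec_main2 hv _ univ (fun _ => 0) (fun _ => P.T0) (fun _ => 0) rfl ?_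
  have hz : (fun k : Fin d => (0 : ℝ) + sm v univ k) = fun _ => 0 := by
    funext k
    unfold sm
    rw [h0]; simp
  refine
    { tpos := fun _ => by linarith
      tle := fun _ => le_rfl
      agele := fun _ _ => Nat.zero_le _
      en := fun _ => Or.inr rfl
      dust := fun i _ _ k => ?_
      cnt := fun a ha _ => ?_
      off := fun k l hkl => ?_
      pz := hep
      pw := by rw [hz]; exact hep }
  · have h3 := abs_v_le v hv i k
    have h4 : v i k ^ 2 ≤ 1 := by
      rw [← sq_abs]; exact pow_le_one₀ (abs_nonneg _) h3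
    have := P.hetaT
    linarith
  · have : (univ.filter (fun _ : ι => 0 = a)) = ∅ := by
      rw [filter_eq_empty_iff]
      intro i _ hi
      omega
    rw [this]
    simp only [card_empty, Nat.cast_zero]
    positivity
  · unfold qq
    rw [hoff k l hkl, abs_zero]
    have : 0 ≤ P.E := by rw [P.hE]; positivity
    positivity

theorem final2 {N d n : ℕ} (P : Par2 d n) (hR0 : 0 ≤ P.R)
    (v : Fin N → EuclideanSpace ℝ (Fin d))
    (hv : ∀ i, ‖v i‖ ≤ 1) (h0 : ∑ i, v i = 0) :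
    ∃ π : Equiv.Perm (Fin N), ∀ k ≤ N,
      ‖∑ i ∈ univ.filter (fun i : Fin N => (i : ℕ) < k), v (π i)‖ ≤ Real.sqrt d * P.R := by
  classical
  obtain ⟨b, hb⟩ := rotate v
  set w : Fin N → Fin d → ℝ := fun i k => inner ℝ (b k) (v i) with hw
  have hw1 : ∀ i, ∑ k, w i k ^ 2 ≤ 1 := by
    intro i
    have h1 := b.sum_sq_norm_inner_right (v i)
    simp only [Real.norm_eq_abs, sq_abs] at h1
    simp only [hw]
    rw [h1]
    exact pow_le_one₀ (norm_nonneg _) (hv i)
  have hw0 : ∀ k, ∑ i, w i k = 0 := by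
    intro k
    simp only [hw]
    rw [← inner_sum, h0, inner_zero_right]
  obtain ⟨l, hl1, hl2, hl3⟩ := diag_main2 P hw1 hw0 hb
  obtain ⟨π, hπ⟩ := perm_of_list l hl1 hl2
  refine ⟨π, fun k hk => ?_⟩
  set S := ∑ i ∈ univ.filter (fun i : Fin N => (i : ℕ) < k), v (π i) with hS
  have hcoord : ∀ c, |inner ℝ (b c) S| ≤ P.R := by
    intro c
    rw [hS, inner_sum]
    have h1 := hπ (fun i => w i c) k hk
    have h2 := hl3 k c
    rw [zero_add, ← h1] at h2
    exact h2
  have h1 := b.sum_sq_norm_inner_right S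
  simp only [Real.norm_eq_abs, sq_abs] at h1
  have h2 : ‖S‖ ^ 2 ≤ d * P.R ^ 2 := by
    rw [← h1]
    refine (sum_le_card_nsmul _ _ (P.R ^ 2) fun c _ => ?_).trans (le_of_eq (by simp))
    rw [← sq_abs]
    exact pow_le_pow_left₀ (abs_nonneg _) (hcoord c) 2
  refine abs_le_of_sq_le_sq' ?_ (by positivity) |>.2
  rw [mul_pow, Real.sq_sqrt (Nat.cast_nonneg _)]
  exact h2

end Vale.Agent.P262
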