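import Mathlib
import Vale.Agent.P262.Rec2

namespace Vale.Agent.P262

open Finset

theorem hbig (X : ℝ) (hX2 : 2 ≤ X) (a : ℕ) (ha : a ≤ 38) :
    (2 : ℝ) ^ (40 - a) * X ^ a ≤ X ^ 40 := by
  calc (2 : ℝ) ^ (40 - a) * X ^ a ≤ X ^ (40 - a) * X ^ a :=
        mul_le_mul_of_nonneg_right (pow_le_pow_left₀ (by norm_num) hX2 _) (by positivity)
    _ = X ^ 40 := by rw [← pow_add]; congr 1; omega

theorem par_bounds (X lam m : ℝ) (hX2 : 2 ≤ X) (hlam : lam = 1 + Real.log X)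
    (hm0 : 0 ≤ m) (hm : m + 1 ≤ 12 * lam) :
    1 + 10 * (17 * lam) + (m + 1) * (17 * lam + 1) ≤ 400 * lam ^ 2 ∧
    8 * (1 + 10 * (17 * lam) + (m + 1) * (17 * lam + 1)) * Real.log (1 + X ^ 40) +
      (m + 1) * (17 * lam + 1) + (1 + 10 * (17 * lam)) ≤ 200000 * lam ^ 3 ∧
    0 ≤ 8 * (1 + 10 * (17 * lam) + (m + 1) * (17 * lam + 1)) * Real.log (1 + X ^ 40) +
      (m + 1) * (17 * lam + 1) + (1 + 10 * (17 * lam)) := by
  have hlogX : 0 ≤ Real.log X := Real.log_nonneg (by linarith)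
  have hlam1 : 1 ≤ lam := by linarith
  have hlog2 : Real.log 2 ≤ 0.7 := by have := Real.log_two_lt_d9; linarith
  have hML : (m + 1) * (17 * lam + 1) ≤ 216 * lam ^ 2 := by
    calc (m + 1) * (17 * lam + 1) ≤ (12 * lam) * (18 * lam) :=
          mul_le_mul hm (by linarith) (by linarith) (by linarith)
      _ = 216 * lam ^ 2 := by ring
  have hlamsq : lam ≤ lam ^ 2 := by nlinarith
  have hGle : 1 + 10 * (17 * lam) + (m + 1) * (17 * lam + 1) ≤ 400 * lam ^ 2 := by linarith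
  have hG0 : 0 ≤ 1 + 10 * (17 * lam) + (m + 1) * (17 * lam + 1) := by positivity
  have hT1 : (1 : ℝ) ≤ X ^ 40 := one_le_pow₀ (by linarith)
  have hlogT : Real.log (1 + X ^ 40) ≤ 41 * lam := by
    have h2 : Real.log (1 + X ^ 40) ≤ Real.log (2 * X ^ 40) :=
      Real.log_le_log (by positivity) (by linarith)
    rw [Real.log_mul (by norm_num) (by positivity), Real.log_pow] at h2
    push_cast at h2
    linarith
  have hlogT0 : 0 ≤ Real.log (1 + X ^ 40) := Real.log_nonneg (by linarith)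
  refine ⟨hGle, ?_, by positivity⟩
  have h1 : (1 + 10 * (17 * lam) + (m + 1) * (17 * lam + 1)) * Real.log (1 + X ^ 40) ≤
      (400 * lam ^ 2) * (41 * lam) :=
    mul_le_mul hGle hlogT hlogT0 (by positivity)
  have h2 : lam ^ 2 ≤ lam ^ 3 := pow_le_pow_right₀ hlam1 (by norm_num)
  have h3 : lam ≤ lam ^ 3 := hlamsq.trans h2
  have h4 : (1 : ℝ) ≤ lam ^ 3 := one_le_pow₀ hlam1
  have h5 : (400 * lam ^ 2) * (41 * lam) = 16400 * lam ^ 3 := by ring
  rw [h5] at h1
  have h6 : 8 * (1 + 10 * (17 * lam) + (m + 1) * (17 * lam + 1)) * Real.log (1 + X ^ 40) =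
    8 * ((1 + 10 * (17 * lam) + (m + 1) * (17 * lam + 1)) * Real.log (1 + X ^ 40)) := by ring
  rw [h6]
  linarith

theorem mm_pow (X : ℝ) (hX2 : 2 ≤ X) (mm : ℕ) (h : 12 * Real.log X ≤ mm) :
    X ^ 3 ≤ (4 / 3 : ℝ) ^ mm := by
  have hlogX : 0 ≤ Real.log X := Real.log_nonneg (by linarith)
  have h1 : (1 / 4 : ℝ) ≤ Real.log (4 / 3) := by
    have := Real.one_sub_inv_le_log_of_pos (x := 4 / 3) (by norm_num)
    norm_num at this ⊢
    linarith
  have h2 : Real.log (X ^ 3) ≤ Real.log ((4 / 3 : ℝ) ^ mm) := by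
    rw [Real.log_pow, Real.log_pow]
    push_cast
    have : (mm : ℝ) * (1 / 4) ≤ mm * Real.log (4 / 3) :=
      mul_le_mul_of_nonneg_left h1 (Nat.cast_nonneg _)
    linarith
  exact (Real.log_le_log_iff (by positivity) (by positivity)).1 h2

theorem par_ineq1 (X lam : ℝ) (hX2 : 2 ≤ X) (hlamX : lam ≤ X) :
    2 * (X ^ 2 + 6 * (17 * lam)) + 6 * (17 * lam) ≤ X ^ 40 := by
  have := hbig X hX2 2 (by norm_num)
  have h1 : X ≤ X ^ 2 := by nlinarith
  norm_num at this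
  linarith

theorem par_ineq2 (X lam : ℝ) (hX2 : 2 ≤ X) (hlamX : lam ≤ X) :
    8 * (1 + X ^ 2 + 6 * (17 * lam)) ≤ 1000 * X ^ 2 := by
  have h1 : 2 * X ≤ X ^ 2 := by nlinarith
  linarith

theorem par_ineq3 (X : ℝ) (hX2 : 2 ≤ X) : 1 < 1 / (32 * X ^ 2) * (X ^ 40) ^ 2 := by
  have h1 := hbig X hX2 2 (by norm_num)
  have h2 : (1 : ℝ) ≤ X ^ 40 := one_le_pow₀ (by linarith)
  have h0 : 0 < X ^ 2 := by positivity
  rw [one_div, inv_mul_eq_div, lt_div_iff₀ (by positivity), one_mul]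
  norm_num at h1
  have h3 : X ^ 40 * 1 ≤ X ^ 40 * X ^ 40 := mul_le_mul_of_nonneg_left h2 (by positivity)
  have h4 : (X ^ 40) ^ 2 = X ^ 40 * X ^ 40 := by ring
  rw [h4]
  linarith

theorem exists_par (d : ℕ) : ∃ P : Par d ((d + 2) ^ 2),
    P.R ≤ 200000 * (1 + Real.log (d + 2)) ^ 3 := by
  set X : ℝ := (d : ℝ) + 2 with hX
  have hd0 : (0 : ℝ) ≤ d := Nat.cast_nonneg d
  have hX2 : 2 ≤ X := by linarith
  have hXpos : 0 < X := by linarith
  have hlogX : 0 ≤ Real.log X := Real.log_nonneg (by linarith)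
  set lam : ℝ := 1 + Real.log X with hlam
  have hlam1 : 1 ≤ lam := by linarith
  have hlamX : lam ≤ X := by
    have := Real.log_le_sub_one_of_pos hXpos
    linarith
  have hlog2 : Real.log 2 ≤ 0.7 := by have := Real.log_two_lt_d9; linarith
  set mm : ℕ := ⌈12 * Real.log X⌉₊ with hmm
  have hmm1 : 12 * Real.log X ≤ mm := Nat.le_ceil _
  have hmm2 : (mm : ℝ) ≤ 12 * Real.log X + 1 := (Nat.ceil_lt_add_one (by positivity)).le
  have hmmlam : (mm : ℝ) + 1 ≤ 12 * lam := by linarith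
  have hpow := mm_pow X hX2 mm hmm1
  have hn : (((d + 2) ^ 2 : ℕ) : ℝ) = X ^ 2 := by push_cast; rw [hX]
  obtain ⟨hGle, hRle, hR0⟩ := par_bounds X lam mm hX2 hlam (Nat.cast_nonneg _) hmmlam
  refine ⟨{ L := 17 * lam, T0 := X ^ 40,
            R := 8 * (1 + 10 * (17 * lam) + (mm + 1) * (17 * lam + 1)) *
              Real.log (1 + X ^ 40) + (mm + 1) * (17 * lam + 1) + (1 + 10 * (17 * lam)),
            E := 8 * (1 + X ^ 2 + 6 * (17 * lam)),
            E2 := 2 * (X ^ 2 + 6 * (17 * lam)), eta := 1 / (32 * X ^ 2),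
            G := 1 + 10 * (17 * lam) + (mm + 1) * (17 * lam + 1),
            mm := mm, hn := le_rfl, hL1 := ?_, hL := ?_, hT0 := ?_, hE2 := ?_, hE := ?_,
            hTE := ?_, heta0 := ?_, heta := ?_, hetaT := ?_, hmm := ?_, hG := rfl, hR := rfl,
            hTER := ?_ }, ?_⟩
  · linarith
  · rw [hn, Real.log_pow]
    have e : Real.log (2 * ((d + 2 : ℕ) : ℝ)) = Real.log 2 + Real.log X := by
      rw [Real.log_mul (by norm_num) (by positivity)]
      congr 2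
      push_cast; rw [hX]
    rw [e, hlam]
    push_cast
    linarith
  · have := hbig X hX2 0 (by norm_num)
    norm_num at this
    linarith
  · rw [hn]
  · rw [hn]
  · exact par_ineq1 X lam hX2 hlamX
  · positivity
  · rw [hn]; field_simp; norm_num
  · exact par_ineq3 X hX2
  · have h1 : (d : ℝ) / (1 / (32 * X ^ 2)) = 32 * (d * X ^ 2) := by field_simp
    rw [h1]
    have h2 : (d : ℝ) * X ^ 2 ≤ X * X ^ 2 := mul_le_mul_of_nonneg_right (by linarith) (by positivity)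
    have h3 : (32 : ℝ) * X ^ 3 ≤ (6 * (17 * lam)) * (4 / 3) ^ mm :=
      mul_le_mul (by linarith) hpow (by positivity) (by linarith)
    have h4 : X * X ^ 2 = X ^ 3 := by ring
    rw [h4] at h2
    linarith
  · have h1 := hRle.trans
      (mul_le_mul_of_nonneg_left (pow_le_pow_left₀ (by linarith) hlamX 3) (by norm_num))
    have h2 : 2 * (d : ℝ) ≤ 2 * X := by linarith
    have h3 : 2 * (d : ℝ) * (8 * (1 + X ^ 2 + 6 * (17 * lam))) ≤ 2 * X * (1000 * X ^ 2) :=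
      mul_le_mul h2 (par_ineq2 X lam hX2 hlamX) (by positivity) (by positivity)
    have h4 := mul_le_mul h3 h1 hR0 (by positivity)
    have h5 := hbig X hX2 6 (by norm_num)
    refine h4.trans (le_trans (le_of_eq ?_) (le_trans (mul_le_mul_of_nonneg_right
      (by norm_num : (400000000 : ℝ) ≤ 2 ^ (40 - 6)) (by positivity : 0 ≤ X ^ 6)) h5))
    ring
  · exact hRle

end Vale.Agent.P262
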