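import Mathlib
import Vale.Agent.P262.Params
import Vale.Agent.P262.Rec4

namespace Vale.Agent.P262

open Finset

theorem exp7_le : Real.exp 7 ≤ 1101.6 := by
  have h1 := Real.exp_one_lt_d9
  have h2 : Real.exp 7 = Real.exp 1 ^ 7 := by
    rw [← Real.exp_nat_mul]; norm_num
  rw [h2]
  calc Real.exp 1 ^ 7 ≤ (2.7182818286 : ℝ) ^ 7 :=
        pow_le_pow_left₀ (Real.exp_pos _).le h1.le 7
    _ ≤ 1101.6 := by norm_num

theorem exp_tenth_le : Real.exp (1 / 10) ≤ 10 / 9 := by
  have := Real.exp_bound_div_one_sub_of_interval (x := 1 / 10) (by norm_num) (by norm_num)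
  norm_num at this ⊢
  linarith

theorem exp_eighth_le : Real.exp (1 / 8) ≤ 8 / 7 := by
  have := Real.exp_bound_div_one_sub_of_interval (x := 1 / 8) (by norm_num) (by norm_num)
  norm_num at this ⊢
  linarith

theorem gw_sum (mm : ℕ) (Ym : ℝ) (hY : 0 < Ym) :
    ∑ a ∈ range (mm + 1), Ym / 16 * (1 / 2 : ℝ) ^ (mm - a) ≤ Ym / 8 := by
  rw [← mul_sum]
  have h1 : ∑ a ∈ range (mm + 1), (1 / 2 : ℝ) ^ (mm - a) = ∑ j ∈ range (mm + 1), (1 / 2 : ℝ) ^ j := by
    have := sum_range_reflect (fun j => (1 / 2 : ℝ) ^ j) (mm + 1)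
    rw [← this]
    exact sum_congr rfl fun a _ => by simp
  have h2 : ∑ j ∈ range (mm + 1), (1 / 2 : ℝ) ^ j ≤ 2 := by
    rw [geom_sum_eq (by norm_num)]
    have : (0 : ℝ) ≤ (1 / 2) ^ (mm + 1) := by positivity
    rw [div_le_iff_of_neg (by norm_num)]
    linarith
  rw [h1]
  nlinarith

theorem hpot_aux (D X : ℝ) (hX : X = D + 2) (hD : 0 ≤ D) (S : ℝ) (hS : S ≤ 4 * X / 8)
    (hS0 : 0 ≤ S) :
    Real.exp (1 / 8) * ((3 / 4) ^ 40 * (Real.exp 7 * (Real.exp (1 / 10) * (4 * X))) +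
      2 * D + 1 + S) + 1 ≤ 4 * X := by
  have h1 := exp7_le
  have h2 := exp_tenth_le
  have h3 := exp_eighth_le
  have hXp : 0 < X := by linarith
  have h4 : Real.exp 7 * (Real.exp (1 / 10) * (4 * X)) ≤ 1101.6 * (10 / 9 * (4 * X)) :=
    mul_le_mul h1 (mul_le_mul_of_nonneg_right h2 (by linarith)) (by positivity) (by norm_num)
  have h5 : (3 / 4 : ℝ) ^ 40 * (Real.exp 7 * (Real.exp (1 / 10) * (4 * X))) ≤ 4 * X / 8 := by
    calc (3 / 4 : ℝ) ^ 40 * (Real.exp 7 * (Real.exp (1 / 10) * (4 * X))) ≤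
          (3 / 4 : ℝ) ^ 40 * (1101.6 * (10 / 9 * (4 * X))) :=
          mul_le_mul_of_nonneg_left h4 (by positivity)
      _ = ((3 / 4 : ℝ) ^ 40 * 1101.6 * (10 / 9)) * (4 * X) := by ring
      _ ≤ (1 / 8) * (4 * X) := mul_le_mul_of_nonneg_right (by norm_num) (by linarith)
      _ = 4 * X / 8 := by ring
  have h6 : 0 ≤ (3 / 4 : ℝ) ^ 40 * (Real.exp 7 * (Real.exp (1 / 10) * (4 * X))) := by positivity
  have h7 : Real.exp (1 / 8) * ((3 / 4) ^ 40 * (Real.exp 7 * (Real.exp (1 / 10) * (4 * X))) +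
      2 * D + 1 + S) ≤ 8 / 7 * (4 * X / 8 + 2 * D + 1 + 4 * X / 8) :=
    mul_le_mul h3 (by linarith) (by linarith) (by norm_num)
  linarith

theorem hcount_aux (j : ℕ) (hj : 1 ≤ j) :
    10 * Real.log (32 * 2 ^ j) ≤ 15 / 64 * (140 * (4 / 3 : ℝ) ^ j) := by
  have h1 : Real.log (32 * 2 ^ j) = (5 + j) * Real.log 2 := by
    have : (32 : ℝ) * 2 ^ j = 2 ^ (5 + j) := by rw [pow_add]; norm_num
    rw [this, Real.log_pow]; push_cast; ring
  rw [h1]
  have h2 := Real.log_two_lt_d9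
  have h3 : (1 : ℝ) + j * (1 / 3) ≤ (1 + 1 / 3) ^ j :=
    one_add_mul_le_pow (by norm_num) j
  have h4 : (1 + 1 / 3 : ℝ) = 4 / 3 := by norm_num
  rw [h4] at h3
  have h5 : (1 : ℝ) ≤ j := by exact_mod_cast hj
  have h6 : ((5 : ℝ) + j) * Real.log 2 ≤ (5 + j) * 0.6931471808 :=
    mul_le_mul_of_nonneg_left h2.le (by linarith)
  linarith

theorem mm_pow5 (X : ℝ) (hX2 : 2 ≤ X) (m : ℕ) (h : 20 * Real.log X ≤ m) :
    X ^ 5 ≤ (4 / 3 : ℝ) ^ m := by
  have hlogX : 0 ≤ Real.log X := Real.log_nonneg (by linarith)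
  have h1 : (1 / 4 : ℝ) ≤ Real.log (4 / 3) := by
    have := Real.one_sub_inv_le_log_of_pos (x := 4 / 3) (by norm_num)
    norm_num at this ⊢
    linarith
  have h2 : Real.log (X ^ 5) ≤ Real.log ((4 / 3 : ℝ) ^ m) := by
    rw [Real.log_pow, Real.log_pow]
    push_cast
    have : (m : ℝ) * (1 / 4) ≤ m * Real.log (4 / 3) :=
      mul_le_mul_of_nonneg_left h1 (Nat.cast_nonneg _)
    linarith
  exact (Real.log_le_log_iff (by positivity) (by positivity)).1 h2

theorem R1_bound (X K mr : ℝ) (hX2 : 2 ≤ X) (hK1 : 1 ≤ K) (hK : Real.log K ≤ 2 * mr)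
    (hm : mr ≤ 20 * Real.log X + 2) :
    10 * Real.log (2 * (Real.exp 7 * (Real.exp (1 / 10) * (4 * X))) * (4 * K * X ^ 40 / 3) ^ 40) ≤
      32100 * (1 + Real.log X) := by
  have hlogX : 0 ≤ Real.log X := Real.log_nonneg (by linarith)
  have e1 : Real.log (2 * (Real.exp 7 * (Real.exp (1 / 10) * (4 * X))) *
      (4 * K * X ^ 40 / 3) ^ 40) = Real.log 2 + (7 + (1 / 10 + (Real.log 4 + Real.log X))) +
      40 * ((Real.log 4 + Real.log K + 40 * Real.log X) - Real.log 3) := by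
    rw [Real.log_mul (by positivity) (by positivity), Real.log_mul (by norm_num) (by positivity),
      Real.log_mul (by positivity) (by positivity), Real.log_exp,
      Real.log_mul (by positivity) (by positivity), Real.log_exp,
      Real.log_mul (by norm_num) (by positivity), Real.log_pow,
      Real.log_div (by positivity) (by norm_num), Real.log_mul (by positivity) (by positivity),
      Real.log_mul (by norm_num) (by positivity), Real.log_pow]
    push_cast
    ring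
  rw [e1]
  have h2 := Real.log_two_lt_d9
  have h4 : Real.log 4 = 2 * Real.log 2 := by
    have : (4 : ℝ) = 2 ^ 2 := by norm_num
    rw [this, Real.log_pow]; push_cast; ring
  have h3 : 0.9 ≤ Real.log 3 := by
    have h5 := Real.log_two_gt_d9
    have h6 : Real.log 3 = Real.log 2 + Real.log 1.5 := by
      rw [← Real.log_mul (by norm_num) (by norm_num)]; norm_num
    have h7 := Real.one_sub_inv_le_log_of_pos (x := 1.5) (by norm_num)
    norm_num at h7 h6 ⊢
    linarith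
  rw [h4]
  linarith

theorem exists_par2 (d : ℕ) : ∃ (n : ℕ) (P : Par2 d n),
    P.R ≤ 40000 * (1 + Real.log (d + 2)) := by
  set X : ℝ := (d : ℝ) + 2 with hX
  have hd0 : (0 : ℝ) ≤ d := Nat.cast_nonneg d
  have hX2 : 2 ≤ X := by linarith
  have hXpos : 0 < X := by linarith
  have hlogX : 0 ≤ Real.log X := Real.log_nonneg (by linarith)
  have hlogXX : Real.log X ≤ X - 1 := Real.log_le_sub_one_of_pos hXpos
  have hXsq : 2 * X ≤ X ^ 2 := by nlinarith
  have hXsq4 : 4 ≤ X ^ 2 := by nlinarith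
  set m0 : ℕ := ⌈20 * Real.log X⌉₊ with hm0
  have hm1 : 20 * Real.log X ≤ m0 := Nat.le_ceil _
  have hm2 : (m0 : ℝ) ≤ 20 * Real.log X + 1 := (Nat.ceil_lt_add_one (by positivity)).le
  set mm : ℕ := m0 + 1 with hmm
  have hmmR : (mm : ℝ) = m0 + 1 := by rw [hmm]; push_cast; ring
  have hmm2 : (mm : ℝ) ≤ 20 * Real.log X + 2 := by rw [hmmR]; linarith
  have hpow : X ^ 5 ≤ (4 / 3 : ℝ) ^ (mm - 1) := mm_pow5 X hX2 _ (by simpa [hmm] using hm1)
  set n : ℕ := (d + 2) ^ 2 + mm with hn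
  have hnR : (n : ℝ) = X ^ 2 + mm := by rw [hn]; push_cast; rw [hX]
  have hn11 : (n : ℝ) ≤ 11 * X ^ 2 := by rw [hnR]; linarith
  have hnpos : (0 : ℝ) < n := by rw [hnR]; positivity
  set K : ℝ := (mm + 1) * (4 / 3) ^ mm with hK
  have hmm0 : (0 : ℝ) ≤ mm := Nat.cast_nonneg _
  have h43 : (1 : ℝ) ≤ (4 / 3) ^ mm := one_le_pow₀ (by norm_num)
  have hK1 : 1 ≤ K := one_le_mul_of_one_le_of_one_le (by linarith) h43
  have hlogK : Real.log K ≤ 2 * mm := by
    rw [hK, Real.log_mul (by positivity) (by positivity), Real.log_pow]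
    have h1 : Real.log ((mm : ℝ) + 1) ≤ mm := by
      have := Real.log_le_sub_one_of_pos (x := (mm : ℝ) + 1) (by positivity)
      linarith
    have h2 : Real.log (4 / 3) ≤ 1 := by
      have := Real.log_le_sub_one_of_pos (x := (4 / 3 : ℝ)) (by norm_num)
      linarith
    have h3 : (mm : ℝ) * Real.log (4 / 3) ≤ mm * 1 := mul_le_mul_of_nonneg_left h2 hmm0
    linarith
  set B0 : ℝ := Real.exp 7 * (Real.exp (1 / 10) * (4 * X)) with hB0
  set L : ℝ := 10 * Real.log (2 * (4 * X)) with hL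
  set R1 : ℝ := 10 * Real.log (2 * B0 * (4 * K * X ^ 40 / 3) ^ 40) with hR1
  have hR1le : R1 ≤ 32100 * (1 + Real.log X) := R1_bound X K mm hX2 hK1 hlogK hmm2
  have hLle : L ≤ 21 * (1 + Real.log X) := by
    have h2 := Real.log_two_lt_d9
    have h8 : Real.log (2 * (4 * X)) = 3 * Real.log 2 + Real.log X := by
      have : (2 : ℝ) * (4 * X) = 2 ^ 3 * X := by ring
      rw [this, Real.log_mul (by norm_num) (by positivity), Real.log_pow]; push_cast; ring
    rw [hL, h8]
    linarith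
  have hL1 : 1 ≤ L := by
    have h2 := Real.log_two_gt_d9
    have h8 : Real.log 2 ≤ Real.log (2 * (4 * X)) :=
      Real.log_le_log (by norm_num) (by linarith)
    rw [hL]; linarith
  have hRle : R1 + 4 * (L + 281) + 4 * L ≤ 40000 * (1 + Real.log X) := by linarith
  have hR1pos : 0 ≤ R1 := by
    rw [hR1]
    refine mul_nonneg (by norm_num) (Real.log_nonneg ?_)
    have g1 : (1 : ℝ) ≤ X ^ 40 := one_le_pow₀ (by linarith)
    have g0 := hbig X hX2 0 (by norm_num)
    norm_num at g0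
    have g2 : 1 ≤ 4 * K * X ^ 40 / 3 := by
      have : 1 * 1 ≤ K * X ^ 40 := mul_le_mul hK1 g1 (by norm_num) (by linarith)
      linarith
    have g3 : 1 ≤ 2 * B0 := by
      have g8 : (1 : ℝ) ≤ Real.exp 7 := Real.one_le_exp (by norm_num)
      have g9 : (1 : ℝ) ≤ Real.exp (1 / 10) := Real.one_le_exp (by norm_num)
      have g10 : 1 ≤ Real.exp (1 / 10) * (4 * X) :=
        one_le_mul_of_one_le_of_one_le g9 (by linarith)
      have g11 := one_le_mul_of_one_le_of_one_le g8 g10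
      linarith
    exact one_le_mul_of_one_le_of_one_le g3 (one_le_pow₀ g2)
  have hEle : 8 * (1 + (n : ℝ) + 140) ≤ 376 * X ^ 2 := by linarith
  refine ⟨n, { mm := mm, L := L, T0 := X ^ 40, R := R1 + 4 * (L + 281) + 4 * L,
               E := 8 * (1 + n + 140), E2 := 2 * (n + 140), eta := 1 / (32 * n),
               B0 := B0, Ym := 4 * X, K := K, R1 := R1, Ga := 4 * (L + 281),
               gw := fun a => 4 * X / 16 * (1 / 2 : ℝ) ^ (mm - a),
               hmm1 := ?_, hn := le_rfl, hYm := ?_, hL := rfl, hL1 := hL1, hB0 := le_rfl,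
               hgw := ?_, hpot := ?_, hcount := ?_, hnew := ?_, heta0 := ?_, heta := ?_,
               hetaT := ?_, hK1 := hK1, hK := ?_, hT0 := ?_, hE2 := rfl, hE := rfl,
               hTE := ?_, hR1 := le_rfl, hGa := rfl, hR := rfl, hTER := ?_ }, hRle⟩
  · rw [hmm]; omega
  · linarith
  · intro a; positivity
  · exact hpot_aux d X hX hd0 _ (gw_sum mm (4 * X) (by linarith))
      (sum_nonneg fun a _ => by positivity)
  · intro a ha
    have h1 : 2 * (4 * X) / (4 * X / 16 * (1 / 2 : ℝ) ^ (mm - a)) = 32 * 2 ^ (mm - a) := by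
      rw [one_div, inv_pow]
      field_simp
      ring
    rw [h1]
    exact hcount_aux (mm - a) (by omega)
  · have h1 : (d : ℝ) / (1 / (32 * n)) = 32 * (d * n) := by field_simp
    rw [h1]
    have h2 : (d : ℝ) * n ≤ X * (11 * X ^ 2) :=
      mul_le_mul (by linarith) hn11 hnpos.le hXpos.le
    have h3 : X ^ 5 = X ^ 3 * X ^ 2 := by ring
    have h4 : X ^ 3 * 4 ≤ X ^ 3 * X ^ 2 := mul_le_mul_of_nonneg_left hXsq4 (by positivity)
    have h5 : X * (11 * X ^ 2) = 11 * X ^ 3 := by ring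
    rw [h5] at h2
    have h6 : (0 : ℝ) ≤ X ^ 3 := by positivity
    linarith
  · positivity
  · have : (n : ℝ) * (1 / (32 * n)) = 1 / 32 := by field_simp
    rw [this]
  · have h1 := hbig X hX2 2 (by norm_num)
    have h2 : (1 : ℝ) ≤ X ^ 40 := one_le_pow₀ (by linarith)
    rw [one_div, inv_mul_eq_div, lt_div_iff₀ (by positivity), one_mul]
    norm_num at h1
    have h3 : X ^ 40 * 1 ≤ X ^ 40 * X ^ 40 := mul_le_mul_of_nonneg_left h2 (by positivity)
    have h4 : (X ^ 40) ^ 2 = X ^ 40 * X ^ 40 := by ring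
    rw [h4]
    linarith
  · have h1 : K ^ 2 = ((mm : ℝ) + 1) ^ 2 * (16 / 9) ^ mm := by
      rw [hK, mul_pow, ← pow_mul, mul_comm mm 2, pow_mul]; norm_num
    rw [h1]
    refine mul_le_mul_of_nonneg_right ?_ (by positivity)
    nlinarith
  · have := hbig X hX2 0 (by norm_num)
    norm_num at this
    linarith
  · have := hbig X hX2 2 (by norm_num)
    norm_num at this
    linarith
  · have h0 : 0 ≤ R1 + 4 * (L + 281) + 4 * L := by linarith
    have hlamX : 1 + Real.log X ≤ X := by linarith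
    have h1 : R1 + 4 * (L + 281) + 4 * L ≤ 40000 * X :=
      hRle.trans (mul_le_mul_of_nonneg_left hlamX (by norm_num))
    have h2 : 2 * (d : ℝ) ≤ 2 * X := by linarith
    have h3 : 2 * (d : ℝ) * (8 * (1 + n + 140)) ≤ 2 * X * (376 * X ^ 2) :=
      mul_le_mul h2 hEle (by positivity) (by positivity)
    have h4 := mul_le_mul h3 h1 h0 (by positivity)
    have h5 := hbig X hX2 4 (by norm_num)
    refine h4.trans (le_trans (le_of_eq ?_) (le_trans (mul_le_mul_of_nonneg_right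
      (by norm_num : (30080000 : ℝ) ≤ 2 ^ (40 - 4)) (by positivity : 0 ≤ X ^ 4)) h5))
    ring

end Vale.Agent.P262
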